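import Vale.Agent.P092.H34.Trn
import Vale.Agent.P092.H103.Lat
import Vale.Agent.P092.H839.Tri

/-!
P092 (helper34), [C-IND] and [D-PIC]: the concrete picture. `E` is any second countable locally
compact group, `Γ` a lattice, `ν` the invariant probability on `E / Γ`, `α` a frame for `Γ` in
`L(Λ)`.  Definitions.
-/

set_option linter.all false

open scoped InnerProductSpace ENNReal
open MeasureTheory Filter Topology ContinuousLinearMap

namespace Vale.Agent.P092.RC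

open Vale.Agent.P092.H790 Vale.Agent.P092.H85 Vale.Agent.P092.H160 Vale.Agent.P092.SR
  Vale.Agent.P092.H103 Vale.Agent.P092.H34

section con

variable {E : Type} [Group E] [TopologicalSpace E] [IsTopologicalGroup E] [LocallyCompactSpace E]
  [SecondCountableTopology E] [T2Space E] [MeasurableSpace E] [BorelSpace E]
  {Γ : Subgroup E} [DiscreteTopology Γ] [MeasurableSpace (E ⧸ Γ)] [BorelSpace (E ⧸ Γ)]
  {ν : Measure (E ⧸ Γ)} [IsProbabilityMeasure ν] [Countable Γ]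
  (hν : ∀ g : E, ν.map (fun x => g • x) = ν)
  {Λ : Type} [Group Λ] {α : Γ →* (Ell2 Λ →L[ℂ] Ell2 Λ)} (hα : Frame α)

/-- the space of the picture -/
abbrev KK (ν : Measure (E ⧸ Γ)) (Λ : Type) : Type := Lp (Ell2 (Λ × Λ)) 2 ν

/-- the representation induced from `g ↦ Δ(α g)` -/
noncomputable def pic (hν : ∀ g : E, ν.map (fun x => g • x) = ν) (hα : Frame α) :
    E →* (KK ν Λ →L[ℂ] KK ν Λ) := irep hν (H839.adj_VV hα)

/-- constant fields -/
noncomputable def con (ν : Measure (E ⧸ Γ)) [IsProbabilityMeasure ν] {ℋ : Type}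
    [NormedAddCommGroup ℋ] [InnerProductSpace ℂ ℋ] (R : Γ →* (ℋ →L[ℂ] ℋ)) :
    Γ →* (Lp ℋ 2 ν →L[ℂ] Lp ℋ 2 ν) where
  toFun g := (R g).compLpL 2 ν
  map_one' := by
    have h1 : R 1 = 1 := map_one R
    rw [h1]
    exact comp_one
  map_mul' g h := by
    rw [map_mul]
    exact comp_mul (R g) (R h)

/-- the target, first leg -/
noncomputable def lam₁ (ν : Measure (E ⧸ Γ)) [IsProbabilityMeasure ν]
    (α : Γ →* (Ell2 Λ →L[ℂ] Ell2 Λ)) : Γ →* (KK ν Λ →L[ℂ] KK ν Λ) := con ν (RR₁ α)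

/-- the target, second leg -/
noncomputable def lam₂ (ν : Measure (E ⧸ Γ)) [IsProbabilityMeasure ν]
    (α : Γ →* (Ell2 Λ →L[ℂ] Ell2 Λ)) : Γ →* (KK ν Λ →L[ℂ] KK ν Λ) := con ν (RR₂ α)

/-- the functions on `E / Γ` -/
def XX (ν : Measure (E ⧸ Γ)) (Λ : Type) : Set (KK ν Λ →L[ℂ] KK ν Λ) :=
  {T | ∃ S, MeasurableSet S ∧ T = H790.ind ν (Ell2 (Λ × Λ)) S}

/-- the constant field `δ_e` -/
noncomputable def Om (ν : Measure (E ⧸ Γ)) [IsProbabilityMeasure ν] (Λ : Type) [Group Λ] :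
    KK ν Λ := Lp.const 2 ν (dl 1)

theorem pic_eq (g : E) : pic hν hα g = iro hν (VV α) g := rfl

theorem lam₁_eq (γ : Γ) : lam₁ ν α γ = (RR₁ α γ).compLpL 2 ν := rfl

theorem lam₂_eq (γ : Γ) : lam₂ ν α γ = (RR₂ α γ).compLpL 2 ν := rfl

end con

end Vale.Agent.P092.RC
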