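import Vale.Agent.P092.H34.PicC

/-!
P092 (helper34), [C-IND] and [D-PIC]: lattices in noncompact groups are infinite; the picture in the
letters of `PicD`.
-/

set_option linter.all false

open scoped InnerProductSpace ENNReal
open MeasureTheory Filter Topology ContinuousLinearMap Matrix

namespace Vale.Agent.P092.H34.PicC

open Vale.Agent.P092.H790 Vale.Agent.P092.H85 Vale.Agent.P092.H160 Vale.Agent.P092.SR
  Vale.Agent.P092.H103 Vale.Agent.P092.H34 Vale.Agent.P092.H34.Ind Vale.Agent.P092.RC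
  Vale.Agent.P092.H839

theorem infinite_of_frame {Γ Λ : Type} [Group Γ] [Group Λ] {α : Γ →* (Ell2 Λ →L[ℂ] Ell2 Λ)}
    (hα : Frame α) (hΛ : ∀ s : Λ, s ≠ 1 → Set.Infinite {y : Λ | ∃ h, y = h * s * h⁻¹}) {γ : Γ}
    (hγ : γ ≠ 1) : Infinite Λ := by
  obtain ⟨s, hs⟩ : ∃ s : Λ, s ≠ 1 := by
    by_contra h
    push Not at h
    have h1 := hα.reg.inner_zero γ hγ
    rw [inner_dl] at h1
    have h2 : α γ (dl 1) = 0 := by
      ext x
      rw [h x, h1]
      rfl
    have h3 := hα.reg.norm_map γ (dl 1)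
    rw [h2, norm_zero, norm_dl] at h3
    norm_num at h3
  exact Set.infinite_univ_iff.1 ((hΛ s hs).mono (Set.subset_univ _))

theorem sl_noncompact {ι k : Type} [Fintype ι] [DecidableEq ι] [NontriviallyNormedField k]
    {i j : ι} (hij : i ≠ j) : NoncompactSpace (SpecialLinearGroup ι k) := by
  refine ⟨fun h => ?_⟩
  have hc : Continuous fun g : SpecialLinearGroup ι k => ‖g.1 i j‖ :=
    continuous_norm.comp ((continuous_apply_apply i j).comp continuous_subtype_val)
  obtain ⟨C, hC⟩ := (h.image hc).bddAbove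
  obtain ⟨x, hx⟩ := NormedField.exists_lt_norm k C
  have h1 := hC ⟨SpecialLinearGroup.transvection hij x, trivial, rfl⟩
  have h2 : (SpecialLinearGroup.transvection hij x).1 i j = x := by
    change (Matrix.transvection i j x) i j = x
    simp [Matrix.transvection, hij]
  change ‖(SpecialLinearGroup.transvection hij x).1 i j‖ ≤ C at h1
  rw [h2] at h1
  linarith

section lat

variable {E : Type} [Group E] [TopologicalSpace E] [IsTopologicalGroup E] [LocallyCompactSpace E]
  [SecondCountableTopology E] [T2Space E] [MeasurableSpace E] [BorelSpace E]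
  {Γ : Subgroup E} [DiscreteTopology Γ] [MeasurableSpace (E ⧸ Γ)]
  [BorelSpace (E ⧸ Γ)] {ν : Measure (E ⧸ Γ)} [IsProbabilityMeasure ν]
  (hν : ∀ g : E, ν.map (fun x => g • x) = ν)

include hν in
/-- a lattice in a noncompact group is infinite -/
theorem infinite_lat [NoncompactSpace E] : Infinite Γ := by
  by_contra h
  haveI : Finite Γ := not_infinite_iff_finite.1 h
  haveI : Fintype Γ := Fintype.ofFinite Γ
  obtain ⟨m, hm⟩ : ∃ m : Measure E, m = Measure.haar := ⟨_, rfl⟩
  haveI hmH : m.IsHaarMeasure := by rw [hm]; infer_instance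
  have h1 := H515.unfold Γ ν hν m (f := fun _ => (1 : ℝ≥0∞)) measurable_const
  have h2 : m Set.univ = ∞ := measure_univ_of_isMulLeftInvariant m
  rw [lintegral_one, h2] at h1
  have h3 : ∫⁻ x : E ⧸ Γ, (∑' v : Γ, (1 : ℝ≥0∞)) ∂ν = (Fintype.card Γ : ℝ≥0∞) := by
    rw [lintegral_const, measure_univ, mul_one, tsum_fintype]
    simp
  rw [h3] at h1
  exact (ENNReal.mul_lt_top (H515.fdom_lt_top Γ ν hν m) (ENNReal.natCast_lt_top _)).ne h1.symm

variable [Countable Γ] {Λ : Type} [Group Λ] [Countable Λ] {α : Γ →* (Ell2 Λ →L[ℂ] Ell2 Λ)}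
  (hα : Frame α)

include hν hα in
theorem infinite_Λ [NoncompactSpace E]
    (hΛ : ∀ s : Λ, s ≠ 1 → Set.Infinite {y : Λ | ∃ h, y = h * s * h⁻¹}) : Infinite Λ := by
  haveI : Infinite Γ := infinite_lat hν
  obtain ⟨γ, hγ⟩ := exists_ne (1 : Γ)
  exact infinite_of_frame hα hΛ hγ

/-- **[D-PIC]**: the picture, in the letters of `PicD`. -/
theorem pic2 [NoncompactSpace E]
    (hΛ : ∀ s : Λ, s ≠ 1 → Set.Infinite {y : Λ | ∃ h, y = h * s * h⁻¹}) :
    Pic2 (RC.pic hν hα) (lam₁ ν α) (lam₂ ν α) (XX ν Λ) (Om ν Λ) := by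
  haveI := infinite_Λ hν hα hΛ
  exact both hν hα hΛ

end lat

end Vale.Agent.P092.H34.PicC
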