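import Vale.Agent.P092.H34.Dec

/-!
P092 (helper34), team C, [C-IND]: the induced picture `K = L²(X; ℋ)` over a cocycle datum
(`H790.CData`): the representation `pi` of the source group, the constant operators `lam`, the set
`W` of multiplications and constant coefficients, decomposable operators, the trace number.
-/

set_option linter.all false

open scoped InnerProductSpace ENNReal
open MeasureTheory Filter Topology ContinuousLinearMap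

namespace Vale.Agent.P092.H34.Ind

open Vale.Agent.P092.H790 Vale.Agent.P092.H160 Vale.Agent.P092.H34

section pic

variable {D Λ Γ : Type} [Group D] [Group Λ] [Countable Λ] [Group Γ] (d : CData D Λ) {ℋ : Type}
  [NormedAddCommGroup ℋ] [InnerProductSpace ℂ ℋ] [CompleteSpace ℋ]
  {V : Λ →* (ℋ →L[ℂ] ℋ)} {R : Γ →* (ℋ →L[ℂ] ℋ)}

theorem norm_map_of_adj {G : Type} [Group G] {U : G →* (ℋ →L[ℂ] ℋ)}
    (h : ∀ v, adjoint (U v) = U v⁻¹) (v : G) (u : ℋ) : ‖U v u‖ = ‖u‖ := by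
  have h1 : ⟪U v u, U v u⟫_ℂ = ⟪u, u⟫_ℂ := by
    rw [← adjoint_inner_right, h]
    have h2 : U v⁻¹ (U v u) = (U v⁻¹ * U v) u := rfl
    rw [h2, ← map_mul, inv_mul_cancel, map_one]
    rfl
  rw [inner_self_eq_norm_sq_to_K, inner_self_eq_norm_sq_to_K] at h1
  have h2 : ‖U v u‖ ^ 2 = ‖u‖ ^ 2 := by exact_mod_cast h1
  exact (pow_left_inj₀ (norm_nonneg _) (norm_nonneg _) two_ne_zero).mp h2

theorem norm_le_of_adj {G : Type} [Group G] {U : G →* (ℋ →L[ℂ] ℋ)}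
    (h : ∀ v, adjoint (U v) = U v⁻¹) (v : G) : ‖U v‖ ≤ 1 :=
  ContinuousLinearMap.opNorm_le_bound _ zero_le_one fun u => by rw [norm_map_of_adj h, one_mul]

/-- The induced representation of the source group. -/
noncomputable def pi (hV : ∀ v, adjoint (V v) = V v⁻¹) :
    D →* (Lp ℋ 2 d.μ →L[ℂ] Lp ℋ 2 d.μ) where
  toFun g := Ri d (fun v => V v) g
  map_one' := by
    rw [ri_one d (norm_le_of_adj hV)]
    have h1 : V 1 = 1 := map_one V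
    rw [h1]
    exact comp_one
  map_mul' g h := ri_mul d (norm_le_of_adj hV) (fun v w => map_mul V v w) g h

/-- The constant operators. -/
noncomputable def lam (R : Γ →* (ℋ →L[ℂ] ℋ)) : Γ →* (Lp ℋ 2 d.μ →L[ℂ] Lp ℋ 2 d.μ) where
  toFun g := (R g).compLpL 2 d.μ
  map_one' := by
    have h1 : R 1 = 1 := map_one R
    rw [h1]
    exact comp_one
  map_mul' g h := by
    rw [map_mul]
    exact comp_mul (R g) (R h)

variable (hV : ∀ v, adjoint (V v) = V v⁻¹)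

theorem adjoint_pi (g : D) : adjoint (pi d hV g) = pi d hV g⁻¹ :=
  adjoint_ri d (norm_le_of_adj hV) hV g

theorem adjoint_lam (hR : ∀ g, adjoint (R g) = R g⁻¹) (g : Γ) :
    adjoint (lam d R g) = lam d R g⁻¹ := by
  have h1 := comp_adjoint (μ := d.μ) (R g)
  rw [hR] at h1
  exact h1

theorem pi_comp (g : D) {A : ℋ →L[ℂ] ℋ} (hA : ∀ v, A * V v = V v * A) :
    pi d hV g * A.compLpL 2 d.μ = A.compLpL 2 d.μ * pi d hV g :=
  ri_comp d (norm_le_of_adj hV) g hA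

theorem pi_lam (hc : ∀ v γ, V v * R γ = R γ * V v) (g : D) (γ : Γ) :
    pi d hV g * lam d R γ = lam d R γ * pi d hV g :=
  pi_comp d hV g fun v => (hc v γ).symm

theorem pi_ind (g : D) {S : Set d.X} (hS : MeasurableSet S) :
    pi d hV g * H790.ind d.μ ℋ S = H790.ind d.μ ℋ (d.act g⁻¹ ⁻¹' S) * pi d hV g :=
  ri_ind d (norm_le_of_adj hV) g hS

theorem pi_mul_inv (g : D) : pi d hV g * pi d hV g⁻¹ = 1 := by
  rw [← map_mul, mul_inv_cancel, map_one]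

theorem pi_inv_mul (g : D) : pi d hV g⁻¹ * pi d hV g = 1 := by
  rw [← map_mul, inv_mul_cancel, map_one]

/-- The set `W`: the multiplications by indicator functions and the constant coefficients. -/
def Wset (sc : Set (ℋ →L[ℂ] ℋ)) : Set (Lp ℋ 2 d.μ →L[ℂ] Lp ℋ 2 d.μ) :=
  {T | ∃ S, MeasurableSet S ∧ T = H790.ind d.μ ℋ S} ∪ {T | ∃ a ∈ sc, T = a.compLpL 2 d.μ}

variable {sc : Set (ℋ →L[ℂ] ℋ)}

theorem adjoint_mem_Wset (hsc : ∀ a ∈ sc, adjoint a ∈ sc) {w : Lp ℋ 2 d.μ →L[ℂ] Lp ℋ 2 d.μ}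
    (hw : w ∈ Wset d sc) : adjoint w ∈ Wset d sc := by
  rcases hw with ⟨S, hS, rfl⟩ | ⟨a, ha, rfl⟩
  · exact Or.inl ⟨S, hS, adjoint_ind hS⟩
  · exact Or.inr ⟨_, hsc a ha, comp_adjoint a⟩

theorem conj_mem_Wset (hsV : ∀ a ∈ sc, ∀ v, a * V v = V v * a) (g : D)
    {w : Lp ℋ 2 d.μ →L[ℂ] Lp ℋ 2 d.μ} (hw : w ∈ Wset d sc) :
    pi d hV g * w * pi d hV g⁻¹ ∈ Wset d sc := by
  rcases hw with ⟨S, hS, rfl⟩ | ⟨a, ha, rfl⟩
  · refine Or.inl ⟨_, (d.mp g⁻¹).measurable hS, ?_⟩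
    rw [pi_ind d hV g hS, mul_assoc, pi_mul_inv, mul_one]
  · refine Or.inr ⟨a, ha, ?_⟩
    rw [pi_comp d hV g (hsV a ha), mul_assoc, pi_mul_inv, mul_one]

theorem lam_comm_Wset (hsR : ∀ a ∈ sc, ∀ γ, a * R γ = R γ * a) (γ : Γ)
    {w : Lp ℋ 2 d.μ →L[ℂ] Lp ℋ 2 d.μ} (hw : w ∈ Wset d sc) : lam d R γ * w = w * lam d R γ := by
  rcases hw with ⟨S, hS, rfl⟩ | ⟨a, ha, rfl⟩
  · exact ind_comp hS (R γ)
  · change (R γ).compLpL 2 d.μ * a.compLpL 2 d.μ = a.compLpL 2 d.μ * (R γ).compLpL 2 d.μ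
    rw [← comp_mul, ← comp_mul, hsR a ha]

/-! ### decomposable operators -/

/-- Decomposable operators: the commutant of `W`. -/
def AA (sc : Set (ℋ →L[ℂ] ℋ)) (T : Lp ℋ 2 d.μ →L[ℂ] Lp ℋ 2 d.μ) : Prop :=
  ∀ w ∈ Wset d sc, T * w = w * T

variable {d}

theorem AA.dcm {T : Lp ℋ 2 d.μ →L[ℂ] Lp ℋ 2 d.μ} (h : AA d sc T) : Dcm T :=
  fun S hS => h _ (Or.inl ⟨S, hS, rfl⟩)

theorem AA.coef {T : Lp ℋ 2 d.μ →L[ℂ] Lp ℋ 2 d.μ} (h : AA d sc T) {a : ℋ →L[ℂ] ℋ} (ha : a ∈ sc) :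
    T * a.compLpL 2 d.μ = a.compLpL 2 d.μ * T := h _ (Or.inr ⟨a, ha, rfl⟩)

theorem AA.mul {S T : Lp ℋ 2 d.μ →L[ℂ] Lp ℋ 2 d.μ} (hS : AA d sc S) (hT : AA d sc T) :
    AA d sc (S * T) := fun w hw => by
  rw [mul_assoc, hT w hw, ← mul_assoc, hS w hw, mul_assoc]

theorem AA.add {S T : Lp ℋ 2 d.μ →L[ℂ] Lp ℋ 2 d.μ} (hS : AA d sc S) (hT : AA d sc T) :
    AA d sc (S + T) := fun w hw => by rw [add_mul, mul_add, hT w hw, hS w hw]

theorem AA.sub {S T : Lp ℋ 2 d.μ →L[ℂ] Lp ℋ 2 d.μ} (hS : AA d sc S) (hT : AA d sc T) :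
    AA d sc (S - T) := fun w hw => by rw [sub_mul, mul_sub, hT w hw, hS w hw]

theorem AA.smul (c : ℂ) {T : Lp ℋ 2 d.μ →L[ℂ] Lp ℋ 2 d.μ} (hT : AA d sc T) :
    AA d sc (c • T) := fun w hw => by rw [smul_mul_assoc, mul_smul_comm, hT w hw]

theorem AA.one : AA d sc (1 : Lp ℋ 2 d.μ →L[ℂ] Lp ℋ 2 d.μ) := fun w _ => by
  rw [one_mul, mul_one]

theorem AA.adj (hsc : ∀ a ∈ sc, adjoint a ∈ sc) {T : Lp ℋ 2 d.μ →L[ℂ] Lp ℋ 2 d.μ}
    (hT : AA d sc T) : AA d sc (adjoint T) := fun w hw => by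
  have h1 := congrArg Star.star (hT _ (adjoint_mem_Wset d hsc hw))
  rw [star_mul, star_mul, star_eq_adjoint, star_eq_adjoint, adjoint_adjoint] at h1
  exact h1.symm

theorem AA.conj (hsV : ∀ a ∈ sc, ∀ v, a * V v = V v * a) (g : D)
    {T : Lp ℋ 2 d.μ →L[ℂ] Lp ℋ 2 d.μ} (hT : AA d sc T) :
    AA d sc (pi d hV g * T * pi d hV g⁻¹) := fun w hw => by
  have h1 := hT _ (conj_mem_Wset d hV hsV g⁻¹ hw)
  rw [inv_inv] at h1
  have e1 : pi d hV g * (pi d hV g⁻¹ * w * pi d hV g) = w * pi d hV g := by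
    rw [← mul_assoc, ← mul_assoc, pi_mul_inv, one_mul]
  have e2 : (pi d hV g⁻¹ * w * pi d hV g) * pi d hV g⁻¹ = pi d hV g⁻¹ * w := by
    rw [mul_assoc, pi_mul_inv, mul_one]
  calc pi d hV g * T * pi d hV g⁻¹ * w
      = pi d hV g * T * ((pi d hV g⁻¹ * w * pi d hV g) * pi d hV g⁻¹) := by
        rw [e2, mul_assoc]
    _ = pi d hV g * (T * (pi d hV g⁻¹ * w * pi d hV g)) * pi d hV g⁻¹ := by
        simp only [mul_assoc]
    _ = pi d hV g * ((pi d hV g⁻¹ * w * pi d hV g) * T) * pi d hV g⁻¹ := by rw [h1]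
    _ = (pi d hV g * (pi d hV g⁻¹ * w * pi d hV g)) * T * pi d hV g⁻¹ := by
        simp only [mul_assoc]
    _ = w * (pi d hV g * T * pi d hV g⁻¹) := by rw [e1]; simp only [mul_assoc]

/-- constant operators are decomposable -/
theorem AA.const {A : ℋ →L[ℂ] ℋ} (hA : ∀ a ∈ sc, A * a = a * A) :
    AA d sc (A.compLpL 2 d.μ) := by
  rintro w (⟨S, hS, rfl⟩ | ⟨a, ha, rfl⟩)
  · exact ind_comp hS A
  · rw [← comp_mul, ← comp_mul, hA a ha]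

/-- The field of a decomposable operator. -/
theorem AA.exists_fld {I : Type} [Countable I] (b : HilbertBasis I ℂ ℋ) (hcs : sc.Countable)
    {T : Lp ℋ 2 d.μ →L[ℂ] Lp ℋ 2 d.μ} (hT : AA d sc T) :
    ∃ A : d.X → ℋ →L[ℂ] ℋ, (∀ x, ‖A x‖ ≤ ‖T‖) ∧
      (∀ y, AEStronglyMeasurable (fun x => A x y) d.μ) ∧ Fld T A ∧
      ∀ᵐ x ∂d.μ, ∀ a ∈ sc, A x * a = a * A x := by
  obtain ⟨A, h1, h2, h3⟩ := hT.dcm.exists_fld b
  refine ⟨A, h1, h2, h3, ?_⟩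
  rw [ae_ball_iff hcs]
  intro a ha
  have h4 : ∀ᵐ x ∂d.μ, ∀ i, (A x * a) (b i) = (a * A x) (b i) := by
    rw [ae_all_iff]
    intro i
    have h5 := hT.coef ha
    have h6 := h3 (a.compLpL 2 d.μ (Lp.const 2 d.μ (b i)))
    have h7 := h3 (Lp.const 2 d.μ (b i))
    have h8 := fld_comp (μ := d.μ) a (T (Lp.const 2 d.μ (b i)))
    have h9 := fld_comp (μ := d.μ) a (Lp.const 2 d.μ (b i))
    have h10 : T (a.compLpL 2 d.μ (Lp.const 2 d.μ (b i))) =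
        a.compLpL 2 d.μ (T (Lp.const 2 d.μ (b i))) :=
      congrArg (fun S : Lp ℋ 2 d.μ →L[ℂ] Lp ℋ 2 d.μ => S (Lp.const 2 d.μ (b i))) h5
    filter_upwards [h6, h7, h8, h9, Lp.coeFn_const (p := 2) (μ := d.μ) (b i)] with x a6 a7 a8 a9 a10
    rw [a10] at a7 a9
    change A x (a (b i)) = a (A x (b i))
    have e1 : A x (a (b i)) = (T (a.compLpL 2 d.μ (Lp.const 2 d.μ (b i))) : Lp ℋ 2 d.μ) x := by
      rw [a6, a9]
      rfl
    rw [e1, h10, a8, a7]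
    rfl
  filter_upwards [h4] with x hx
  exact ext_basis b hx

/-- Covariance of the fields. -/
theorem fld_conj {T : Lp ℋ 2 d.μ →L[ℂ] Lp ℋ 2 d.μ} {A : d.X → ℋ →L[ℂ] ℋ} (hT : Fld T A) (g : D) :
    Fld (pi d hV g * T * pi d hV g⁻¹) (fun x => V (d.c g (d.act g⁻¹ x)) * A (d.act g⁻¹ x) *
      V (d.c g (d.act g⁻¹ x))⁻¹) := by
  intro ξ
  have h1 := ri_ae d (norm_le_of_adj hV) g (T (pi d hV g⁻¹ ξ))
  have h2 := ae_comp (d.mp g⁻¹) (hT (pi d hV g⁻¹ ξ))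
  have h3 := ae_comp (d.mp g⁻¹) (ri_ae d (norm_le_of_adj hV) g⁻¹ ξ)
  filter_upwards [h1, h2, h3] with x a1 a2 a3
  change (pi d hV g (T (pi d hV g⁻¹ ξ))) x = _
  have a1' : (pi d hV g (T (pi d hV g⁻¹ ξ))) x =
      V (d.c g (d.act g⁻¹ x)) ((T (pi d hV g⁻¹ ξ)) (d.act g⁻¹ x)) := a1
  have a3' : (pi d hV g⁻¹ ξ) (d.act g⁻¹ x) =
      V (d.c g⁻¹ (d.act (g⁻¹)⁻¹ (d.act g⁻¹ x))) (ξ (d.act (g⁻¹)⁻¹ (d.act g⁻¹ x))) := a3
  rw [a1', a2, a3', inv_inv, act_inv]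
  have e1 : d.c g⁻¹ x = (d.c g (d.act g⁻¹ x))⁻¹ := by
    have := c_inv d g (d.act g⁻¹ x)
    rwa [act_inv] at this
  rw [e1]
  rfl

end pic

end Vale.Agent.P092.H34.Ind
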