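import Vale.Agent.P092.H34.AmpE

/-!
P092 (helper34), [C-AMP]: the trace fields of the picture with a finite family of vectors, any
fibre.
-/

set_option linter.all false

open scoped InnerProductSpace ENNReal
open MeasureTheory Filter Topology ContinuousLinearMap

namespace Vale.Agent.P092.H34.AmpE

open Vale.Agent.P092.RC Vale.Agent.P092.H790 Vale.Agent.P092.H85 Vale.Agent.P092.H103
  Vale.Agent.P092.H34 Vale.Agent.P092.H34.Ind Vale.Agent.P092.H34.Grp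
open Vale.Agent.P092.H421.Hs (Pf Frq trq trq_swap trq_indep norm_U cm_ap inv_ap)

/-! ### Arbitrary index sets -/

section fib

variable {Δ ℋ Q : Type} [Group Δ] [NormedAddCommGroup ℋ] [InnerProductSpace ℂ ℋ]
  [CompleteSpace ℋ] {R : Δ →* (ℋ →L[ℂ] ℋ)} {e : Q → ℋ}

theorem frqU (h : Frq R e) {U : ℋ →L[ℂ] ℋ} (hU' : U * adjoint U = 1)
    (hR : ∀ g, U * R g = R g * U) : Frq R fun i => U (e i) := by
  intro η
  have e0 : ‖adjoint U η‖ = ‖η‖ := by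
    have h3 : ⟪adjoint U η, adjoint U η⟫_ℂ = ⟪η, η⟫_ℂ := by
      rw [adjoint_inner_left]
      have : U (adjoint U η) = (U * adjoint U) η := rfl
      rw [this, hU']
      rfl
    rw [inner_self_eq_norm_sq_to_K, inner_self_eq_norm_sq_to_K] at h3
    have h4 : ‖adjoint U η‖ ^ 2 = ‖η‖ ^ 2 := by exact_mod_cast h3
    exact (pow_left_inj₀ (norm_nonneg _) (norm_nonneg _) two_ne_zero).mp h4
  have e1 : ‖η‖ₑ = ‖adjoint U η‖ₑ := by
    rw [← ofReal_norm, ← ofReal_norm, e0]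
  rw [e1, ← h (adjoint U η)]
  refine tsum_congr fun p => ?_
  change ‖⟪R p.2 (U (e p.1)), η⟫_ℂ‖ₑ ^ 2 = ‖⟪R p.2 (e p.1), adjoint U η⟫_ℂ‖ₑ ^ 2
  rw [← cm_ap (hR p.2), adjoint_inner_right]

theorem trqAdj (hRa : ∀ g, adjoint (R g) = R g⁻¹) (h : Frq R e) {A : ℋ →L[ℂ] ℋ}
    (hA : ∀ g, A * R g = R g * A) : trq e A = trq e (adjoint A) := trq_swap hRa h h hA

theorem trqConj (hRa : ∀ g, adjoint (R g) = R g⁻¹) (h : Frq R e) {A : ℋ →L[ℂ] ℋ}
    (hA : ∀ g, A * R g = R g * A) {U U' : ℋ →L[ℂ] ℋ} (hUU' : adjoint U = U') (h1 : U * U' = 1)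
    (h2 : U' * U = 1) (hR : ∀ g, U * R g = R g * U) : trq e (U * A * U') = trq e A := by
  have hUU : adjoint U' = U := by rw [← hUU', adjoint_adjoint]
  have hn : ∀ v, ‖U v‖ = ‖v‖ := by
    intro v
    have h3 : ⟪U v, U v⟫_ℂ = ⟪v, v⟫_ℂ := by
      rw [← adjoint_inner_left, hUU']
      have : U' (U v) = (U' * U) v := rfl
      rw [this, h2]
      rfl
    rw [inner_self_eq_norm_sq_to_K, inner_self_eq_norm_sq_to_K] at h3
    have h4 : ‖U v‖ ^ 2 = ‖v‖ ^ 2 := by exact_mod_cast h3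
    exact (pow_left_inj₀ (norm_nonneg _) (norm_nonneg _) two_ne_zero).mp h4
  have c1 : ∀ g, U' * R g = R g * U' := by
    intro g
    calc U' * R g = U' * (R g * (U * U')) := by rw [h1, mul_one]
      _ = U' * ((R g * U) * U') := by rw [mul_assoc (R g)]
      _ = U' * ((U * R g) * U') := by rw [hR]
      _ = (U' * U) * (R g * U') := by simp only [mul_assoc]
      _ = R g * U' := by rw [h2, one_mul]
  have hf' : Frq R fun i => U' (e i) := frqU h (by rw [hUU, h2]) c1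
  have e1 : trq e (U * A * U') = trq (fun i => U' (e i)) A := by
    refine tsum_congr fun i => ?_
    change ‖U (A (U' (e i)))‖ₑ ^ 2 = ‖A (U' (e i))‖ₑ ^ 2
    rw [← ofReal_norm, ← ofReal_norm, hn]
  rw [e1, trq_indep hRa h hf' hA]

theorem trqZero (h : Frq R e) {A : ℋ →L[ℂ] ℋ}
    (hA : ∀ g, A * R g = R g * A) (h0 : trq e A = 0) : A = 0 := by
  have h1 : ∀ i, A (e i) = 0 := by
    intro i
    have h2 := (ENNReal.tsum_eq_zero.mp h0) i
    exact enorm_eq_zero.mp ((pow_eq_zero_iff two_ne_zero).1 h2)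
  have h3 : adjoint A = 0 := by
    refine ContinuousLinearMap.ext fun v => ?_
    refine h.eq_zero fun p => ?_
    rw [adjoint_inner_right, cm_ap (hA p.2), h1, map_zero, inner_zero_left]
  have h4 := congrArg adjoint h3
  rw [adjoint_adjoint, map_zero] at h4
  exact h4

end fib

section picture

variable {D Λ Δ : Type} [Group D] [Group Λ] [Countable Λ] [Group Δ] [Countable Δ] (d : CData D Λ)
  {ℋ : Type} [NormedAddCommGroup ℋ] [InnerProductSpace ℂ ℋ] [CompleteSpace ℋ]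
  {V : Λ →* (ℋ →L[ℂ] ℋ)} {R : Δ →* (ℋ →L[ℂ] ℋ)} (hV : ∀ v, adjoint (V v) = V v⁻¹)
  {Q : Type} [Countable Q] {e : Q → ℋ}

/-- the constant fields -/
noncomputable def cstQ (e : Q → ℋ) (q : Q) : Lp ℋ 2 d.μ := Lp.const 2 d.μ (e q)

variable {d} {I : Type} [Countable I] (b : HilbertBasis I ℂ ℋ) (hRa : ∀ g, adjoint (R g) = R g⁻¹)
  (hf : Frq R e)

theorem trq_fld {T : Lp ℋ 2 d.μ →L[ℂ] Lp ℋ 2 d.μ} {A : d.X → ℋ →L[ℂ] ℋ} (hT : Fld T A)
    (hA : ∀ y, AEStronglyMeasurable (fun x => A x y) d.μ) :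
    trq (cstQ d e) T = ∫⁻ x, trq e (A x) ∂d.μ := by
  have h1 : ∀ q, ‖T (cstQ d e q)‖ₑ ^ 2 = ∫⁻ x, ‖A x (e q)‖ₑ ^ 2 ∂d.μ := by
    intro q
    rw [enorm_sq_lint]
    refine lintegral_congr_ae ?_
    filter_upwards [hT (cstQ d e q), Lp.coeFn_const (p := 2) (μ := d.μ) (e q)] with x a1 a2
    rw [a1]
    have a3 : (cstQ d e q : Lp ℋ 2 d.μ) x = e q := a2
    rw [a3]
  rw [trq]
  simp_rw [h1]
  rw [← lintegral_tsum fun q => ((hA (e q)).enorm).pow_const 2]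
  rfl

include hf hRa b in
theorem trQ_adj {T : Lp ℋ 2 d.μ →L[ℂ] Lp ℋ 2 d.μ} (hT : AA d (Set.range R) T) :
    trq (cstQ d e) (adjoint T) = trq (cstQ d e) T := by
  have hT' : AA d (Set.range R) (adjoint T) := hT.adj (by
    rintro _ ⟨g, rfl⟩
    exact ⟨g⁻¹, (hRa g).symm⟩)
  obtain ⟨A, -, m1, h3, h4⟩ := exists_fieldR b hT
  obtain ⟨B, -, m1', h3', h4'⟩ := exists_fieldR b hT'
  rw [trq_fld h3 m1, trq_fld h3' m1']
  refine lintegral_congr_ae ?_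
  filter_upwards [fld_adj b hT.dcm h3 h3', h4] with x e1 e2
  rw [e1, ← trqAdj hRa hf e2]

include hf hRa b in
theorem trQ_conj (hVR : ∀ v g, V v * R g = R g * V v)
    {T : Lp ℋ 2 d.μ →L[ℂ] Lp ℋ 2 d.μ} (hT : AA d (Set.range R) T) (g : D) :
    trq (cstQ d e) (pi d hV g * T * pi d hV g⁻¹) = trq (cstQ d e) T := by
  have hT' : AA d (Set.range R) (pi d hV g * T * pi d hV g⁻¹) := hT.conj hV (by
    rintro _ ⟨s, rfl⟩ v
    exact (hVR v s).symm) g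
  obtain ⟨A, -, m1, h3, h4⟩ := exists_fieldR b hT
  obtain ⟨B, -, m1', h3', h4'⟩ := exists_fieldR b hT'
  rw [trq_fld h3 m1, trq_fld h3' m1']
  have e0 : ∀ᵐ x ∂d.μ, trq e (B x) = trq e (A (d.act g⁻¹ x)) := by
    filter_upwards [fld_unique b h3' (fld_conj hV h3 g), ae_comp (d.mp g⁻¹) h4] with x e1 e2
    rw [e1]
    refine trqConj hRa hf e2 (hV _) ?_ ?_ (fun s => hVR _ s)
    · rw [← map_mul, mul_inv_cancel, map_one]
    · rw [← map_mul, inv_mul_cancel, map_one]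
  rw [lintegral_congr_ae e0]
  have m2 : AEMeasurable (fun x => trq e (A x)) d.μ := by
    refine AEMeasurable.ennreal_tsum fun i => ?_
    exact ((m1 (e i)).enorm).pow_const 2
  have m3 := (d.mp g⁻¹).map_eq
  have e2 := lintegral_map' (μ := d.μ) (g := d.act g⁻¹) (f := fun x => trq e (A x))
    (by rw [m3]; exact m2) (d.mp g⁻¹).measurable.aemeasurable
  rw [m3] at e2
  exact e2.symm

include hf b in
theorem trQ_zero {T : Lp ℋ 2 d.μ →L[ℂ] Lp ℋ 2 d.μ} (hT : AA d (Set.range R) T)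
    (h0 : trq (cstQ d e) T = 0) : T = 0 := by
  obtain ⟨A, -, m1, h3, h4⟩ := exists_fieldR b hT
  rw [trq_fld h3 m1] at h0
  have m2 : AEMeasurable (fun x => trq e (A x)) d.μ := by
    refine AEMeasurable.ennreal_tsum fun i => ?_
    exact ((m1 (e i)).enorm).pow_const 2
  rw [lintegral_eq_zero_iff' m2] at h0
  refine h3.ext fld_zero ?_
  filter_upwards [h0, h4] with x e1 e2
  exact trqZero hf e2 e1

end picture

/-! ### The fields of `PicF` -/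

section group

variable {E : Type} [Group E] [TopologicalSpace E] [IsTopologicalGroup E] [LocallyCompactSpace E]
  [SecondCountableTopology E] [T2Space E] [MeasurableSpace E] [BorelSpace E]
  {Λ : Subgroup E} [DiscreteTopology Λ] [Countable Λ] [MeasurableSpace (E ⧸ Λ)]
  [BorelSpace (E ⧸ Λ)] {ν : Measure (E ⧸ Λ)} [IsProbabilityMeasure ν]
  (hν : ∀ g : E, ν.map (fun x => g • x) = ν)
  {ℋ : Type} [NormedAddCommGroup ℋ] [InnerProductSpace ℂ ℋ] [CompleteSpace ℋ]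
  {V R₁ R₂ : Λ →* (ℋ →L[ℂ] ℋ)} (hV : ∀ v, adjoint (V v) = V v⁻¹)
  {I : Type} [Countable I] (b : HilbertBasis I ℂ ℋ) {ι : Type} [Fintype ι] {ξ : ι → ℋ}

/-- the trace number of the family in terms of the fibre -/
theorem trnf_nrm (T : Lp ℋ 2 (cdat ν hν).μ →L[ℂ] Lp ℋ 2 (cdat ν hν).μ) :
    TRNF (Ind.lam (cdat ν hν) R₁) (nrm hν ξ) T =
      ‖((((Real.sqrt (∑ j, ‖ξ j‖ ^ 2))⁻¹ : ℝ) : ℂ))‖ₑ ^ 2 *
        trq (cstQ (cdat ν hν) fun q : ι × Λ => R₁ q.2 (ξ q.1)) T := by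
  obtain ⟨s, hs⟩ : ∃ s : ℂ, s = (((Real.sqrt (∑ j, ‖ξ j‖ ^ 2))⁻¹ : ℝ) : ℂ) := ⟨_, rfl⟩
  rw [← hs, trq, ENNReal.tsum_prod', tsum_fintype, TRNF, Finset.mul_sum]
  refine Finset.sum_congr rfl fun i _ => ?_
  rw [TRN, ← ENNReal.tsum_mul_left]
  refine tsum_congr fun γ => ?_
  have e1 : Ind.lam (cdat ν hν) R₁ γ (nrm hν ξ i) =
      s • cstQ (cdat ν hν) (fun q : ι × Λ => R₁ q.2 (ξ q.1)) (i, γ) := by
    have e2 : nrm hν ξ i = Lp.const 2 (cdat ν hν).μ (s • ξ i) := by rw [hs]; rfl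
    rw [e2]
    have e3 : s • cstQ (cdat ν hν) (fun q : ι × Λ => R₁ q.2 (ξ q.1)) (i, γ) =
        Lp.const 2 (cdat ν hν).μ (s • R₁ γ (ξ i)) :=
      ((Lp.constₗ (E := ℋ) 2 (cdat ν hν).μ ℂ).map_smul s (R₁ γ (ξ i))).symm
    rw [e3, ← map_smul]
    refine Lp.ext ?_
    filter_upwards [fld_comp (μ := (cdat ν hν).μ) (R₁ γ) (Lp.const 2 (cdat ν hν).μ (s • ξ i)),
      Lp.coeFn_const (p := 2) (μ := (cdat ν hν).μ) (s • ξ i),
      Lp.coeFn_const (p := 2) (μ := (cdat ν hν).μ) (R₁ γ (s • ξ i))] with x a1 a2 a3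
    rw [a3]
    refine (a1.trans ?_)
    rw [a2]
    rfl
  rw [e1, map_smul, enorm_smul, mul_pow]

variable (h : SR.Tri V R₁ R₂ ξ)

include h b in
theorem tr_adj_tri {T : Lp ℋ 2 (cdat ν hν).μ →L[ℂ] Lp ℋ 2 (cdat ν hν).μ}
    (hT : Cm (Xset (cdat ν hν) ℋ ∪ Set.range (Ind.lam (cdat ν hν) R₂)) T) :
    TRNF (Ind.lam (cdat ν hν) R₁) (nrm hν ξ) (adjoint T) =
      TRNF (Ind.lam (cdat ν hν) R₁) (nrm hν ξ) T := by
  rw [trnf_nrm, trnf_nrm, trQ_adj b h.adj₂ (H421.Hs.tri_frq₂ h) ((cm_iff _).1 hT)]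

include h b in
theorem tr_conj_tri {T : Lp ℋ 2 (cdat ν hν).μ →L[ℂ] Lp ℋ 2 (cdat ν hν).μ}
    (hT : Cm (Xset (cdat ν hν) ℋ ∪ Set.range (Ind.lam (cdat ν hν) R₂)) T) (g : E) :
    TRNF (Ind.lam (cdat ν hν) R₁) (nrm hν ξ)
      (Ind.pi (cdat ν hν) hV g * T * Ind.pi (cdat ν hν) hV g⁻¹) =
      TRNF (Ind.lam (cdat ν hν) R₁) (nrm hν ξ) T := by
  rw [trnf_nrm, trnf_nrm, trQ_conj hV b h.adj₂ (H421.Hs.tri_frq₂ h) h.comm₂ ((cm_iff _).1 hT)]

include h b in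
theorem tr_zero_tri {T : Lp ℋ 2 (cdat ν hν).μ →L[ℂ] Lp ℋ 2 (cdat ν hν).μ}
    (hT : Cm (Xset (cdat ν hν) ℋ ∪ Set.range (Ind.lam (cdat ν hν) R₂)) T)
    (h0 : TRNF (Ind.lam (cdat ν hν) R₁) (nrm hν ξ) T = 0) : T = 0 := by
  rw [trnf_nrm, mul_eq_zero] at h0
  rcases h0 with h0 | h0
  · exfalso
    have h1 := (pow_eq_zero_iff two_ne_zero).1 h0
    rw [enorm_eq_zero] at h1
    have h2 : (Real.sqrt (∑ j, ‖ξ j‖ ^ 2))⁻¹ = 0 := by exact_mod_cast h1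
    have h3 : 0 < ∑ j, ‖ξ j‖ ^ 2 := by
      obtain ⟨i, hi⟩ := h.ne
      exact Finset.sum_pos' (fun _ _ => sq_nonneg _)
        ⟨i, Finset.mem_univ _, by have := norm_pos_iff.2 hi; positivity⟩
    have h4 : 0 < (Real.sqrt (∑ j, ‖ξ j‖ ^ 2))⁻¹ := by positivity
    exact h4.ne' h2
  · exact trQ_zero b (H421.Hs.tri_frq₂ h) ((cm_iff _).1 hT) h0

end group

end Vale.Agent.P092.H34.AmpE
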