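import Vale.Agent.P092.H34.PicD

/-!
P092 (helper34), [C-IND] and [D-PIC]: the model of the frame. The operators commuting with the
source and both targets are scalars, the source together with one target has the trace vector
`δ_e`.
-/

set_option linter.all false

open scoped InnerProductSpace ENNReal
open MeasureTheory Filter Topology ContinuousLinearMap

namespace Vale.Agent.P092.H34.Irr

open Vale.Agent.P092.H160 Vale.Agent.P092.SR Vale.Agent.P092.H839

variable {Γ Λ : Type} [Group Γ] [Group Λ] {α : Γ →* (Ell2 Λ →L[ℂ] Ell2 Λ)}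

theorem Del_lam (s : Λ) : Del (lam s) = lam (s, s) := by
  apply op_ext
  rintro ⟨a, b⟩
  rw [Del, mul_ap, mul_ap, rei_dl]
  change rei (eW Λ).symm (tens (lam s) 1 (dl (a, a⁻¹ * b))) = _
  rw [tens_dl, lam_dl, ContinuousLinearMap.one_apply, ← dl_prod, rei_dl, lam_dl]
  congr 1
  change ((s * a), ((s * a) * (a⁻¹ * b))) = (s * a, s * b)
  congr 1
  group

/-- conjugation by `W` -/
noncomputable def cw (A : Ell2 (Λ × Λ) →L[ℂ] Ell2 (Λ × Λ)) : Ell2 (Λ × Λ) →L[ℂ] Ell2 (Λ × Λ) :=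
  rei (eW Λ) * (A * rei (eW Λ).symm)

theorem cw_iff (A : Ell2 (Λ × Λ) →L[ℂ] Ell2 (Λ × Λ)) (x : Ell2 Λ →L[ℂ] Ell2 Λ) :
    A * Del x = Del x * A ↔
      ∀ u v : Ell2 Λ, slice (swp (cw A)) u v * x = x * slice (swp (cw A)) u v := by
  rw [← slice_comm_iff]
  constructor
  · intro h
    have e1 : cw A * tens x 1 = tens x 1 * cw A := by
      have e2 : rei (eW Λ) * (Del x * rei (eW Λ).symm) = tens x 1 := by
        rw [Del]
        calc rei (eW Λ) * (rei (eW Λ).symm * (tens x 1 * rei (eW Λ)) * rei (eW Λ).symm)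
            = (rei (eW Λ) * rei (eW Λ).symm) * (tens x 1 * (rei (eW Λ) * rei (eW Λ).symm)) := by
              simp only [mul_assoc]
          _ = tens x 1 := by rw [rei_eW_mul, one_mul, mul_one]
      calc cw A * tens x 1 = cw A * (rei (eW Λ) * (Del x * rei (eW Λ).symm)) := by rw [e2]
        _ = rei (eW Λ) * (A * (rei (eW Λ).symm * rei (eW Λ)) * Del x * rei (eW Λ).symm) := by
            simp only [cw, mul_assoc]
        _ = rei (eW Λ) * (A * Del x * rei (eW Λ).symm) := by rw [rei_eW_symm_mul, mul_one]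
        _ = rei (eW Λ) * (Del x * A * rei (eW Λ).symm) := by rw [h]
        _ = rei (eW Λ) * (Del x * (rei (eW Λ).symm * rei (eW Λ)) * A * rei (eW Λ).symm) := by
            rw [rei_eW_symm_mul, mul_one]
        _ = (rei (eW Λ) * (Del x * rei (eW Λ).symm)) * cw A := by simp only [cw, mul_assoc]
        _ = tens x 1 * cw A := by rw [e2]
    have e3 := congrArg swp e1
    rwa [swp_mul, swp_mul, swp_tens] at e3
  · intro h
    have h1 := congrArg swp h
    rw [swp_mul, swp_mul, swp_swp, swp_tens] at h1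
    have eA : A = rei (eW Λ).symm * (cw A * rei (eW Λ)) := by
      calc A = (rei (eW Λ).symm * rei (eW Λ)) * (A * (rei (eW Λ).symm * rei (eW Λ))) := by
            rw [rei_eW_symm_mul, one_mul, mul_one]
        _ = _ := by simp only [cw, mul_assoc]
    calc A * Del x = rei (eW Λ).symm * (cw A * rei (eW Λ)) *
          (rei (eW Λ).symm * (tens x 1 * rei (eW Λ))) := by rw [← eA, Del]
      _ = rei (eW Λ).symm * (cw A * (rei (eW Λ) * rei (eW Λ).symm) * tens x 1 * rei (eW Λ)) := by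
          simp only [mul_assoc]
      _ = rei (eW Λ).symm * (cw A * tens x 1 * rei (eW Λ)) := by rw [rei_eW_mul, mul_one]
      _ = rei (eW Λ).symm * (tens x 1 * cw A * rei (eW Λ)) := by rw [h1]
      _ = rei (eW Λ).symm * (tens x 1 * (rei (eW Λ) * rei (eW Λ).symm) * cw A * rei (eW Λ)) := by
          rw [rei_eW_mul, mul_one]
      _ = (rei (eW Λ).symm * (tens x 1 * rei (eW Λ))) *
          (rei (eW Λ).symm * (cw A * rei (eW Λ))) := by simp only [mul_assoc]
      _ = Del x * A := by rw [← eA, Del]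

/-- An operator which commutes with the source commutes with the diagonal of `Λ`. -/
theorem lam_of_VV (hα : Frame α) {A : Ell2 (Λ × Λ) →L[ℂ] Ell2 (Λ × Λ)}
    (hA : ∀ g, A * VV α g = VV α g * A) (s : Λ) : A * lam (s, s) = lam (s, s) * A := by
  rw [← Del_lam, cw_iff]
  intro u v
  refine RegRep.commute (π := Ja α) (σ := α) (regRep_Ja hα) hα.reg
    (fun g h => (alpha_JJ hα h g).symm) (fun g => ?_) (fun g => ?_)
  · exact ((cw_iff A (α g)).1 (hA g)) u v
  · exact (JJ_cmm (fun t => hα.comm g t) s).symm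

/-- **relative commutant of the source**: trivial if `Λ` is ICC. -/
theorem hirr (hα : Frame α) (hΛ : ∀ s : Λ, s ≠ 1 → Set.Infinite {y : Λ | ∃ h, y = h * s * h⁻¹})
    {A : Ell2 (Λ × Λ) →L[ℂ] Ell2 (Λ × Λ)} (h1 : ∀ g, A * RR₁ α g = RR₁ α g * A)
    (h2 : ∀ g, A * RR₂ α g = RR₂ α g * A) (hA : ∀ g, A * VV α g = VV α g * A) :
    ∃ c : ℂ, A = c • (1 : Ell2 (Λ × Λ) →L[ℂ] Ell2 (Λ × Λ)) := by
  have h3 := (cmm_iff hα A).1 ⟨h1, h2⟩
  have hρ : Cmm (rhoH (G := Λ × Λ)) A := fun p => h3 p.1 p.2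
  have hr := regRep_rho (G := Λ × Λ)
  have h4 : A (dl 1) = ⟪(dl 1 : Ell2 (Λ × Λ)), A (dl 1)⟫_ℂ • dl 1 := by
    refine hr.icc_vec (Set.range fun s : Λ => (s, s)) ?_ ?_
    · rintro ⟨a, b⟩ hab hfin
      have e1 : a = 1 := by
        by_contra h
        refine hΛ a h ((hfin.image Prod.fst).subset ?_)
        rintro _ ⟨s, rfl⟩
        exact ⟨_, ⟨_, ⟨s, rfl⟩, rfl⟩, rfl⟩
      have e2 : b = 1 := by
        by_contra h
        refine hΛ b h ((hfin.image Prod.snd).subset ?_)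
        rintro _ ⟨s, rfl⟩
        exact ⟨_, ⟨_, ⟨s, rfl⟩, rfl⟩, rfl⟩
      exact hab (by rw [e1, e2]; rfl)
    · rintro _ ⟨s, rfl⟩ g
      have e1 : rhoH ((s, s) * g * (s, s)⁻¹) (dl (1 : Λ × Λ)) =
          lam (s, s) (rho (s, s) (rho g (dl 1))) := by
        change rho ((s, s) * g * (s, s)⁻¹) (dl 1) = _
        rw [rho_dl, rho_dl, rho_dl, lam_dl]
        congr 1
        simp only [mul_inv_rev, inv_inv, one_mul, mul_assoc]
      have e2 : A (dl (1 : Λ × Λ)) = lam (s, s) (rho (s, s) (A (dl 1))) := by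
        have e3 : rho (s, s) (A (dl 1)) = A (rho (s, s) (dl 1)) := (hρ.apply (s, s) (dl 1)).symm
        have e4 : lam (s, s) (A (rho (s, s) (dl 1))) = A (lam (s, s) (rho (s, s) (dl 1))) :=
          (congrArg (fun T : Ell2 (Λ × Λ) →L[ℂ] Ell2 (Λ × Λ) => T (rho (s, s) (dl 1)))
            (lam_of_VV hα hA s)).symm
        rw [e3, e4]
        congr 1
        rw [rho_dl, lam_dl, one_mul, mul_inv_cancel]
      rw [e1, e2]
      have e5 := (regRep_lam (G := Λ × Λ)).inner_map (s, s) (rho (s, s) (rho g (dl 1)))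
        (rho (s, s) (A (dl 1)))
      have e6 := hr.inner_map (s, s) (rho g (dl 1)) (A (dl 1))
      rw [lamH_apply] at e5
      rw [rhoH_apply] at e6
      rw [e5, e6]
      change _ = ⟪rho g (dl 1), lam (s, s) (rho (s, s) (A (dl 1)))⟫_ℂ
      rw [← e2]
  refine ⟨⟪(dl 1 : Ell2 (Λ × Λ)), A (dl 1)⟫_ℂ, hr.ext_cmm hρ (Cmm.one.smul _) ?_⟩
  rw [ContinuousLinearMap.smul_apply, ContinuousLinearMap.one_apply]
  exact h4

/-! ### the source and one target -/

/-- source and second target -/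
noncomputable def VR (hα : Frame α) : Γ × Γ →* (Ell2 (Λ × Λ) →L[ℂ] Ell2 (Λ × Λ)) where
  toFun p := VV α p.1 * RR₂ α p.2
  map_one' := by
    change VV α 1 * RR₂ α 1 = 1
    rw [map_one, map_one, one_mul]
  map_mul' p q := by
    change VV α (p.1 * q.1) * RR₂ α (p.2 * q.2) = VV α p.1 * RR₂ α p.2 * (VV α q.1 * RR₂ α q.2)
    rw [map_mul, map_mul]
    calc VV α p.1 * VV α q.1 * (RR₂ α p.2 * RR₂ α q.2)
        = VV α p.1 * (VV α q.1 * RR₂ α p.2) * RR₂ α q.2 := by simp only [mul_assoc]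
      _ = VV α p.1 * (RR₂ α p.2 * VV α q.1) * RR₂ α q.2 := by rw [comm_VV₂ hα]
      _ = _ := by simp only [mul_assoc]

theorem rei_eW_tv (u : Ell2 Λ) : rei (eW Λ) (tv (dl 1) u) = tv (dl 1) u := by
  classical
  ext p
  obtain ⟨a, b⟩ := p
  rw [rei_apply, tv_apply, tv_apply]
  change (dl (1 : Λ) : Ell2 Λ) a * u (a * b) = (dl (1 : Λ) : Ell2 Λ) a * u b
  by_cases ha : a = 1
  · rw [ha, one_mul]
  · rw [dl_apply, if_neg ha, zero_mul, zero_mul]

theorem VR_apply (hα : Frame α) (g h : Γ) :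
    VR hα (g, h) (dl 1) = rei (eW Λ).symm (tv (α g (dl 1)) (Ja α h (dl 1))) := by
  change Del (α g) (tens 1 (JJ (α h)) (dl ((1 : Λ), (1 : Λ)))) = _
  rw [tens_dl, ContinuousLinearMap.one_apply, Del, mul_ap, mul_ap, rei_eW_tv, tens_tv,
    ContinuousLinearMap.one_apply]
  rfl

theorem regRep_VR (hα : Frame α) : RegRep (VR hα) (dl 1) where
  adj p := by
    rcases p with ⟨g, h⟩
    change adjoint (VV α g * RR₂ α h) = VV α g⁻¹ * RR₂ α h⁻¹
    rw [← star_eq_adjoint, star_mul, star_eq_adjoint, star_eq_adjoint, adj_VV hα, adj_RR₂ hα,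
      comm_VV₂ hα]
  norm_one := norm_dl 1
  inner_zero p hp := by
    rcases p with ⟨g, h⟩
    have e1 : (dl (1 : Λ × Λ) : Ell2 (Λ × Λ)) = rei (eW Λ).symm (tv (dl 1) (dl 1)) := by
      have := VR_apply hα (1 : Γ) (1 : Γ)
      have e2 : VR hα ((1 : Γ), (1 : Γ)) = 1 := map_one (VR hα)
      rw [e2, map_one, map_one] at this
      exact this
    rw [VR_apply]
    nth_rewrite 1 [e1]
    have e3 : ∀ a b : Ell2 (Λ × Λ), ⟪rei (eW Λ).symm a, rei (eW Λ).symm b⟫_ℂ = ⟪a, b⟫_ℂ := by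
      intro a b
      rw [← adjoint_inner_left, adjoint_rei, Equiv.symm_symm, ← mul_ap, rei_eW_mul]
      rfl
    rw [e3, inner_tv]
    by_cases hg : g = 1
    · have hh : h ≠ 1 := fun hh => hp (by rw [hg, hh]; rfl)
      rw [(regRep_Ja hα).inner_zero h hh, mul_zero]
    · rw [hα.reg.inner_zero g hg, zero_mul]
  total v hv := by
    obtain ⟨w, hw⟩ : ∃ w, w = rei (eW Λ) v := ⟨_, rfl⟩
    have hv' : ∀ g h, ⟪tv (α g (dl 1)) (Ja α h (dl 1)), w⟫_ℂ = 0 := by
      intro g h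
      have h1 := hv (g, h)
      rw [VR_apply, ← adjoint_inner_right, adjoint_rei, Equiv.symm_symm, ← hw] at h1
      exact h1
    have h1 : ∀ (g : Γ) (b : Ell2 Λ), ⟪tv (α g (dl 1)) b, w⟫_ℂ = 0 := by
      intro g b
      have h2 : adjoint (tvr (α g (dl 1))) w = 0 := by
        refine (regRep_Ja hα).total _ fun h => ?_
        rw [adjoint_inner_right, tvr_apply]
        exact hv' g h
      rw [← tvr_apply, ← adjoint_inner_right, h2, inner_zero_right]
    have h3 : ∀ (a b : Ell2 Λ), ⟪tv a b, w⟫_ℂ = 0 := by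
      intro a b
      have h2 : adjoint (tvl b) w = 0 := by
        refine hα.reg.total _ fun g => ?_
        rw [adjoint_inner_right, tvl_apply]
        exact h1 g b
      rw [← tvl_apply, ← adjoint_inner_right, h2, inner_zero_right]
    have h4 : w = 0 := by
      refine eq_zero_of_inner_dl ?_
      rintro ⟨a, b⟩
      rw [← inner_dl, dl_prod]
      exact h3 _ _
    have h5 : v = rei (eW Λ).symm w := by
      rw [hw, ← mul_ap, rei_eW_symm_mul]
      rfl
    rw [h5, h4, map_zero]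

/-- source and first target -/
noncomputable def VR₁ (hα : Frame α) : Γ × Γ →* (Ell2 (Λ × Λ) →L[ℂ] Ell2 (Λ × Λ)) where
  toFun p := VV α p.1 * RR₁ α p.2
  map_one' := by
    change VV α 1 * RR₁ α 1 = 1
    rw [map_one, map_one, one_mul]
  map_mul' p q := by
    change VV α (p.1 * q.1) * RR₁ α (p.2 * q.2) = VV α p.1 * RR₁ α p.2 * (VV α q.1 * RR₁ α q.2)
    rw [map_mul, map_mul]
    calc VV α p.1 * VV α q.1 * (RR₁ α p.2 * RR₁ α q.2)
        = VV α p.1 * (VV α q.1 * RR₁ α p.2) * RR₁ α q.2 := by simp only [mul_assoc]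
      _ = VV α p.1 * (RR₁ α p.2 * VV α q.1) * RR₁ α q.2 := by rw [comm_VV₁ hα]
      _ = _ := by simp only [mul_assoc]

theorem swp_VR (hα : Frame α) (p : Γ × Γ) : swp (VR hα p) = VR₁ hα p := by
  have e1 : VR hα p = Del (α p.1) * tens 1 (JJ (α p.2)) := rfl
  have e2 : VR₁ hα p = Del (α p.1) * tens (JJ (α p.2)) 1 := rfl
  rw [e1, e2, swp_mul, swp_tens, swp_Del (fun t => hα.comm p.1 t)]

theorem sw_dl_one : (sw : Ell2 (Λ × Λ) →L[ℂ] Ell2 (Λ × Λ)) (dl 1) = dl 1 := by
  have e1 : (dl (1 : Λ × Λ) : Ell2 (Λ × Λ)) = tv (dl 1) (dl 1) := dl_prod 1 1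
  rw [e1, sw_tv]

theorem sw_VR (hα : Frame α) (p : Γ × Γ) : sw (VR hα p (dl 1)) = VR₁ hα p (dl 1) := by
  rw [← swp_VR, swp, mul_ap, mul_ap, sw_dl_one]

theorem adjoint_sw : adjoint (sw : Ell2 (Λ × Λ) →L[ℂ] Ell2 (Λ × Λ)) = sw := by
  rw [sw, adjoint_rei]
  rfl

theorem regRep_VR₁ (hα : Frame α) : RegRep (VR₁ hα) (dl 1) where
  adj p := by
    rcases p with ⟨g, h⟩
    change adjoint (VV α g * RR₁ α h) = VV α g⁻¹ * RR₁ α h⁻¹
    rw [← star_eq_adjoint, star_mul, star_eq_adjoint, star_eq_adjoint, adj_VV hα, adj_RR₁ hα,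
      comm_VV₁ hα]
  norm_one := norm_dl 1
  inner_zero p hp := by
    have h1 := (regRep_VR hα).inner_zero p hp
    rw [← sw_VR, ← adjoint_inner_left, adjoint_sw, sw_dl_one]
    exact h1
  total v hv := by
    have h1 : sw v = 0 := by
      refine (regRep_VR hα).total _ fun p => ?_
      have h2 := hv p
      rw [← sw_VR, ← adjoint_inner_right, adjoint_sw] at h2
      exact h2
    have h2 : v = sw (sw v) := by
      rw [← mul_ap, sw_sw]
      rfl
    rw [h2, h1, map_zero]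

end Vale.Agent.P092.H34.Irr
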