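import Vale.Agent.P092.H34.PicD
import Vale.Agent.P092.H100.Cerg
import Vale.Agent.P092.H515.Lat

/-!
P092 (helper34), [C-IND] and [D-PIC]: decomposable operators of the induced picture as equivariant
fields over the group: `q (h v) = V v⁻¹ q(h) V v`, the action of the source is left translation.
-/

set_option linter.all false

open scoped InnerProductSpace ENNReal
open MeasureTheory Filter Topology ContinuousLinearMap

namespace Vale.Agent.P092.H34.Grp

open Vale.Agent.P092.H790 Vale.Agent.P092.H85 Vale.Agent.P092.H160 Vale.Agent.P092.H103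
  Vale.Agent.P092.H34 Vale.Agent.P092.H34.Ind
open Vale.Agent.P092.H100 (ae_left ae_right ae_sec)

section ae

variable {E : Type} [Group E] [TopologicalSpace E] [IsTopologicalGroup E] [LocallyCompactSpace E]
  [SecondCountableTopology E] [T2Space E] [MeasurableSpace E] [BorelSpace E]
  {Λ : Subgroup E} [DiscreteTopology Λ] [MeasurableSpace (E ⧸ Λ)] [BorelSpace (E ⧸ Λ)]
  {ν : Measure (E ⧸ Λ)} [IsProbabilityMeasure ν] (hν : ∀ g : E, ν.map (fun x => g • x) = ν)

/-- the lattice part of an element -/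
noncomputable def kap (Λ : Subgroup E) [DiscreteTopology Λ] [MeasurableSpace (E ⧸ Λ)]
    [BorelSpace (E ⧸ Λ)] (h : E) : Λ :=
  ⟨(sec Λ (h : E ⧸ Λ))⁻¹ * h, QuotientGroup.eq.1 (sec_coe Λ (h : E ⧸ Λ))⟩

theorem kap_coe (h : E) : (kap Λ h : E) = (sec Λ (h : E ⧸ Λ))⁻¹ * h := rfl

theorem sec_mul_kap (h : E) : sec Λ (h : E ⧸ Λ) * kap Λ h = h := by
  rw [kap_coe]; group

theorem kap_mul (h : E) (v : Λ) : kap Λ (h * v) = kap Λ h * v := by
  apply Subtype.ext
  have e1 : ((h * (v : E) : E) : E ⧸ Λ) = (h : E ⧸ Λ) := QuotientGroup.mk_mul_of_mem h v.2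
  rw [Subgroup.coe_mul, kap_coe, kap_coe, e1, mul_assoc]

theorem kap_left (g h : E) : kap Λ (g * h) = coc Λ g (h : E ⧸ Λ) * kap Λ h := by
  apply Subtype.ext
  rw [Subgroup.coe_mul, kap_coe, kap_coe, coc_coe]
  have e1 : ((g * h : E) : E ⧸ Λ) = g • (h : E ⧸ Λ) := rfl
  rw [e1]
  group

theorem kap_sec (x : E ⧸ Λ) : kap Λ (sec Λ x) = 1 := by
  apply Subtype.ext
  rw [kap_coe, sec_coe]
  simp

theorem kap_meas : Measurable fun h : E => (kap Λ h : E) :=
  (((sec_meas Λ).comp (H515.mk_meas Λ)).inv).mul measurable_id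

theorem kap_set (v : Λ) : MeasurableSet {h : E | kap Λ h = v} := by
  have h1 : MeasurableSet ((fun h : E => (kap Λ h : E)) ⁻¹' {(v : E)}) :=
    kap_meas (measurableSet_singleton (v : E))
  have e : {h : E | kap Λ h = v} = (fun h : E => (kap Λ h : E)) ⁻¹' {(v : E)} := by
    apply Set.ext
    intro h
    constructor
    · intro hh
      have h2 : kap Λ h = v := hh
      change (kap Λ h : E) = (v : E)
      rw [h2]
    · intro hh
      have h2 : (kap Λ h : E) = (v : E) := hh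
      exact Subtype.ext h2
  rw [e]
  exact h1

include hν in
/-- null sets of the quotient are null in the group -/
theorem ae_up {P : E ⧸ Λ → Prop} (hP : ∀ᵐ x ∂ν, P x) :
    ∀ᵐ h ∂(Measure.haar : Measure E), P ((h : E) : E ⧸ Λ) := by
  classical
  haveI hcl : IsClosed (Λ : Set E) := Subgroup.isClosed_of_discrete
  have hct : Countable Λ := H515.countable_lat Λ
  obtain ⟨m, hm⟩ : ∃ m : Measure E, m = Measure.haar := ⟨_, rfl⟩
  haveI hmH : m.IsHaarMeasure := by rw [hm]; infer_instance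
  obtain ⟨N, hN⟩ : ∃ N : Set (E ⧸ Λ), N = toMeasurable ν {x | ¬ P x} := ⟨_, rfl⟩
  have hNm : MeasurableSet N := by rw [hN]; exact measurableSet_toMeasurable _ _
  have hN0 : ν N = 0 := by rw [hN, measure_toMeasurable]; exact hP
  obtain ⟨c, hc, h1, -⟩ := H515.exists_unf_eq Λ ν hν m
  have hMm : MeasurableSet ((fun h : E => (h : E ⧸ Λ)) ⁻¹' N) := (H515.mk_meas Λ) hNm
  have h2 : H515.unf Λ ν ((fun h : E => (h : E ⧸ Λ)) ⁻¹' N) = 0 := by
    rw [← lintegral_indicator_one hMm, H515.lintegral_unf Λ ν (measurable_one.indicator hMm)]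
    have h3 : ∀ x : E ⧸ Λ, (∑' v : Λ, ((fun h : E => (h : E ⧸ Λ)) ⁻¹' N).indicator
        (1 : E → ℝ≥0∞) (sec Λ x * v)) = ∑' v : Λ, N.indicator (1 : E ⧸ Λ → ℝ≥0∞) x := by
      intro x
      refine tsum_congr fun v => ?_
      have e1 : ((sec Λ x * (v : E) : E) : E ⧸ Λ) = x := by
        rw [QuotientGroup.mk_mul_of_mem _ v.2, sec_coe]
      by_cases hx : x ∈ N
      · rw [Set.indicator_of_mem hx, Set.indicator_of_mem]
        · rfl
        · change ((sec Λ x * (v : E) : E) : E ⧸ Λ) ∈ N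
          rw [e1]; exact hx
      · rw [Set.indicator_of_notMem hx, Set.indicator_of_notMem]
        change ((sec Λ x * (v : E) : E) : E ⧸ Λ) ∉ N
        rw [e1]; exact hx
    simp_rw [h3]
    rw [lintegral_tsum fun v => (measurable_one.indicator hNm).aemeasurable]
    rw [ENNReal.tsum_eq_zero]
    intro v
    rw [lintegral_indicator_one hNm, hN0]
  rw [h1] at h2
  have h3 : m ((fun h : E => (h : E ⧸ Λ)) ⁻¹' N) = 0 := by
    rw [Measure.smul_apply, ENNReal.smul_def, smul_eq_mul, mul_eq_zero] at h2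
    rcases h2 with h2 | h2
    · exact absurd h2 (by exact_mod_cast hc.ne')
    · exact h2
  rw [hm] at h3
  rw [ae_iff]
  refine measure_mono_null (fun h hh => ?_) h3
  change (h : E ⧸ Λ) ∈ N
  rw [hN]
  exact subset_toMeasurable _ _ hh

/-- measurable functions on the group which are invariant, for each `g`, almost everywhere -/
theorem group_const {Y : Type*} [MetricSpace Y] {f : E → Y}
    (hf : AEStronglyMeasurable f (Measure.haar : Measure E))
    (hall : ∀ g : E, ∀ᵐ h ∂(Measure.haar : Measure E), f (g * h) = f h) :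
    ∃ c, ∀ᵐ h ∂(Measure.haar : Measure E), f h = c := by
  obtain ⟨m, hm⟩ : ∃ m : Measure E, m = Measure.haar := ⟨_, rfl⟩
  haveI hmH : m.IsHaarMeasure := by rw [hm]; infer_instance
  obtain ⟨F, hF, hfF⟩ := hf
  have hall' : ∀ g : E, ∀ᵐ h ∂(Measure.haar : Measure E), F (g * h) = F h := by
    intro g
    filter_upwards [hall g, hfF, ae_left hfF g] with h h1 h2 h3
    rw [← h2, ← h3, h1]
  have hNm : MeasurableSet {p : E × E | F (p.1 * p.2) = F p.2} :=
    StronglyMeasurable.measurableSet_eq_fun (hF.comp_measurable measurable_mul)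
      (hF.comp_measurable measurable_snd)
  rw [← hm] at hall'
  have h2 : ∀ᵐ x ∂m, ∀ᵐ g ∂m, F (g * x) = F x :=
    (Measure.ae_ae_comm (μ := m) (ν := m) hNm).1 (Eventually.of_forall hall')
  haveI : NeZero m := ⟨by rw [hm]; exact NeZero.ne _⟩
  obtain ⟨x₀, hx₀⟩ := h2.exists
  refine ⟨F x₀, ?_⟩
  rw [hm] at hx₀
  have h3 := ae_right hx₀ x₀⁻¹
  filter_upwards [h3, hfF] with g h4 h5
  rw [h5, ← h4, inv_mul_cancel_right]

end ae

section gf

variable {E : Type} [Group E] [TopologicalSpace E] [IsTopologicalGroup E] [LocallyCompactSpace E]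
  [SecondCountableTopology E] [T2Space E] [MeasurableSpace E] [BorelSpace E]
  {Λ : Subgroup E} [DiscreteTopology Λ] [MeasurableSpace (E ⧸ Λ)] [BorelSpace (E ⧸ Λ)]
  {ν : Measure (E ⧸ Λ)} [IsProbabilityMeasure ν] (hν : ∀ g : E, ν.map (fun x => g • x) = ν)
  {K : Type} [NormedAddCommGroup K] [InnerProductSpace ℂ K] [CompleteSpace K]
  {V : Λ →* (K →L[ℂ] K)}

/-- `q` is the equivariant field of the decomposable operator `T`. -/
structure GF (ν : Measure (E ⧸ Λ)) (V : Λ →* (K →L[ℂ] K)) (T : Lp K 2 ν →L[ℂ] Lp K 2 ν)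
    (q : E → (K →L[ℂ] K)) : Prop where
  fld : Fld T fun x => q (sec Λ x)
  equi : ∀ (h : E) (v : Λ), q (h * v) = V v⁻¹ * q h * V v
  meas : ∀ u, AEStronglyMeasurable (fun h => q h u) (Measure.haar : Measure E)

omit [IsTopologicalGroup E] [LocallyCompactSpace E] [SecondCountableTopology E] [T2Space E]
  [MeasurableSpace E] [BorelSpace E] [DiscreteTopology Λ] [MeasurableSpace (E ⧸ Λ)]
  [BorelSpace (E ⧸ Λ)] [CompleteSpace K] [TopologicalSpace E] in
theorem V_inv (V : Λ →* (K →L[ℂ] K)) (v : Λ) : V v * V v⁻¹ = 1 := by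
  rw [← map_mul, mul_inv_cancel, map_one]

omit [IsTopologicalGroup E] [LocallyCompactSpace E] [SecondCountableTopology E] [T2Space E]
  [MeasurableSpace E] [BorelSpace E] [DiscreteTopology Λ] [MeasurableSpace (E ⧸ Λ)]
  [BorelSpace (E ⧸ Λ)] [CompleteSpace K] [TopologicalSpace E] in
theorem V_inv' (V : Λ →* (K →L[ℂ] K)) (v : Λ) : V v⁻¹ * V v = 1 := by
  rw [← map_mul, inv_mul_cancel, map_one]

/-- the equivariant field of a field on the quotient -/
noncomputable def gf (V : Λ →* (K →L[ℂ] K)) (A : E ⧸ Λ → (K →L[ℂ] K)) (h : E) : K →L[ℂ] K :=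
  V (kap Λ h)⁻¹ * A (h : E ⧸ Λ) * V (kap Λ h)

theorem gf_equi (A : E ⧸ Λ → (K →L[ℂ] K)) (h : E) (v : Λ) :
    gf V A (h * v) = V v⁻¹ * gf V A h * V v := by
  have e1 : ((h * (v : E) : E) : E ⧸ Λ) = (h : E ⧸ Λ) := QuotientGroup.mk_mul_of_mem h v.2
  rw [gf, gf, kap_mul, e1, mul_inv_rev, map_mul, map_mul]
  simp only [mul_assoc]

theorem gf_sec (A : E ⧸ Λ → (K →L[ℂ] K)) (x : E ⧸ Λ) : gf V A (sec Λ x) = A x := by
  rw [gf, kap_sec, inv_one, map_one, one_mul, mul_one, sec_coe]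

include hν in
theorem gf_meas [Countable Λ] {A : E ⧸ Λ → (K →L[ℂ] K)}
    (hA : ∀ u, AEStronglyMeasurable (fun x => A x u) ν) (u : K) :
    AEStronglyMeasurable (fun h => gf V A h u) (Measure.haar : Measure E) := by
  have h1 : ∀ u : K, AEStronglyMeasurable (fun h : E => A (h : E ⧸ Λ) u)
      (Measure.haar : Measure E) := by
    intro u
    obtain ⟨f, hf, hAf⟩ := hA u
    have h2 : ∀ᵐ h ∂(Measure.haar : Measure E), A ((h : E) : E ⧸ Λ) u = f ((h : E) : E ⧸ Λ) :=
      ae_up hν (P := fun x => A x u = f x) hAf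
    have h3 : StronglyMeasurable fun h : E => f ((h : E) : E ⧸ Λ) :=
      hf.comp_measurable (H515.mk_meas Λ)
    exact ⟨_, h3, h2⟩
  have h2 := aesm_countable (μ := (Measure.haar : Measure E)) (k := fun h : E => kap Λ h)
    (F := fun (v : Λ) (h : E) => V v⁻¹ (A (h : E ⧸ Λ) (V v u))) kap_set (fun v =>
      (V v⁻¹).continuous.comp_aestronglyMeasurable (h1 (V v u)))
  exact h2

include hν in
/-- every decomposable operator has an equivariant field over the group -/
theorem exists_gf [Countable Λ] {I : Type} [Countable I] (b : HilbertBasis I ℂ K)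
    (hV : ∀ v, adjoint (V v) = V v⁻¹) {T : Lp K 2 ν →L[ℂ] Lp K 2 ν} (hT : Dcm T) :
    ∃ q : E → (K →L[ℂ] K), GF ν V T q ∧ ∀ h, ‖q h‖ ≤ ‖T‖ := by
  obtain ⟨A, h1, h2, h3⟩ := hT.exists_fld b
  refine ⟨gf V A, ⟨?_, gf_equi A, gf_meas hν h2⟩, fun h => ?_⟩
  · have e : (fun x : E ⧸ Λ => gf V A (sec Λ x)) = A := funext fun x => gf_sec A x
    rw [e]
    exact h3
  · refine ContinuousLinearMap.opNorm_le_bound _ (norm_nonneg _) fun u => ?_
    change ‖V (kap Λ h)⁻¹ (A (h : E ⧸ Λ) (V (kap Λ h) u))‖ ≤ _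
    rw [Ind.norm_map_of_adj hV]
    refine ((A _).le_opNorm _).trans ?_
    rw [Ind.norm_map_of_adj hV]
    exact mul_le_mul_of_nonneg_right (h1 _) (norm_nonneg _)

namespace GF

variable {S T : Lp K 2 ν →L[ℂ] Lp K 2 ν} {p q : E → (K →L[ℂ] K)}

theorem at_sec (h : GF ν V T q) (x : E) :
    q x = V (kap Λ x)⁻¹ * q (sec Λ (x : E ⧸ Λ)) * V (kap Λ x) := by
  rw [← h.equi, sec_mul_kap]

theorem mul (hS : GF ν V S p) (hT : GF ν V T q)
    (hm : ∀ u, AEStronglyMeasurable (fun h => (p h * q h) u) (Measure.haar : Measure E)) :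
    GF ν V (S * T) fun h => p h * q h where
  fld := hS.fld.mul hT.fld
  equi h v := by
    rw [hS.equi, hT.equi]
    calc V v⁻¹ * p h * V v * (V v⁻¹ * q h * V v)
        = V v⁻¹ * p h * (V v * V v⁻¹) * q h * V v := by simp only [mul_assoc]
      _ = _ := by rw [V_inv, mul_one]; simp only [mul_assoc]
  meas := hm

theorem add (hS : GF ν V S p) (hT : GF ν V T q) : GF ν V (S + T) fun h => p h + q h where
  fld := hS.fld.add hT.fld
  equi h v := by rw [hS.equi, hT.equi, mul_add, add_mul]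
  meas u := (hS.meas u).add (hT.meas u)

theorem sub (hS : GF ν V S p) (hT : GF ν V T q) : GF ν V (S - T) fun h => p h - q h where
  fld := hS.fld.sub hT.fld
  equi h v := by rw [hS.equi, hT.equi, mul_sub, sub_mul]
  meas u := (hS.meas u).sub (hT.meas u)

/-- constant fields -/
theorem const {A : K →L[ℂ] K} (hA : ∀ v, A * V v = V v * A) :
    GF ν V (A.compLpL 2 ν) fun _ => A where
  fld := fld_comp A
  equi h v := by rw [mul_assoc, hA, ← mul_assoc, V_inv', one_mul]
  meas u := aestronglyMeasurable_const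

include hν in
theorem unique {I : Type} [Countable I] [IsProbabilityMeasure ν] (b : HilbertBasis I ℂ K)
    (h1 : GF ν V T p) (h2 : GF ν V T q) : ∀ᵐ h ∂(Measure.haar : Measure E), p h = q h := by
  filter_upwards [ae_up hν (fld_unique b h1.fld h2.fld)] with h hh
  rw [h1.at_sec, h2.at_sec, hh]

include hν in
theorem ext [Countable Λ] (h1 : GF ν V S p) (h2 : GF ν V T q)
    (h : ∀ᵐ x ∂(Measure.haar : Measure E), p x = q x) : S = T := by
  refine h1.fld.ext h2.fld ?_
  filter_upwards [ae_sec hν h] with x hx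
  have := hx 1
  rwa [Subgroup.coe_one, mul_one] at this

include hν in
theorem adj {I : Type} [Countable I] (b : HilbertBasis I ℂ K) (hT : Dcm T)
    (h1 : GF ν V T p) (h2 : GF ν V (adjoint T) q) (hV : ∀ v, adjoint (V v) = V v⁻¹) :
    ∀ᵐ h ∂(Measure.haar : Measure E), q h = adjoint (p h) := by
  filter_upwards [ae_up hν (fld_adj b hT h1.fld h2.fld)] with h hh
  rw [h1.at_sec, h2.at_sec, hh]
  have e : ∀ X Y Z : K →L[ℂ] K, adjoint (X * Y * Z) = adjoint Z * adjoint Y * adjoint X := by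
    intro X Y Z
    rw [← star_eq_adjoint, star_mul, star_mul, ← mul_assoc]
    rfl
  rw [e, hV, hV, inv_inv]

/-- the source acts by left translation -/
theorem left [Countable Λ] (hV : ∀ v, adjoint (V v) = V v⁻¹) (h1 : GF ν V T q) (g : E) :
    GF ν V (iro hν V g * T * iro hν V g⁻¹) fun h => q (g⁻¹ * h) where
  fld := by
    have h2 := fld_conj (d := cdat ν hν) hV h1.fld g
    refine Fld.congr h2 (Eventually.of_forall fun x => ?_)
    obtain ⟨c, hc⟩ : ∃ c : Λ, c = coc Λ g (g⁻¹ • x) := ⟨_, rfl⟩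
    have e1 : g⁻¹ * sec Λ x = sec Λ (g⁻¹ • x) * ((c⁻¹ : Λ) : E) := by
      rw [hc, Subgroup.coe_inv, coc_coe, smul_inv_smul]
      group
    have e2 : q (g⁻¹ * sec Λ x) = V c * q (sec Λ (g⁻¹ • x)) * V c⁻¹ := by
      rw [e1, h1.equi, inv_inv]
    change V (coc Λ g (g⁻¹ • x)) * q (sec Λ (g⁻¹ • x)) * V (coc Λ g (g⁻¹ • x))⁻¹ = _
    rw [← hc]
    exact e2.symm
  equi h v := by
    change q (g⁻¹ * (h * v)) = _
    rw [← mul_assoc, h1.equi]
  meas u := by
    have h2 := (measurePreserving_mul_left (Measure.haar : Measure E) g⁻¹)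
    exact (h1.meas u).comp_quasiMeasurePreserving h2.quasiMeasurePreserving

include hν in
/-- commutation with the constant operators -/
theorem comm_const [Countable Λ] {I : Type} [Countable I] (b : HilbertBasis I ℂ K)
    (h1 : GF ν V T q) {A : K →L[ℂ] K} (hA : ∀ v, A * V v = V v * A)
    (hT : T * A.compLpL 2 ν = A.compLpL 2 ν * T) :
    ∀ᵐ h ∂(Measure.haar : Measure E), q h * A = A * q h := by
  have h2 : Fld (T * A.compLpL 2 ν) fun x => q (sec Λ x) * A := h1.fld.mul (fld_comp A)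
  have h3 : Fld (T * A.compLpL 2 ν) fun x => A * q (sec Λ x) := by
    rw [hT]
    exact (fld_comp A).mul h1.fld
  filter_upwards [ae_up hν (fld_unique b h2 h3)] with h hh
  rw [h1.at_sec h]
  have hA' : ∀ v, V v * A = A * V v := fun v => (hA v).symm
  calc V (kap Λ h)⁻¹ * q (sec Λ (h : E ⧸ Λ)) * V (kap Λ h) * A
      = V (kap Λ h)⁻¹ * (q (sec Λ (h : E ⧸ Λ)) * A) * V (kap Λ h) := by
        rw [mul_assoc _ (V (kap Λ h)) A, hA']; simp only [mul_assoc]
    _ = (V (kap Λ h)⁻¹ * A) * q (sec Λ (h : E ⧸ Λ)) * V (kap Λ h) := by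
        rw [hh]; simp only [mul_assoc]
    _ = _ := by rw [hA']; simp only [mul_assoc]

include hν in
/-- An operator commuting with the functions and with the whole source is a constant field in the
commutant of `V`. -/
theorem const_of_comm [Countable Λ] {I : Type} [Countable I] (b : HilbertBasis I ℂ K)
    (hV : ∀ v, adjoint (V v) = V v⁻¹) (hT : Dcm T)
    (hc : ∀ g, T * iro hν V g = iro hν V g * T) :
    ∃ A : K →L[ℂ] K, (∀ v, A * V v = V v * A) ∧ T = A.compLpL 2 ν ∧ ‖A‖ ≤ ‖T‖ := by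
  obtain ⟨q, hq, hqb⟩ := exists_gf hν b hV hT
  have hinv : ∀ g : E, iro hν V g * iro hν V g⁻¹ = 1 := fun g => by
    have := pi_mul_inv (cdat ν hν) hV g
    exact this
  have h1 : ∀ g : E, ∀ᵐ h ∂(Measure.haar : Measure E), q (g * h) = q h := by
    intro g
    have h2 := hq.left hν hV g⁻¹
    have e1 : iro hν V g⁻¹ * T * iro hν V (g⁻¹)⁻¹ = T := by
      rw [← hc, mul_assoc, hinv, mul_one]
    rw [e1] at h2
    filter_upwards [unique hν b h2 hq] with h hh
    rw [inv_inv] at hh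
    exact hh
  have h3 : ∀ i, ∃ c : K, ∀ᵐ h ∂(Measure.haar : Measure E), q h (b i) = c := by
    intro i
    refine group_const (hq.meas (b i)) fun g => ?_
    filter_upwards [h1 g] with h hh
    rw [hh]
  choose c hcc using h3
  have h4 : ∀ᵐ h ∂(Measure.haar : Measure E), ∀ i, q h (b i) = c i := ae_all_iff.2 hcc
  obtain ⟨h₀, hh₀⟩ := h4.exists
  have h5 : ∀ᵐ h ∂(Measure.haar : Measure E), q h = q h₀ := by
    filter_upwards [h4] with h hh
    exact ext_basis b fun i => by rw [hh, hh₀]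
  have h6 : ∀ v, q h₀ * V v = V v * q h₀ := by
    intro v
    obtain ⟨h, e1, e2⟩ := (h5.and (ae_right h5 (v : E))).exists
    rw [hq.equi, e1] at e2
    calc q h₀ * V v = (V v * V v⁻¹) * q h₀ * V v := by rw [V_inv, one_mul]
      _ = V v * (V v⁻¹ * q h₀ * V v) := by simp only [mul_assoc]
      _ = V v * q h₀ := by rw [e2]
  exact ⟨q h₀, h6, ext hν hq (const h6) h5, hqb h₀⟩

end GF

end gf

end Vale.Agent.P092.H34.Grp
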