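import Vale.Agent.P092.H962.C.Amp
import Vale.Agent.P092.H421.Hs1
import Vale.Agent.P092.H421.Hs5
import Vale.Agent.P092.H34.Grp

/-!
P092 (helper34), [C-AMP]: ergodicity of the picture with a finite family of vectors, any fibre.

A decomposable operator in the commutant of both targets which commutes with `π(S)`, `S` with the
Moore property, commutes with `π(G)`; it is then a constant field in the commutant of the fibre.
-/

set_option linter.all false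

open scoped InnerProductSpace ENNReal
open MeasureTheory Filter Topology ContinuousLinearMap

namespace Vale.Agent.P092.H34.AmpE

open Vale.Agent.P092.RC Vale.Agent.P092.H790 Vale.Agent.P092.H85 Vale.Agent.P092.H103
  Vale.Agent.P092.H34 Vale.Agent.P092.H34.Ind Vale.Agent.P092.H34.Grp
open Vale.Agent.P092.H333.Amp (amp amp_mul amp_one amp_zero amp_inj amp_sg sg KT adjoint_amp)
open Vale.Agent.P092.H421.Hs (Pf Frq trq trq_swap trq_indep norm_U cm_ap inv_ap)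

/-! ### The family version of the Moore argument -/

section moore

variable {G Γ K ι : Type} [Group G] [TopologicalSpace G] [Group Γ] [NormedAddCommGroup K]
  [InnerProductSpace ℂ K] [CompleteSpace K] [Fintype ι] {π : G →* (K →L[ℂ] K)}
  {lam : Γ →* (K →L[ℂ] K)} {W : Set (K →L[ℂ] K)} {Ω : ι → K}

/-- **Decomposable operators of finite trace commuting with `π(S)` commute with `π(G)`**, a family
of vectors. -/
theorem comm_of_mooreF [ContinuousInv G] (WP : ∀ w ∈ W, ∀ g, π g * w * π g⁻¹ ∈ W)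
    (tr_conj : ∀ T, Cm W T → ∀ g, TRNF lam Ω (π g * T * π g⁻¹) = TRNF lam Ω T)
    (adjP : ∀ g, adjoint (π g) = π g⁻¹) (contP : ∀ ξ, Continuous fun g => π g ξ)
    (tr_zero : ∀ T, Cm W T → TRNF lam Ω T = 0 → T = 0) {S : Set G} (hS : Moore S)
    {T : K →L[ℂ] K} (hT : Cm W T) (hf : TRNF lam Ω T < ∞) (hc : ∀ g ∈ S, T * π g = π g * T)
    (g : G) : T * π g = π g * T := by
  obtain ⟨Q, i1, i2, ⟨j⟩⟩ : ∃ (Q : Type) (_ : Group Q) (_ : Fintype Q), Nonempty (ι ↪ Q) :=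
    haveI : NeZero (Fintype.card ι + 1) := ⟨by omega⟩
    ⟨Multiplicative (ZMod (Fintype.card ι + 1)), inferInstance, inferInstance,
      Function.Embedding.nonempty_of_card_le (by rw [Fintype.card_multiplicative, ZMod.card]; omega)⟩
  have h := H421.Hs.comm_of_moore (π := ampH Q π) (lam := ampH Q lam) (W := ampW Q W)
    (Ω := ampO j Ω) (by
      rintro _ (⟨w, hw, rfl⟩ | ⟨f, rfl⟩) g
      · rw [ampH_ap, ampH_ap, ← amp_mul, ← amp_mul]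
        exact Or.inl ⟨_, WP w hw g, rfl⟩
      · have h1 : π g * π g⁻¹ = 1 := by rw [← map_mul, mul_inv_cancel, map_one]
        rw [ampH_ap, ampH_ap, amp_sg, mul_assoc, ← amp_mul, h1, amp_one, mul_one]
        exact Or.inr ⟨_, rfl⟩) (by
      intro T hT g
      obtain ⟨T', rfl, hT'⟩ := cm_ampW.1 hT
      rw [ampH_ap, ampH_ap, ← amp_mul, ← amp_mul, trn_amp, trn_amp, tr_conj T' hT' g])
    (fun g => by rw [ampH_ap, adjoint_amp, adjP]; rfl) (fun ξ => cont_amp contP ξ) (by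
      intro T hT h0
      obtain ⟨T', rfl, hT'⟩ := cm_ampW.1 hT
      rw [trn_amp] at h0
      rw [tr_zero T' hT' h0, amp_zero]) hS (cm_amp hT) (by rw [trn_amp]; exact hf)
    (fun g hg => amp_comm_iff.2 (hc g hg)) g
  exact amp_comm_iff.1 h

end moore

/-! ### The trace of the commutant of both targets -/

section fib

variable {Δ ℋ ι : Type} [Group Δ] [NormedAddCommGroup ℋ] [InnerProductSpace ℂ ℋ]
  [CompleteSpace ℋ] [Fintype ι] {R : Δ →* (ℋ →L[ℂ] ℋ)} {e : ι → ℋ}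

/-- image of a frame under a unitary of the commutant -/
theorem frq_unitary (h : Frq R e) {U : ℋ →L[ℂ] ℋ} (hU' : U * adjoint U = 1)
    (hR : ∀ g, U * R g = R g * U) : Frq R fun i => U (e i) := by
  intro η
  have e0 : ‖adjoint U η‖ = ‖η‖ := by
    have h3 : ⟪adjoint U η, adjoint U η⟫_ℂ = ⟪η, η⟫_ℂ := by
      rw [adjoint_inner_left]
      have : U (adjoint U η) = (U * adjoint U) η := rfl
      rw [this, hU']
      rfl
    rw [inner_self_eq_norm_sq_to_K, inner_self_eq_norm_sq_to_K] at h3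
    have h4 : ‖adjoint U η‖ ^ 2 = ‖η‖ ^ 2 := by exact_mod_cast h3
    exact (pow_left_inj₀ (norm_nonneg _) (norm_nonneg _) two_ne_zero).mp h4
  have e1 : ‖η‖ₑ = ‖adjoint U η‖ₑ := by
    rw [← ofReal_norm, ← ofReal_norm, e0]
  rw [e1, ← h (adjoint U η)]
  refine tsum_congr fun p => ?_
  change ‖⟪R p.2 (U (e p.1)), η⟫_ℂ‖ₑ ^ 2 = ‖⟪R p.2 (e p.1), adjoint U η⟫_ℂ‖ₑ ^ 2
  rw [← cm_ap (hR p.2), adjoint_inner_right]

theorem trq_adj (hRa : ∀ g, adjoint (R g) = R g⁻¹) (h : Frq R e) {A : ℋ →L[ℂ] ℋ}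
    (hA : ∀ g, A * R g = R g * A) : trq e A = trq e (adjoint A) := trq_swap hRa h h hA

/-- invariance of the trace under unitaries commuting with `R` -/
theorem trq_conj (hRa : ∀ g, adjoint (R g) = R g⁻¹) (h : Frq R e) {A : ℋ →L[ℂ] ℋ}
    (hA : ∀ g, A * R g = R g * A) {U U' : ℋ →L[ℂ] ℋ} (hUU' : adjoint U = U') (h1 : U * U' = 1)
    (h2 : U' * U = 1) (hR : ∀ g, U * R g = R g * U) : trq e (U * A * U') = trq e A := by
  have hUU : adjoint U' = U := by rw [← hUU', adjoint_adjoint]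
  have hn : ∀ v, ‖U v‖ = ‖v‖ := by
    intro v
    have h3 : ⟪U v, U v⟫_ℂ = ⟪v, v⟫_ℂ := by
      rw [← adjoint_inner_left, hUU']
      have : U' (U v) = (U' * U) v := rfl
      rw [this, h2]
      rfl
    rw [inner_self_eq_norm_sq_to_K, inner_self_eq_norm_sq_to_K] at h3
    have h4 : ‖U v‖ ^ 2 = ‖v‖ ^ 2 := by exact_mod_cast h3
    exact (pow_left_inj₀ (norm_nonneg _) (norm_nonneg _) two_ne_zero).mp h4
  have c1 : ∀ g, U' * R g = R g * U' := by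
    intro g
    calc U' * R g = U' * (R g * (U * U')) := by rw [h1, mul_one]
      _ = U' * ((R g * U) * U') := by rw [mul_assoc (R g)]
      _ = U' * ((U * R g) * U') := by rw [hR]
      _ = (U' * U) * (R g * U') := by simp only [mul_assoc]
      _ = R g * U' := by rw [h2, one_mul]
  have hf' : Frq R fun i => U' (e i) := frq_unitary h (by rw [hUU, h2]) c1
  have e1 : trq e (U * A * U') = trq (fun i => U' (e i)) A := by
    refine tsum_congr fun i => ?_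
    change ‖U (A (U' (e i)))‖ₑ ^ 2 = ‖A (U' (e i))‖ₑ ^ 2
    rw [← ofReal_norm, ← ofReal_norm, hn]
  rw [e1, trq_indep hRa h hf' hA]

theorem trq_eq_zero (hRa : ∀ g, adjoint (R g) = R g⁻¹) (h : Frq R e) {A : ℋ →L[ℂ] ℋ}
    (hA : ∀ g, A * R g = R g * A) (h0 : trq e A = 0) : A = 0 := by
  have h1 : ∀ i, A (e i) = 0 := by
    intro i
    have h2 := (ENNReal.tsum_eq_zero.mp h0) i
    exact enorm_eq_zero.mp ((pow_eq_zero_iff two_ne_zero).1 h2)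
  have h3 : adjoint A = 0 := by
    refine ContinuousLinearMap.ext fun v => ?_
    refine h.eq_zero fun p => ?_
    rw [adjoint_inner_right, cm_ap (hA p.2), h1, map_zero, inner_zero_left]
  have h4 := congrArg adjoint h3
  rw [adjoint_adjoint, map_zero] at h4
  exact h4

/-- two families with the same quadratic sums on an algebra give the same functional -/
theorem sum_inner_eq {ι' : Type} [Fintype ι'] {e : ι → ℋ} {e' : ι' → ℋ} {A : ℋ →L[ℂ] ℋ}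
    (h : ∀ c : ℂ, ∑ i, ‖((1 : ℋ →L[ℂ] ℋ) + c • A) (e i)‖ ^ 2 =
      ∑ i, ‖((1 : ℋ →L[ℂ] ℋ) + c • A) (e' i)‖ ^ 2) :
    ∑ i, ⟪e i, A (e i)⟫_ℂ = ∑ i, ⟪e' i, A (e' i)⟫_ℂ := by
  have key : ∀ {κ : Type} [Fintype κ] (f : κ → ℋ) (c : ℂ),
      ∑ i, ‖((1 : ℋ →L[ℂ] ℋ) + c • A) (f i)‖ ^ 2 =
      ∑ i, ‖f i‖ ^ 2 + 2 * (c * ∑ i, ⟪f i, A (f i)⟫_ℂ).re + ‖c‖ ^ 2 * ∑ i, ‖A (f i)‖ ^ 2 := by
    intro κ _ f c
    have h1 : ∀ i, ‖((1 : ℋ →L[ℂ] ℋ) + c • A) (f i)‖ ^ 2 =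
        ‖f i‖ ^ 2 + 2 * (c * ⟪f i, A (f i)⟫_ℂ).re + ‖c‖ ^ 2 * ‖A (f i)‖ ^ 2 := by
      intro i
      change ‖f i + c • A (f i)‖ ^ 2 = _
      rw [norm_add_sq (𝕜 := ℂ), inner_smul_right, norm_smul, mul_pow]
      rfl
    simp_rw [h1]
    rw [Finset.sum_add_distrib, Finset.sum_add_distrib, ← Finset.mul_sum, ← Finset.mul_sum]
    congr 3
    rw [Finset.mul_sum, Complex.re_sum]
  have h0 := h 0
  have h1 := h 1
  have h2 := h (-1)
  have h3 := h Complex.I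
  have h4 := h (-Complex.I)
  rw [key, key] at h0 h1 h2 h3 h4
  simp only [norm_zero, norm_one, norm_neg, Complex.norm_I, zero_mul, one_mul, neg_mul,
    Complex.neg_re, Complex.zero_re, Complex.I_mul_re] at h0 h1 h2 h3 h4
  apply Complex.ext
  · linarith
  · linarith

/-- the functional given by a frame is invariant under unitaries of the commutant -/
theorem sum_inner_conj (hRa : ∀ g, adjoint (R g) = R g⁻¹) (h : Frq R e) {A : ℋ →L[ℂ] ℋ}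
    (hA : ∀ g, A * R g = R g * A) {U U' : ℋ →L[ℂ] ℋ} (hUU' : adjoint U = U') (h1 : U * U' = 1)
    (h2 : U' * U = 1) (hR : ∀ g, U * R g = R g * U) :
    ∑ i, ⟪e i, (U * A * U') (e i)⟫_ℂ = ∑ i, ⟪e i, A (e i)⟫_ℂ := by
  have hUU : adjoint U' = U := by rw [← hUU', adjoint_adjoint]
  have c1 : ∀ g, U' * R g = R g * U' := by
    intro g
    calc U' * R g = U' * (R g * (U * U')) := by rw [h1, mul_one]
      _ = U' * ((R g * U) * U') := by rw [mul_assoc (R g)]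
      _ = U' * ((U * R g) * U') := by rw [hR]
      _ = (U' * U) * (R g * U') := by simp only [mul_assoc]
      _ = R g * U' := by rw [h2, one_mul]
  have hf' : Frq R fun i => U' (e i) := frq_unitary h (by rw [hUU, h2]) c1
  have e1 : ∀ i, ⟪e i, (U * A * U') (e i)⟫_ℂ = ⟪U' (e i), A (U' (e i))⟫_ℂ := by
    intro i
    change ⟪e i, U (A (U' (e i)))⟫_ℂ = _
    rw [← adjoint_inner_left, hUU']
  simp_rw [e1]
  refine sum_inner_eq fun c => ?_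
  have hB : ∀ g, ((1 : ℋ →L[ℂ] ℋ) + c • A) * R g = R g * ((1 : ℋ →L[ℂ] ℋ) + c • A) := by
    intro g
    rw [add_mul, mul_add, one_mul, mul_one, smul_mul_assoc, mul_smul_comm, hA]
  have h3 := trq_indep hRa h hf' hB
  have h4 : ∀ f : ι → ℋ, trq f ((1 : ℋ →L[ℂ] ℋ) + c • A) =
      ENNReal.ofReal (∑ i, ‖((1 : ℋ →L[ℂ] ℋ) + c • A) (f i)‖ ^ 2) := by
    intro f
    rw [trq, tsum_fintype, ENNReal.ofReal_sum_of_nonneg fun i _ => sq_nonneg _]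
    exact Finset.sum_congr rfl fun i _ => H421.Hs.enn_sq' _
  rw [h4, h4] at h3
  exact (ENNReal.ofReal_eq_ofReal_iff (Finset.sum_nonneg fun i _ => sq_nonneg _)
    (Finset.sum_nonneg fun i _ => sq_nonneg _)).1 h3

end fib

/-! ### The trace on the induced space -/

section picture

variable {D Λ Δ : Type} [Group D] [Group Λ] [Countable Λ] [Group Δ] [Countable Δ] (d : CData D Λ)
  {ℋ : Type} [NormedAddCommGroup ℋ] [InnerProductSpace ℂ ℋ] [CompleteSpace ℋ]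
  {V : Λ →* (ℋ →L[ℂ] ℋ)} {R : Δ →* (ℋ →L[ℂ] ℋ)} (hV : ∀ v, adjoint (V v) = V v⁻¹)
  {ι : Type} [Fintype ι] {e : ι → ℋ}

/-- the constant fields -/
noncomputable def cst (e : ι → ℋ) (i : ι) : Lp ℋ 2 d.μ := Lp.const 2 d.μ (e i)

variable {d} {I : Type} [Countable I] (b : HilbertBasis I ℂ ℋ) (hRa : ∀ g, adjoint (R g) = R g⁻¹)
  (hf : Frq R e)

theorem trnf_fld {T : Lp ℋ 2 d.μ →L[ℂ] Lp ℋ 2 d.μ} {A : d.X → ℋ →L[ℂ] ℋ} (hT : Fld T A)
    (hA : ∀ y, AEStronglyMeasurable (fun x => A x y) d.μ) :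
    TRNF (1 : Unit →* (Lp ℋ 2 d.μ →L[ℂ] Lp ℋ 2 d.μ)) (cst d e) T =
      ∫⁻ x, trq e (A x) ∂d.μ := by
  have h1 : ∀ i, TRN (1 : Unit →* (Lp ℋ 2 d.μ →L[ℂ] Lp ℋ 2 d.μ)) (cst d e i) T =
      ∫⁻ x, ‖A x (e i)‖ₑ ^ 2 ∂d.μ := by
    intro i
    rw [TRN, tsum_fintype, Fintype.sum_unique]
    change ‖T (cst d e i)‖ₑ ^ 2 = _
    rw [enorm_sq_lint]
    refine lintegral_congr_ae ?_
    filter_upwards [hT (cst d e i), Lp.coeFn_const (p := 2) (μ := d.μ) (e i)] with x a1 a2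
    rw [a1]
    have a3 : (cst d e i : Lp ℋ 2 d.μ) x = e i := a2
    rw [a3]
  rw [TRNF]
  simp_rw [h1]
  rw [← lintegral_finsetSum' _ fun i _ => ((hA (e i)).enorm).pow_const 2]
  refine lintegral_congr fun x => ?_
  rw [trq, tsum_fintype]

theorem trnf_lt (T : Lp ℋ 2 d.μ →L[ℂ] Lp ℋ 2 d.μ) :
    TRNF (1 : Unit →* (Lp ℋ 2 d.μ →L[ℂ] Lp ℋ 2 d.μ)) (cst d e) T < ∞ := by
  rw [TRNF]
  refine ENNReal.sum_lt_top.2 fun i _ => ?_
  rw [TRN, tsum_fintype, Fintype.sum_unique]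
  exact ENNReal.pow_lt_top enorm_lt_top

include b in
theorem exists_fieldR {T : Lp ℋ 2 d.μ →L[ℂ] Lp ℋ 2 d.μ} (hT : AA d (Set.range R) T) :
    ∃ A : d.X → ℋ →L[ℂ] ℋ, (∀ x, ‖A x‖ ≤ ‖T‖) ∧
      (∀ y, AEStronglyMeasurable (fun x => A x y) d.μ) ∧ Fld T A ∧
      (∀ᵐ x ∂d.μ, ∀ g, A x * R g = R g * A x) := by
  obtain ⟨A, h1, h2, h3, h4⟩ := hT.exists_fld b (Set.countable_range _)
  refine ⟨A, h1, h2, h3, ?_⟩
  filter_upwards [h4] with x hx g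
  exact hx _ ⟨g, rfl⟩

include hf hRa b in
theorem trnf_conj (hVR : ∀ v g, V v * R g = R g * V v)
    {T : Lp ℋ 2 d.μ →L[ℂ] Lp ℋ 2 d.μ} (hT : AA d (Set.range R) T) (g : D) :
    TRNF (1 : Unit →* (Lp ℋ 2 d.μ →L[ℂ] Lp ℋ 2 d.μ)) (cst d e)
      (pi d hV g * T * pi d hV g⁻¹) =
      TRNF (1 : Unit →* (Lp ℋ 2 d.μ →L[ℂ] Lp ℋ 2 d.μ)) (cst d e) T := by
  have hT' : AA d (Set.range R) (pi d hV g * T * pi d hV g⁻¹) := hT.conj hV (by
    rintro _ ⟨s, rfl⟩ v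
    exact (hVR v s).symm) g
  obtain ⟨A, -, m1, h3, h4⟩ := exists_fieldR b hT
  obtain ⟨B, -, m1', h3', h4'⟩ := exists_fieldR b hT'
  rw [trnf_fld h3 m1, trnf_fld h3' m1']
  have e0 : ∀ᵐ x ∂d.μ, trq e (B x) = trq e (A (d.act g⁻¹ x)) := by
    filter_upwards [fld_unique b h3' (fld_conj hV h3 g), ae_comp (d.mp g⁻¹) h4] with x e1 e2
    rw [e1]
    refine trq_conj hRa hf e2 (hV _) ?_ ?_ (fun s => hVR _ s)
    · rw [← map_mul, mul_inv_cancel, map_one]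
    · rw [← map_mul, inv_mul_cancel, map_one]
  rw [lintegral_congr_ae e0]
  have m2 : AEMeasurable (fun x => trq e (A x)) d.μ := by
    refine AEMeasurable.ennreal_tsum fun i => ?_
    exact ((m1 (e i)).enorm).pow_const 2
  have m3 := (d.mp g⁻¹).map_eq
  have e2 := lintegral_map' (μ := d.μ) (g := d.act g⁻¹) (f := fun x => trq e (A x))
    (by rw [m3]; exact m2) (d.mp g⁻¹).measurable.aemeasurable
  rw [m3] at e2
  exact e2.symm

include hf hRa b in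
theorem trnf_zero {T : Lp ℋ 2 d.μ →L[ℂ] Lp ℋ 2 d.μ} (hT : AA d (Set.range R) T)
    (h0 : TRNF (1 : Unit →* (Lp ℋ 2 d.μ →L[ℂ] Lp ℋ 2 d.μ)) (cst d e) T = 0) : T = 0 := by
  obtain ⟨A, -, m1, h3, h4⟩ := exists_fieldR b hT
  rw [trnf_fld h3 m1] at h0
  have m2 : AEMeasurable (fun x => trq e (A x)) d.μ := by
    refine AEMeasurable.ennreal_tsum fun i => ?_
    exact ((m1 (e i)).enorm).pow_const 2
  rw [lintegral_eq_zero_iff' m2] at h0
  refine h3.ext fld_zero ?_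
  filter_upwards [h0, h4] with x e1 e2
  exact trq_eq_zero hRa hf e2 e1

include hf hRa b in
/-- **The Moore argument in the induced picture**: an operator which commutes with the functions,
with the constant operators `R` and with `π(S)` commutes with `π(G)`. -/
theorem comm_all [TopologicalSpace D] [ContinuousInv D] (hVR : ∀ v g, V v * R g = R g * V v)
    (cont : ∀ ζ, Continuous fun g => pi d hV g ζ) {S : Set D} (hS : Moore S)
    {T : Lp ℋ 2 d.μ →L[ℂ] Lp ℋ 2 d.μ} (hT : AA d (Set.range R) T)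
    (hc : ∀ g ∈ S, T * pi d hV g = pi d hV g * T) (g : D) :
    T * pi d hV g = pi d hV g * T :=
  comm_of_mooreF (π := pi d hV) (lam := (1 : Unit →* (Lp ℋ 2 d.μ →L[ℂ] Lp ℋ 2 d.μ)))
    (W := Wset d (Set.range R)) (Ω := cst d e) (by
      intro w hw g
      refine conj_mem_Wset d hV ?_ g hw
      rintro _ ⟨s, rfl⟩ v
      exact (hVR v s).symm)
    (fun T hT g => trnf_conj hV b hRa hf hVR hT g) (adjoint_pi d hV) cont
    (fun T hT h0 => trnf_zero b hRa hf hT h0) hS hT (trnf_lt T) hc g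

end picture

/-! ### Lattices -/

section two

variable {Γ ℋ : Type} [Group Γ] [NormedAddCommGroup ℋ] [InnerProductSpace ℂ ℋ] [CompleteSpace ℋ]

/-- two commuting representations -/
noncomputable def two (R₁ R₂ : Γ →* (ℋ →L[ℂ] ℋ)) (h : ∀ a b, R₁ a * R₂ b = R₂ b * R₁ a) :
    Γ × Γ →* (ℋ →L[ℂ] ℋ) where
  toFun p := R₁ p.1 * R₂ p.2
  map_one' := by
    change R₁ 1 * R₂ 1 = 1
    rw [map_one, map_one, one_mul]
  map_mul' p q := by
    change R₁ (p.1 * q.1) * R₂ (p.2 * q.2) = R₁ p.1 * R₂ p.2 * (R₁ q.1 * R₂ q.2)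
    rw [map_mul, map_mul]
    calc R₁ p.1 * R₁ q.1 * (R₂ p.2 * R₂ q.2) = R₁ p.1 * (R₁ q.1 * R₂ p.2) * R₂ q.2 := by
          simp only [mul_assoc]
      _ = R₁ p.1 * (R₂ p.2 * R₁ q.1) * R₂ q.2 := by rw [h]
      _ = _ := by simp only [mul_assoc]

variable {R₁ R₂ : Γ →* (ℋ →L[ℂ] ℋ)} (h : ∀ a b, R₁ a * R₂ b = R₂ b * R₁ a)

theorem two_ap (a b : Γ) : two R₁ R₂ h (a, b) = R₁ a * R₂ b := rfl

theorem two_adj (h₁ : ∀ g, adjoint (R₁ g) = R₁ g⁻¹) (h₂ : ∀ g, adjoint (R₂ g) = R₂ g⁻¹)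
    (p : Γ × Γ) : adjoint (two R₁ R₂ h p) = two R₁ R₂ h p⁻¹ := by
  obtain ⟨a, b⟩ := p
  rw [two_ap, ← star_eq_adjoint, star_mul, star_eq_adjoint, star_eq_adjoint, h₁, h₂, ← h]
  rfl

theorem two_comm {A : ℋ →L[ℂ] ℋ} (h₁ : ∀ g, A * R₁ g = R₁ g * A) (h₂ : ∀ g, A * R₂ g = R₂ g * A)
    (p : Γ × Γ) : A * two R₁ R₂ h p = two R₁ R₂ h p * A := by
  obtain ⟨a, b⟩ := p
  rw [two_ap, ← mul_assoc, h₁, mul_assoc, h₂, mul_assoc]

theorem two_left {A : ℋ →L[ℂ] ℋ} (hA : ∀ p, A * two R₁ R₂ h p = two R₁ R₂ h p * A) (g : Γ) :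
    A * R₁ g = R₁ g * A := by
  have h1 := hA (g, 1)
  rwa [two_ap, map_one, mul_one] at h1

theorem two_right {A : ℋ →L[ℂ] ℋ} (hA : ∀ p, A * two R₁ R₂ h p = two R₁ R₂ h p * A) (g : Γ) :
    A * R₂ g = R₂ g * A := by
  have h1 := hA (1, g)
  rwa [two_ap, map_one, one_mul] at h1

theorem frq_two {ι : Type} [Fintype ι] {V : Γ →* (ℋ →L[ℂ] ℋ)} {ξ : ι → ℋ}
    (ht : SR.Tri V R₁ R₂ ξ) : Frq (two R₁ R₂ ht.comm₁₂) ξ :=
  H421.Hs.pf_of_hasSum ht.frame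

end two

section group

variable {E : Type} [Group E] [TopologicalSpace E] [IsTopologicalGroup E] [LocallyCompactSpace E]
  [SecondCountableTopology E] [T2Space E] [MeasurableSpace E] [BorelSpace E]
  {Λ : Subgroup E} [DiscreteTopology Λ] [Countable Λ] [MeasurableSpace (E ⧸ Λ)]
  [BorelSpace (E ⧸ Λ)] {ν : Measure (E ⧸ Λ)} [IsProbabilityMeasure ν]
  (hν : ∀ g : E, ν.map (fun x => g • x) = ν)
  {ℋ : Type} [NormedAddCommGroup ℋ] [InnerProductSpace ℂ ℋ] [CompleteSpace ℋ]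
  {V R₁ R₂ : Λ →* (ℋ →L[ℂ] ℋ)} (hV : ∀ v, adjoint (V v) = V v⁻¹)
  {I : Type} [Countable I] (b : HilbertBasis I ℂ ℋ)

theorem cont_pi {ℋ : Type} [NormedAddCommGroup ℋ] [InnerProductSpace ℂ ℋ] [CompleteSpace ℋ]
    {V : Λ →* (ℋ →L[ℂ] ℋ)} (hV : ∀ v, adjoint (V v) = V v⁻¹) (ξ : Lp ℋ 2 (cdat ν hν).μ) :
    Continuous fun g => Ind.pi (cdat ν hν) hV g ξ := by
  refine H264.continuous_of_one (σ := Ind.pi (cdat ν hν) hV)
    (fun g ξ => norm_map_of_adj (adjoint_pi (cdat ν hν) hV) g ξ) (fun ξ => ?_) ξ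
  exact ri_cont hν hV ξ

include b in
theorem comm_of_con {X : Type} [MeasurableSpace X] {μ : Measure X} [IsProbabilityMeasure μ]
    {A B : ℋ →L[ℂ] ℋ}
    (h : A.compLpL 2 μ * B.compLpL 2 μ = B.compLpL 2 μ * A.compLpL 2 μ) : A * B = B * A := by
  have e3 : (A * B).compLpL 2 μ = (B * A).compLpL 2 μ := by rw [comp_mul, comp_mul, h]
  have e4 : Fld ((A * B).compLpL 2 μ) (fun _ => B * A) := by
    rw [e3]; exact fld_comp (B * A)
  obtain ⟨x, hx⟩ := (fld_unique (μ := μ) b (fld_comp (A * B)) e4).exists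
  exact hx

include hν b in
/-- an operator commuting with the functions, with `π(G)` and with constants is a constant -/
theorem const_all {Δ : Type} [Group Δ] {R : Δ →* (ℋ →L[ℂ] ℋ)}
    {T : Lp ℋ 2 (cdat ν hν).μ →L[ℂ] Lp ℋ 2 (cdat ν hν).μ}
    (hT : AA (cdat ν hν) (Set.range R) T)
    (hc : ∀ g, T * Ind.pi (cdat ν hν) hV g = Ind.pi (cdat ν hν) hV g * T) :
    ∃ A : ℋ →L[ℂ] ℋ, (∀ v, A * V v = V v * A) ∧ (∀ g, A * R g = R g * A) ∧
      T = A.compLpL 2 (cdat ν hν).μ := by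
  obtain ⟨A, hA, hTA', -⟩ := Grp.GF.const_of_comm hν b (V := V) hV hT.dcm hc
  have hTA : T = A.compLpL 2 (cdat ν hν).μ := hTA'
  refine ⟨A, hA, fun g => ?_, hTA⟩
  have h4 := hT _ (Or.inr ⟨R g, ⟨g, rfl⟩, rfl⟩)
  rw [hTA] at h4
  exact comm_of_con b h4

variable {ι : Type} [Fintype ι] {ξ : ι → ℋ} (h : SR.Tri V R₁ R₂ ξ)

theorem aa_two (hc : ∀ a b, R₁ a * R₂ b = R₂ b * R₁ a)
    {T : Lp ℋ 2 (cdat ν hν).μ →L[ℂ] Lp ℋ 2 (cdat ν hν).μ}
    (hT : Cm (Xset (cdat ν hν) ℋ ∪ Set.range (Ind.lam (cdat ν hν) R₂)) T)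
    (h1 : ∀ γ, T * Ind.lam (cdat ν hν) R₁ γ = Ind.lam (cdat ν hν) R₁ γ * T) :
    AA (cdat ν hν) (Set.range (two R₁ R₂ hc)) T := by
  rintro w (⟨S, hS, rfl⟩ | ⟨_, ⟨⟨a, b⟩, rfl⟩, rfl⟩)
  · exact hT _ (Or.inl ⟨S, hS, rfl⟩)
  · have e1 : (two R₁ R₂ hc (a, b)).compLpL 2 (cdat ν hν).μ =
        Ind.lam (cdat ν hν) R₁ a * Ind.lam (cdat ν hν) R₂ b := comp_mul (R₁ a) (R₂ b)
    have h2 := hT _ (Or.inr ⟨b, rfl⟩)
    rw [e1, ← mul_assoc, h1, mul_assoc, h2, mul_assoc]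

include b h in
/-- **Ergodicity of the picture**, any fibre with a finite Parseval family. -/
theorem erg_tri
    (hirr : ∀ A : ℋ →L[ℂ] ℋ, (∀ v, A * V v = V v * A) → (∀ g, A * R₁ g = R₁ g * A) →
      (∀ g, A * R₂ g = R₂ g * A) → ∃ z : ℂ, A = z • (1 : ℋ →L[ℂ] ℋ))
    {S : Set E} (hS : Moore S) {T : Lp ℋ 2 (cdat ν hν).μ →L[ℂ] Lp ℋ 2 (cdat ν hν).μ}
    (hT : Cm (Xset (cdat ν hν) ℋ ∪ Set.range (Ind.lam (cdat ν hν) R₂)) T)
    (h1 : ∀ γ, T * Ind.lam (cdat ν hν) R₁ γ = Ind.lam (cdat ν hν) R₁ γ * T)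
    (hc : ∀ g ∈ S, T * Ind.pi (cdat ν hν) hV g = Ind.pi (cdat ν hν) hV g * T) :
    ∃ z : ℂ, T = z • (1 : Lp ℋ 2 (cdat ν hν).μ →L[ℂ] Lp ℋ 2 (cdat ν hν).μ) := by
  have hA := aa_two hν h.comm₁₂ hT h1
  have h2 := comm_all (d := cdat ν hν) hV b (two_adj h.comm₁₂ h.adj₁ h.adj₂) (frq_two h)
    (fun v p => two_comm h.comm₁₂ (h.comm₁ v) (h.comm₂ v) p) (cont_pi hν hV) hS hA hc
  obtain ⟨A, a1, a2, a3⟩ := const_all hν hV b hA h2
  obtain ⟨z, hz⟩ := hirr A a1 (two_left h.comm₁₂ a2) (two_right h.comm₁₂ a2)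
  refine ⟨z, ?_⟩
  rw [a3, hz, H790.comp_smul, comp_one]

/-- constant operators on constant vectors -/
theorem inner_con {X : Type} [MeasurableSpace X] {μ : Measure X} [IsProbabilityMeasure μ]
    {ℋ : Type} [NormedAddCommGroup ℋ] [InnerProductSpace ℂ ℋ] (A : ℋ →L[ℂ] ℋ) (v : ℋ) :
    ⟪(Lp.const 2 μ v : Lp ℋ 2 μ), A.compLpL 2 μ (Lp.const 2 μ v)⟫_ℂ = ⟪v, A v⟫_ℂ := by
  rw [L2.inner_def]
  have h1 : (fun x => ⟪(Lp.const 2 μ v : Lp ℋ 2 μ) x, (A.compLpL 2 μ (Lp.const 2 μ v)) x⟫_ℂ) =ᵐ[μ]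
      fun _ => ⟪v, A v⟫_ℂ := by
    filter_upwards [Lp.coeFn_const (p := 2) (μ := μ) v,
      fld_comp (μ := μ) A (Lp.const 2 μ v)] with x a1 a2
    rw [a2, a1]
    rfl
  rw [integral_congr_ae h1, integral_const]
  simp

/-- the normalised constant fields of a family -/
noncomputable def nrm (e : ι → ℋ) (i : ι) : Lp ℋ 2 (cdat ν hν).μ :=
  Lp.const 2 (cdat ν hν).μ ((((Real.sqrt (∑ j, ‖e j‖ ^ 2))⁻¹ : ℝ) : ℂ) • e i)

omit h in
theorem sum_nrm {e : ι → ℋ} (hne : ∃ i, e i ≠ 0) : ∑ i, ‖nrm hν e i‖ ^ 2 = 1 := by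
  have h0 : 0 < ∑ j, ‖e j‖ ^ 2 := by
    obtain ⟨i, hi⟩ := hne
    exact Finset.sum_pos' (fun _ _ => sq_nonneg _)
      ⟨i, Finset.mem_univ _, by have := norm_pos_iff.2 hi; positivity⟩
  have h1 : ∀ i, ‖nrm hν e i‖ ^ 2 = (∑ j, ‖e j‖ ^ 2)⁻¹ * ‖e i‖ ^ 2 := by
    intro i
    have h2 : ‖nrm hν e i‖ = ‖(((Real.sqrt (∑ j, ‖e j‖ ^ 2))⁻¹ : ℝ) : ℂ) • e i‖ := by
      rw [nrm, Lp.norm_const']
      · simp
      · norm_num
      · norm_num
    rw [h2, norm_smul, mul_pow, Complex.norm_real, Real.norm_eq_abs, sq_abs, inv_pow,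
      Real.sq_sqrt h0.le]
  simp_rw [h1]
  rw [← Finset.mul_sum, inv_mul_cancel₀ h0.ne']

omit h in
include b in
/-- **The invariant state of the picture.** `e` is a Parseval family for `(V, R₂)`. -/
theorem inv_tri (hVR₂ : ∀ v g, V v * R₂ g = R₂ g * V v) (hVR₁ : ∀ v g, V v * R₁ g = R₁ g * V v)
    (h₁₂ : ∀ a b, R₁ a * R₂ b = R₂ b * R₁ a) (adj₁ : ∀ g, adjoint (R₁ g) = R₁ g⁻¹)
    (adj₂ : ∀ g, adjoint (R₂ g) = R₂ g⁻¹) {e : ι → ℋ} (hf : Frq (two V R₂ hVR₂) e)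
    {T : Lp ℋ 2 (cdat ν hν).μ →L[ℂ] Lp ℋ 2 (cdat ν hν).μ}
    (hT : Cm (Xset (cdat ν hν) ℋ ∪ Set.range (Ind.lam (cdat ν hν) R₂)) T)
    (hc : ∀ g, T * Ind.pi (cdat ν hν) hV g = Ind.pi (cdat ν hν) hV g * T) (γ : Λ) :
    ∑ i, ⟪nrm hν e i, (Ind.lam (cdat ν hν) R₁ γ * T * Ind.lam (cdat ν hν) R₁ γ⁻¹) (nrm hν e i)⟫_ℂ =
      ∑ i, ⟪nrm hν e i, T (nrm hν e i)⟫_ℂ := by
  have hA : AA (cdat ν hν) (Set.range R₂) T := (cm_iff _).1 hT
  obtain ⟨A, a1, a2, a3⟩ := const_all hν hV b hA hc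
  have e1 : Ind.lam (cdat ν hν) R₁ γ * T * Ind.lam (cdat ν hν) R₁ γ⁻¹ =
      (R₁ γ * A * R₁ γ⁻¹).compLpL 2 (cdat ν hν).μ := by
    rw [a3, comp_mul, comp_mul]
    rfl
  rw [e1, a3]
  obtain ⟨s, hs⟩ : ∃ s : ℂ, s = (((Real.sqrt (∑ j, ‖e j‖ ^ 2))⁻¹ : ℝ) : ℂ) := ⟨_, rfl⟩
  have e2 : ∀ (B : ℋ →L[ℂ] ℋ), ∑ i, ⟪nrm hν e i, (B.compLpL 2 (cdat ν hν).μ) (nrm hν e i)⟫_ℂ =
      (starRingEnd ℂ) s * s * ∑ i, ⟪e i, B (e i)⟫_ℂ := by
    intro B
    rw [Finset.mul_sum]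
    refine Finset.sum_congr rfl fun i _ => ?_
    have e3 : nrm hν e i = Lp.const 2 (cdat ν hν).μ (s • e i) := by rw [hs]; rfl
    rw [e3, inner_con, map_smul, inner_smul_left, inner_smul_right]
    ring
  rw [e2, e2]
  congr 1
  refine sum_inner_conj (two_adj hVR₂ hV adj₂) hf (fun p => two_comm hVR₂ a1 a2 p) (adj₁ γ) ?_ ?_
    (fun p => two_comm hVR₂ (fun g => (hVR₁ g γ).symm) (fun g => h₁₂ γ g) p)
  · rw [← map_mul, mul_inv_cancel, map_one]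
  · rw [← map_mul, inv_mul_cancel, map_one]

end group

end Vale.Agent.P092.H34.AmpE
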