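import Vale.Agent.P092.H790.Ind
import Vale.Agent.P092.H160.Basic

/-!
P092 (helper34), team C, [C-DEC]: operators on `L²(X; K)` which commute with the multiplications by
indicator functions are given by fields of operators.
-/

set_option linter.all false

open scoped InnerProductSpace ENNReal
open MeasureTheory Filter Topology ContinuousLinearMap

namespace Vale.Agent.P092.H34

open Vale.Agent.P092.H790 Vale.Agent.P092.H160

section dec

variable {X : Type} [MeasurableSpace X] {μ : Measure X} [IsFiniteMeasure μ] {K : Type}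
  [NormedAddCommGroup K] [InnerProductSpace ℂ K]

theorem inner_ind {S : Set X} (hS : MeasurableSet S) (ξ η : Lp K 2 μ) :
    ⟪H790.ind μ K S ξ, η⟫_ℂ = ∫ x in S, ⟪ξ x, η x⟫_ℂ ∂μ := by
  classical
  rw [L2.inner_def, ← integral_indicator hS]
  refine integral_congr_ae ?_
  filter_upwards [ind_ae hS ξ] with x h1
  rw [h1]
  by_cases hx : x ∈ S
  · rw [Set.indicator_of_mem hx, Set.indicator_of_mem hx]
  · rw [Set.indicator_of_notMem hx, Set.indicator_of_notMem hx, inner_zero_left]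

theorem norm_ind_sq {S : Set X} (hS : MeasurableSet S) (ξ : Lp K 2 μ) :
    ‖H790.ind μ K S ξ‖ ^ 2 = ∫ x in S, ‖ξ x‖ ^ 2 ∂μ := by
  have h1 : ⟪H790.ind μ K S ξ, H790.ind μ K S ξ⟫_ℂ = ∫ x in S, ⟪ξ x, ξ x⟫_ℂ ∂μ := by
    rw [inner_ind hS]
    refine setIntegral_congr_ae hS ?_
    filter_upwards [ind_ae hS ξ] with x h1 hx
    rw [h1, Set.indicator_of_mem hx]
  have h2 := congrArg Complex.re h1
  rw [inner_self_eq_norm_sq_to_K] at h2
  have h3 : ((((‖H790.ind μ K S ξ‖ : ℝ) : ℂ)) ^ 2).re = ‖H790.ind μ K S ξ‖ ^ 2 := by norm_cast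
  have h4 : ∫ x in S, ⟪ξ x, ξ x⟫_ℂ ∂μ = ((∫ x in S, ‖ξ x‖ ^ 2 ∂μ : ℝ) : ℂ) := by
    rw [← integral_complex_ofReal]
    refine setIntegral_congr_fun hS fun x _ => ?_
    rw [inner_self_eq_norm_sq_to_K]
    norm_cast
  rw [h4] at h2
  rw [← h3]
  exact h2

theorem ae_le_of_ind {ξ : Lp K 2 μ} {C : ℝ} (hC : 0 ≤ C)
    (h : ∀ S, MeasurableSet S → ‖H790.ind μ K S ξ‖ ^ 2 ≤ C ^ 2 * μ.real S) :
    ∀ᵐ x ∂μ, ‖ξ x‖ ≤ C := by
  have h1 : (fun x => ‖ξ x‖ ^ 2) ≤ᵐ[μ] fun _ => C ^ 2 := by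
    refine ae_le_of_forall_setIntegral_le ((Lp.memLp ξ).integrable_norm_pow two_ne_zero)
      (integrable_const _) fun S hS _ => ?_
    rw [← norm_ind_sq hS, setIntegral_const, smul_eq_mul, mul_comm]
    exact h S hS
  filter_upwards [h1] with x hx
  exact le_of_sq_le_sq hx hC

variable [CompleteSpace K]

/-- `T` commutes with the multiplications. -/
def Dcm (T : Lp K 2 μ →L[ℂ] Lp K 2 μ) : Prop :=
  ∀ S, MeasurableSet S → T * H790.ind μ K S = H790.ind μ K S * T

theorem Dcm.adj {T : Lp K 2 μ →L[ℂ] Lp K 2 μ} (h : Dcm T) : Dcm (adjoint T) := fun S hS => by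
  have h1 := congrArg star (h S hS)
  simp only [star_mul, star_eq_adjoint, adjoint_ind hS] at h1
  exact h1.symm

theorem Dcm.apply {T : Lp K 2 μ →L[ℂ] Lp K 2 μ} (h : Dcm T) {S : Set X} (hS : MeasurableSet S)
    (ξ : Lp K 2 μ) : T (H790.ind μ K S ξ) = H790.ind μ K S (T ξ) :=
  congrArg (fun A : Lp K 2 μ →L[ℂ] Lp K 2 μ => A ξ) (h S hS)

theorem norm_ind_const {S : Set X} (hS : MeasurableSet S) (v : K) :
    ‖H790.ind μ K S (Lp.const 2 μ v)‖ ^ 2 = ‖v‖ ^ 2 * μ.real S := by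
  rw [norm_ind_sq hS]
  have h1 : ∫ x in S, ‖(Lp.const 2 μ v : Lp K 2 μ) x‖ ^ 2 ∂μ = ∫ x in S, ‖v‖ ^ 2 ∂μ := by
    refine setIntegral_congr_ae hS ?_
    filter_upwards [Lp.coeFn_const (p := 2) (μ := μ) v] with x h1 _
    rw [h1]
    rfl
  rw [h1, setIntegral_const, smul_eq_mul, mul_comm]

theorem Dcm.norm_const_le {T : Lp K 2 μ →L[ℂ] Lp K 2 μ} (h : Dcm T) (v : K) :
    ∀ᵐ x ∂μ, ‖(T (Lp.const 2 μ v) : Lp K 2 μ) x‖ ≤ ‖T‖ * ‖v‖ := by
  refine ae_le_of_ind (by positivity) fun S hS => ?_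
  rw [← h.apply hS]
  have h1 := T.le_opNorm (H790.ind μ K S (Lp.const 2 μ v))
  have h2 := pow_le_pow_left₀ (norm_nonneg _) h1 2
  rw [mul_pow, norm_ind_const hS] at h2
  calc _ ≤ _ := h2
    _ = _ := by ring

theorem Dcm.inner_const {T : Lp K 2 μ →L[ℂ] Lp K 2 μ} (h : Dcm T) (v w : K) :
    ∀ᵐ x ∂μ, ⟪(T (Lp.const 2 μ w) : Lp K 2 μ) x, v⟫_ℂ =
      ⟪w, (adjoint T (Lp.const 2 μ v) : Lp K 2 μ) x⟫_ℂ := by
  have hv := Lp.coeFn_const (p := 2) (μ := μ) v
  have hw := Lp.coeFn_const (p := 2) (μ := μ) w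
  have e1 : (fun x => ⟪(T (Lp.const 2 μ w) : Lp K 2 μ) x, v⟫_ℂ) =ᵐ[μ]
      fun x => ⟪(T (Lp.const 2 μ w) : Lp K 2 μ) x, (Lp.const 2 μ v : Lp K 2 μ) x⟫_ℂ := by
    filter_upwards [hv] with x h1
    rw [h1]
    rfl
  have e2 : (fun x => ⟪w, (adjoint T (Lp.const 2 μ v) : Lp K 2 μ) x⟫_ℂ) =ᵐ[μ]
      fun x => ⟪(Lp.const 2 μ w : Lp K 2 μ) x, (adjoint T (Lp.const 2 μ v) : Lp K 2 μ) x⟫_ℂ := by
    filter_upwards [hw] with x h1
    rw [h1]
    rfl
  refine e1.trans (EventuallyEq.trans ?_ e2.symm)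
  refine Integrable.ae_eq_of_forall_setIntegral_eq _ _ (L2.integrable_inner _ _)
    (L2.integrable_inner _ _) fun S hS _ => ?_
  rw [← inner_ind hS, ← inner_ind hS, ← h.apply hS, adjoint_inner_right]

/-- A continuous linear map out of a space with a countable Hilbert basis is determined on the
basis. -/
theorem ext_basis {I : Type} (b : HilbertBasis I ℂ K) {F : Type*} [NormedAddCommGroup F]
    [NormedSpace ℂ F] {S T : K →L[ℂ] F} (h : ∀ i, S (b i) = T (b i)) : S = T := by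
  ext v
  have h1 := (b.hasSum_repr v).mapL S
  have h2 := (b.hasSum_repr v).mapL T
  simp only [map_smul, h] at h1 h2
  exact h1.unique h2

theorem separable_of_basis {I : Type} [Countable I] (b : HilbertBasis I ℂ K) :
    TopologicalSpace.SeparableSpace K := by
  have h1 : TopologicalSpace.IsSeparable (Set.range b) :=
    (Set.countable_range b).isSeparable
  have h2 := (h1.span (R := ℂ)).closure
  rw [← TopologicalSpace.isSeparable_univ_iff]
  refine h2.mono ?_
  have h3 := b.dense_span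
  rw [← Submodule.topologicalClosure_coe, h3]
  exact fun x _ => trivial

/-- The pointwise Bessel property. -/
theorem Dcm.bes {I : Type} [Countable I] (b : HilbertBasis I ℂ K)
    {T : Lp K 2 μ →L[ℂ] Lp K 2 μ} (h : Dcm T) :
    ∀ᵐ x ∂μ, Bes ‖T‖ (fun i => (T (Lp.const 2 μ (b i)) : Lp K 2 μ) x) := by
  haveI := separable_of_basis b
  have h1 : ∀ᵐ x ∂μ, ∀ (n : ℕ) (i : I),
      ⟪(T (Lp.const 2 μ (b i)) : Lp K 2 μ) x, TopologicalSpace.denseSeq K n⟫_ℂ =
        ⟪b i, (adjoint T (Lp.const 2 μ (TopologicalSpace.denseSeq K n)) : Lp K 2 μ) x⟫_ℂ := by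
    rw [ae_all_iff]
    intro n
    rw [ae_all_iff]
    intro i
    exact h.inner_const _ _
  have h2 : ∀ᵐ x ∂μ, ∀ n : ℕ,
      ‖(adjoint T (Lp.const 2 μ (TopologicalSpace.denseSeq K n)) : Lp K 2 μ) x‖ ≤
        ‖T‖ * ‖TopologicalSpace.denseSeq K n‖ := by
    rw [ae_all_iff]
    intro n
    have h3 := h.adj.norm_const_le (TopologicalSpace.denseSeq K n)
    rwa [LinearIsometryEquiv.norm_map] at h3
  filter_upwards [h1, h2] with x hx1 hx2
  intro s v
  refine (TopologicalSpace.denseRange_denseSeq K).induction_on v ?_ fun n => ?_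
  · refine isClosed_le ?_ ?_
    · refine continuous_finset_sum _ fun i _ => ?_
      exact ((continuous_const.inner continuous_id).norm).pow 2
    · exact continuous_const.mul (continuous_norm.pow 2)
  · have h3 : ∀ i, ‖⟪(T (Lp.const 2 μ (b i)) : Lp K 2 μ) x, TopologicalSpace.denseSeq K n⟫_ℂ‖ ^ 2 =
        ‖⟪b i, (adjoint T (Lp.const 2 μ (TopologicalSpace.denseSeq K n)) : Lp K 2 μ) x⟫_ℂ‖ ^ 2 :=
      fun i => by rw [hx1 n i]
    simp only [h3]
    refine (b.orthonormal.sum_inner_products_le _).trans ?_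
    rw [← mul_pow]
    exact pow_le_pow_left₀ (norm_nonneg _) (hx2 n) 2

/-- **[C-DEC]** An operator commuting with the multiplications by indicator functions is given by a
bounded field of operators. -/
theorem Dcm.exists_fld {I : Type} [Countable I] (b : HilbertBasis I ℂ K)
    {T : Lp K 2 μ →L[ℂ] Lp K 2 μ} (h : Dcm T) :
    ∃ A : X → K →L[ℂ] K, (∀ x, ‖A x‖ ≤ ‖T‖) ∧
      (∀ y, AEStronglyMeasurable (fun x => A x y) μ) ∧ Fld T A := by
  classical
  set t : X → I → K := fun x i => (T (Lp.const 2 μ (b i)) : Lp K 2 μ) x with ht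
  set L : K →L[ℂ] Ell2 I := b.repr.toContinuousLinearEquiv.toContinuousLinearMap with hL
  have hLn : ∀ v, ‖L v‖ = ‖v‖ := fun v => b.repr.norm_map v
  have hLb : ∀ i, L (b i) = dl i := fun i => by
    have h1 := b.repr_self i
    exact h1
  set A : X → K →L[ℂ] K := fun x =>
    if hx : Bes ‖T‖ (t x) then (opOf hx) ∘L L else 0 with hA
  have hAn : ∀ x, ‖A x‖ ≤ ‖T‖ := by
    intro x
    by_cases hx : Bes ‖T‖ (t x)
    · have h1 : A x = (opOf hx) ∘L L := by rw [hA]; exact dif_pos hx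
      rw [h1]
      refine ContinuousLinearMap.opNorm_le_bound _ (norm_nonneg _) fun v => ?_
      have h2 := (opOf hx).le_opNorm (L v)
      rw [hLn] at h2
      refine h2.trans (mul_le_mul_of_nonneg_right ?_ (norm_nonneg _))
      exact (norm_opOf_le hx).trans_eq (abs_of_nonneg (norm_nonneg _))
    · have h1 : A x = 0 := by rw [hA]; exact dif_neg hx
      rw [h1, norm_zero]
      exact norm_nonneg _
  have hAb : ∀ᵐ x ∂μ, ∀ i, A x (b i) = t x i := by
    filter_upwards [h.bes b] with x hx i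
    have h1 : A x = (opOf hx) ∘L L := by rw [hA]; exact dif_pos hx
    rw [h1]
    change opOf hx (L (b i)) = _
    rw [hLb, opOf_dl]
  have hAm : ∀ y, AEStronglyMeasurable (fun x => A x y) μ := by
    intro y
    have h1 : ∀ i, AEStronglyMeasurable (fun x => A x (b i)) μ := by
      intro i
      refine (Lp.aestronglyMeasurable (T (Lp.const 2 μ (b i)))).congr ?_
      filter_upwards [hAb] with x hx
      exact (hx i).symm
    refine aestronglyMeasurable_of_tendsto_ae (u := (atTop : Filter (Finset I)))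
      (f := fun s x => A x (∑ i ∈ s, b.repr y i • b i)) (fun s => ?_)
      (Eventually.of_forall fun x => ?_)
    · simp only [map_sum, map_smul]
      exact Finset.aestronglyMeasurable_fun_sum _ fun i _ => (h1 i).const_smul _
    · exact ((A x).continuous.tendsto _).comp (b.hasSum_repr y)
  refine ⟨A, hAn, hAm, ?_⟩
  have hF : Fld (fop μ A) A := fop_spec hAm hAn
  have hc : ∀ v : K, T (Lp.const 2 μ v) = fop μ A (Lp.const 2 μ v) := by
    have h1 : T ∘L (Lp.constL 2 μ ℂ : K →L[ℂ] Lp K 2 μ) =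
        (fop μ A) ∘L (Lp.constL 2 μ ℂ : K →L[ℂ] Lp K 2 μ) := by
      refine ext_basis b fun i => ?_
      change T (Lp.const 2 μ (b i)) = fop μ A (Lp.const 2 μ (b i))
      refine Lp.ext ?_
      filter_upwards [hF (Lp.const 2 μ (b i)), hAb, Lp.coeFn_const (p := 2) (μ := μ) (b i)]
        with x h2 h3 h4
      rw [h2, h4]
      exact (h3 i).symm
    intro v
    exact congrArg (fun S : K →L[ℂ] Lp K 2 μ => S v) h1
  have hD : Dcm (fop μ A) := fun S hS => hF.ind hS
  have key : T = fop μ A := by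
    refine ContinuousLinearMap.ext fun ξ => ?_
    refine Lp.induction (by norm_num) (fun ξ => T ξ = fop μ A ξ) ?_ ?_ ?_ ξ
    · intro c S hS hμS
      have h1 : ((Lp.simpleFunc.indicatorConst 2 hS hμS.ne c : Lp.simpleFunc K 2 μ) : Lp K 2 μ) =
          H790.ind μ K S (Lp.const 2 μ c) := by
        refine Lp.ext ?_
        rw [Lp.simpleFunc.coe_indicatorConst]
        filter_upwards [indicatorConstLp_coeFn (p := 2) (hs := hS) (hμs := hμS.ne) (c := c),
          ind_ae hS (Lp.const 2 μ c), Lp.coeFn_const (p := 2) (μ := μ) c] with x h2 h3 h4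
        rw [h2, h3]
        by_cases hx : x ∈ S
        · rw [Set.indicator_of_mem hx, Set.indicator_of_mem hx, h4]
          rfl
        · rw [Set.indicator_of_notMem hx, Set.indicator_of_notMem hx]
      rw [h1, h.apply hS, hD.apply hS, hc]
    · intro f g hf hg _ h1 h2
      simp only [map_add] at *
      rw [h1, h2]
    · exact isClosed_eq T.continuous (fop μ A).continuous
  rw [key]
  exact hF

end dec

end Vale.Agent.P092.H34
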