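import Vale.Agent.P092.H34.TFl
import Vale.Agent.P092.PA.Main

/-!
P092 (helper34), team A, [GLUE]: the literal statement.
-/

set_option linter.all false

open MeasureTheory Filter Topology ContinuousLinearMap
open scoped InnerProductSpace

namespace Vale.Agent.P092.H34

open Vale.Agent.P092.PA

theorem gluStmt : PA.GluStmt := by
  intro Γ Λ K G₁ G₂ H₁ H₂ _ _ _ _ _ _ _ _ _ _ _ _ _ _ _ _ _ _ _ _ _ _ _ _ _ _ _ _ _ _ _ _ _ _
    _ D p₁ p₂ q₁ q₂ μ₁ _ _ μ₂ _ _ _ _ _ _ hp hF1 hF2 n₁ n₂ hC hO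
  exact glue_of hp hF1 hF2 n₁ n₂ hC hO

end Vale.Agent.P092.H34
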