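import Vale.Agent.P092.H34.Pr

/-!
P092 (helper34), team A, [GLUE]: assembly.
-/

set_option linter.all false

open scoped InnerProductSpace ENNReal NNReal Topology
open Filter ContinuousLinearMap MeasureTheory

namespace Vale.Agent.P092.H34

open Vale.Agent.P092.H160 (RegRep Cmm)
open Vale.Agent.P092.H156 Vale.Agent.P092.PA Vale.Agent.P092.H34.K

variable {Γ Λ K G₁ G₂ H₁ H₂ : Type} [Group Γ] [Countable Γ] [Group Λ]
  [NormedAddCommGroup K] [InnerProductSpace ℂ K] [CompleteSpace K]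
  [Group G₁] [TopologicalSpace G₁] [IsTopologicalGroup G₁]
  [LocallyCompactSpace G₁] [SecondCountableTopology G₁] [T2Space G₁]
  [MeasurableSpace G₁] [BorelSpace G₁]
  [Group G₂] [TopologicalSpace G₂] [IsTopologicalGroup G₂]
  [LocallyCompactSpace G₂] [SecondCountableTopology G₂] [T2Space G₂]
  [MeasurableSpace G₂] [BorelSpace G₂]
  [Group H₁] [TopologicalSpace H₁] [IsTopologicalGroup H₁]
  [Group H₂] [TopologicalSpace H₂] [IsTopologicalGroup H₂]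
  {D : Pic Γ Λ K} {p₁ : Γ →* G₁} {p₂ : Γ →* G₂} {q₁ : Λ →* H₁} {q₂ : Λ →* H₂}
  {μ₁ : Measure G₁} {μ₂ : Measure G₂} {a : G₁ → K →L[ℂ] K} {b : G₂ → K →L[ℂ] K}

/-- A smeared product is HS-continuous. -/
theorem hsc_smr [μ₁.IsHaarMeasure] [μ₂.IsHaarMeasure]
    (hp : ∀ C : Set (G₁ × G₂), IsCompact C → {g | (p₁ g, p₂ g) ∈ C}.Finite)
    (hF1 : F1 D p₁ q₁ μ₁) (hF2 : F1 D p₂ q₂ μ₂)
    (ha : PA.Smo D p₁ q₁ μ₁ a) (hb : PA.Smo D p₂ q₂ μ₂ b)
    {k₁ : G₁ → ℂ} {k₂ : G₂ → ℂ} (h1 : Continuous k₁) (h1s : HasCompactSupport k₁)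
    (h2 : Continuous k₂) (h2s : HasCompactSupport k₂) :
    HSC D.hρ.basis fun z : G₁ × G₂ => smr μ₁ k₁ a z.1 * smr μ₂ k₂ b z.2 := by
  have hk : Continuous fun t : G₁ × G₂ => k₁ t.1 * k₂ t.2 := by fun_prop
  have hks : HasCompactSupport fun t : G₁ × G₂ => k₁ t.1 * k₂ t.2 := by
    refine HasCompactSupport.of_support_subset_isCompact (h1s.prod h2s) fun t ht => ?_
    rw [Function.mem_support] at ht
    refine ⟨?_, ?_⟩
    · by_contra hn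
      exact ht (by rw [image_eq_zero_of_notMem_tsupport hn, zero_mul])
    · by_contra hn
      exact ht (by rw [image_eq_zero_of_notMem_tsupport hn, mul_zero])
  have hm : MemLp (fun z : G₁ × G₂ => a z.1 (b z.2 D.Ω)) 2 (μ₁.prod μ₂) :=
    memLp_ab hF1 hF2 ha hb D.Ω
  have h3 : HSC D.hρ.basis
      (smr (μ₁.prod μ₂) (fun t : G₁ × G₂ => k₁ t.1 * k₂ t.2) fun z => a z.1 * b z.2) :=
    smr_hsc (p := p₁.prod p₂) D.hρ
      ((ha.continuous.comp continuous_fst).mul (hb.continuous.comp continuous_snd))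
      (fun γ z => Sm.prod_equiv ha.toFd hb.toFd γ z) hp (Sm.lintegral_sq_lt_top hm).ne hk hks
  have e : (fun z : G₁ × G₂ => smr μ₁ k₁ a z.1 * smr μ₂ k₂ b z.2) =
      smr (μ₁.prod μ₂) (fun t : G₁ × G₂ => k₁ t.1 * k₂ t.2) fun z => a z.1 * b z.2 := by
    funext z
    rw [smr_eq, smr_eq, smr_eq]
    exact (Sm.smear_prod (μ₁ := μ₁) (μ₂ := μ₂) ha.continuous hb.continuous h1 h1s h2 h2s z).symm
  rw [e]
  exact h3

/-- Existence of a nonzero element. -/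
theorem exists_ne [μ₁.IsHaarMeasure] [μ₂.IsHaarMeasure] [μ₁.IsMulRightInvariant]
    [μ₂.IsMulRightInvariant]
    (hp : ∀ C : Set (G₁ × G₂), IsCompact C → {g | (p₁ g, p₂ g) ∈ C}.Finite)
    (hF1 : F1 D p₁ q₁ μ₁) (hF2 : F1 D p₂ q₂ μ₂) (n₁ : NeS D p₁ q₁ μ₁) (n₂ : NeS D p₂ q₂ μ₂) :
    ∃ A, Pr D p₁ p₂ q₁ q₂ μ₁ μ₂ A ∧ HSC D.hρ.basis A ∧ A 1 ≠ 0 := by
  obtain ⟨a, ha, ha0⟩ := n₁
  obtain ⟨b, hb, hb0⟩ := n₂
  obtain ⟨y0, hy0⟩ : ∃ y, b y ≠ 0 := by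
    by_contra h
    push Not at h
    exact hb0 (funext h)
  obtain ⟨u, hu⟩ : ∃ u, b y0 u ≠ 0 := by
    by_contra h
    push Not at h
    exact hy0 (ContinuousLinearMap.ext h)
  obtain ⟨x0, hx0⟩ : ∃ x, a x ≠ 0 := by
    by_contra h
    push Not at h
    exact ha0 (funext h)
  obtain ⟨w, hw⟩ : ∃ w, a x0 w ≠ 0 := by
    by_contra h
    push Not at h
    exact hx0 (ContinuousLinearMap.ext h)
  have hl := H221.lint_of_F1 hF1 ha
  obtain ⟨x1, hx1⟩ : ∃ x, a x (b y0 u) ≠ 0 := by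
    by_contra h
    push Not at h
    have h1 := hl (b y0 u)
    simp only [h, enorm_zero, ne_eq, OfNat.ofNat_ne_zero, not_false_eq_true, zero_pow,
      lintegral_zero] at h1
    have h2 : ENNReal.ofReal (Sm.ip D.Ω μ₁ a a).re = 0 := by
      rcases mul_eq_zero.mp h1.symm with h3 | h3
      · exact h3
      · exact absurd (pow_eq_zero_iff two_ne_zero |>.mp h3) (by simpa using hu)
    have h3 := hl w
    rw [h2, zero_mul] at h3
    have h4 : Continuous fun x => ‖a x w‖ₑ ^ 2 :=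
      (ENNReal.continuous_pow 2).comp (ha.continuous.clm_apply continuous_const).enorm
    have h5 := (lintegral_eq_zero_iff h4.measurable).mp h3
    have h6 := Measure.eq_of_ae_eq h5 h4 continuous_zero
    have h7 := congrFun h6 x0
    simp only [Pi.zero_apply] at h7
    exact absurd (pow_eq_zero_iff two_ne_zero |>.mp h7) (by simpa using hw)
  have ha' := Sm.Smo.rt ha x1
  have hb' := Sm.Smo.rt hb y0
  set a' : G₁ → K →L[ℂ] K := fun x => a (x * x1) with ha'd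
  set b' : G₂ → K →L[ℂ] K := fun y => b (y * y0) with hb'd
  have hne : a' 1 * b' 1 ≠ 0 := by
    intro h
    refine hx1 ?_
    have h1 := congrArg (fun T : K →L[ℂ] K => T u) h
    simpa [ha'd, hb'd] using h1
  obtain ⟨k₁, hk₁, hk₁c, h1⟩ := exists_smr_ne (μ := μ₁) (B := fun x => a' x * b' 1)
    (ha'.continuous.mul continuous_const) (x := 1) hne
  have h2 : smr μ₁ k₁ (fun x => a' x * b' 1) 1 = smr μ₁ k₁ a' 1 * b' 1 := by
    have h3 := mul_integral_mul (μ := μ₁) (1 : K →L[ℂ] K) (b' 1)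
      (integrable_smr hk₁ hk₁c ha'.continuous 1)
    simp only [one_mul, smul_mul_assoc] at h3
    exact h3
  rw [h2] at h1
  obtain ⟨k₂, hk₂, hk₂c, h4⟩ := exists_smr_ne (μ := μ₂) (B := fun y => smr μ₁ k₁ a' 1 * b' y)
    (continuous_const.mul hb'.continuous) (x := 1) h1
  have h5 : smr μ₂ k₂ (fun y => smr μ₁ k₁ a' 1 * b' y) 1 = smr μ₁ k₁ a' 1 * smr μ₂ k₂ b' 1 := by
    have h3 := mul_integral_mul (μ := μ₂) (smr μ₁ k₁ a' 1) (1 : K →L[ℂ] K)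
      (integrable_smr hk₂ hk₂c hb'.continuous 1)
    simp only [mul_one, mul_smul_comm] at h3
    exact h3
  rw [h5] at h4
  exact ⟨_, Pr.mk (smo_smr ha' hk₁ hk₁c) (smo_smr hb' hk₂ hk₂c),
    hsc_smr hp hF1 hF2 ha' hb' hk₁ hk₁c hk₂ hk₂c, h4⟩

/-- [GLUE], given the fields `T`. -/
theorem glue [μ₁.IsHaarMeasure] [μ₂.IsHaarMeasure] [μ₁.IsMulRightInvariant]
    [μ₂.IsMulRightInvariant]
    (hp : ∀ C : Set (G₁ × G₂), IsCompact C → {g | (p₁ g, p₂ g) ∈ C}.Finite)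
    (hF1 : F1 D p₁ q₁ μ₁) (hF2 : F1 D p₂ q₂ μ₂) (n₁ : NeS D p₁ q₁ μ₁) (n₂ : NeS D p₂ q₂ μ₂)
    (hC : Com D p₁ p₂ q₁ q₂ μ₁ μ₂) (hO : Out D p₁ q₁ q₂ μ₁) (hT : TFld D p₁ p₂ q₁ q₂ μ₁ μ₂) :
    Glu D := by
  refine ⟨{T | ∃ A, Pr D p₁ p₂ q₁ q₂ μ₁ μ₂ A ∧ HSC D.hρ.basis A ∧ A 1 = T}, ?_, ?_, ?_, ?_, ?_, ?_,
    ?_, ?_, ?_⟩
  · rintro _ ⟨A, hA, hA', rfl⟩ _ ⟨B, hB, hB', rfl⟩
    exact ⟨_, hA.add hB, hA'.add hB', rfl⟩
  · rintro c _ ⟨A, hA, hA', rfl⟩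
    exact ⟨_, hA.smul c, hA'.smul c, rfl⟩
  · rintro _ ⟨A, hA, hA', rfl⟩ _ ⟨B, hB, hB', rfl⟩
    exact ⟨_, hA.mul hC hB, hA'.mul_right hB.continuous, rfl⟩
  · rintro _ ⟨A, hA, hA', rfl⟩
    exact ⟨_, hA.star hC, hA'.adj, rfl⟩
  · obtain ⟨A, hA, hA', h⟩ := exists_ne hp hF1 hF2 n₁ n₂
    exact ⟨A 1, ⟨A, hA, hA', rfl⟩, h⟩
  · rintro _ ⟨A, hA, hA', rfl⟩
    have h1 : hse D.hV.basis (A 1) ≠ ⊤ := by
      rw [hse_indep D.hV.basis D.hρ.basis]
      exact hA'.hs 1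
    have h2 := hse_ne_top_iff.mp h1
    refine h2.congr fun v => ?_
    rw [D.hV.basis_apply]
  · rintro v _ ⟨A, hA, hA', rfl⟩
    exact ⟨_, hA.conj v, (hA'.mul_left continuous_const).mul_right continuous_const, rfl⟩
  · rintro g _ ⟨A, hA, hA', rfl⟩
    refine ⟨_, hA.rt ((p₁.prod p₂) g), hA'.comp (continuous_mul_right _), ?_⟩
    have h1 := hA.equiv g 1
    rw [mul_one] at h1
    simp only [one_mul]
    exact h1
  · rintro _ ⟨A, hA, hA', rfl⟩ _ ⟨B, hB, hB', rfl⟩ v hv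
    have hBv : HSC D.hρ.basis fun z => B z * D.V v := hB'.mul_right continuous_const
    have h1 : hip D.hV.basis (A 1) (B 1 * D.V v) = 0 := by
      rw [hip_indep D.hV.basis D.hρ.basis
        (by rw [hse_indep D.hV.basis D.hρ.basis]; exact hA'.hs 1)
        (by rw [hse_indep D.hV.basis D.hρ.basis]; exact hBv.hs 1)]
      refine hip_eq_zero (μ := μ₁.prod μ₂) (p := p₁.prod p₂) D.hρ hA' hBv hA.continuous
        (hB.continuous.mul continuous_const) hA.equiv ?_ ?_ ?_ 1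
      · intro γ z
        rw [hB.equiv]
        simp only [mul_assoc]
        rw [D.comm]
      · exact Sm.integrable_inner_of_memLp (hA.memLp hF1 hF2 _) (hB.memLp hF1 hF2 _)
      · intro φ hφc hφb hφi
        exact hA.out hF1 hF2 hC hO hT hφc hφb (fun γ g => hφi γ g) hv hB
    unfold hip at h1
    simp only [D.hV.basis_apply] at h1
    exact h1

end Vale.Agent.P092.H34
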