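import Vale.Agent.P092.H160.Mult

/-!
Hilbert-Schmidt operators on `ℓ²(X)`, by hand.
-/

set_option linter.all false

open scoped InnerProductSpace ENNReal NNReal
open Filter Topology ContinuousLinearMap

namespace Vale.Agent.P092.H34

open Vale.Agent.P092.H160

variable {X : Type}

/-- square of the Hilbert-Schmidt norm in `ℝ≥0∞` -/
noncomputable def hse (T : Ell2 X →L[ℂ] Ell2 X) : ℝ≥0∞ :=
  ∑' x, ((‖T (dl x)‖₊ ^ 2 : ℝ≥0) : ℝ≥0∞)

/-- Hilbert-Schmidt operators -/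
def HS (T : Ell2 X →L[ℂ] Ell2 X) : Prop := Summable fun x => ‖T (dl x)‖ ^ 2

/-- square of the Hilbert-Schmidt norm -/
noncomputable def hsn (T : Ell2 X →L[ℂ] Ell2 X) : ℝ := ∑' x, ‖T (dl x)‖ ^ 2

/-- Hilbert-Schmidt inner product -/
noncomputable def hip (S T : Ell2 X →L[ℂ] Ell2 X) : ℂ := ∑' x, ⟪S (dl x), T (dl x)⟫_ℂ

theorem HS.sum {T : Ell2 X →L[ℂ] Ell2 X} (h : HS T) : Summable fun x => ‖T (dl x)‖ ^ 2 := h

theorem nn_parseval (v : Ell2 X) :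
    ((‖v‖₊ ^ 2 : ℝ≥0) : ℝ≥0∞) = ∑' y, ((‖v y‖₊ ^ 2 : ℝ≥0) : ℝ≥0∞) := by
  have h1 : Summable fun y => (‖v y‖₊ ^ 2 : ℝ≥0) := by
    rw [← NNReal.summable_coe]
    simpa using summable_sq v
  rw [← ENNReal.coe_tsum h1]
  congr 1
  apply NNReal.coe_injective
  rw [NNReal.coe_tsum]
  simpa using norm_sq v

theorem hs_iff {T : Ell2 X →L[ℂ] Ell2 X} : HS T ↔ hse T ≠ ⊤ := by
  rw [hse, ENNReal.tsum_coe_ne_top_iff_summable, ← NNReal.summable_coe]
  unfold HS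
  simp

theorem hsn_eq {T : Ell2 X →L[ℂ] Ell2 X} (h : HS T) : ENNReal.ofReal (hsn T) = hse T := by
  have h1 : Summable fun y => (‖T (dl y)‖₊ ^ 2 : ℝ≥0) := by
    rw [← NNReal.summable_coe]
    simpa using h.sum
  rw [hse, ← ENNReal.coe_tsum h1, ENNReal.ofReal]
  congr 1
  apply NNReal.coe_injective
  rw [NNReal.coe_tsum, Real.coe_toNNReal _ (by unfold hsn; exact tsum_nonneg fun _ => by positivity)]
  simp [hsn]

theorem hse_adjoint (T : Ell2 X →L[ℂ] Ell2 X) : hse (adjoint T) = hse T := by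
  unfold hse
  simp_rw [nn_parseval]
  rw [ENNReal.tsum_comm]
  congr 1
  funext x
  congr 1
  funext y
  have : (adjoint T (dl y)) x = (starRingEnd ℂ) ((T (dl x)) y) := by
    rw [← inner_dl, adjoint_inner_right, inner_dl_right]
  rw [this, RCLike.nnnorm_conj]

theorem HS.adjoint {T : Ell2 X →L[ℂ] Ell2 X} (h : HS T) : HS (adjoint T) := by
  rw [hs_iff] at h ⊢
  rwa [hse_adjoint]

theorem hsn_nonneg (T : Ell2 X →L[ℂ] Ell2 X) : 0 ≤ hsn T := tsum_nonneg fun _ => by positivity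

theorem hsn_adjoint {T : Ell2 X →L[ℂ] Ell2 X} (h : HS T) : hsn (ContinuousLinearMap.adjoint T) = hsn T := by
  have h1 := hsn_eq h
  have h2 := hsn_eq h.adjoint
  rw [hse_adjoint, ← h1] at h2
  exact (ENNReal.ofReal_eq_ofReal_iff (hsn_nonneg _) (hsn_nonneg _)).mp h2

theorem HS.mul_left {T : Ell2 X →L[ℂ] Ell2 X} (h : HS T) (A : Ell2 X →L[ℂ] Ell2 X) : HS (A * T) := by
  refine Summable.of_nonneg_of_le (fun x => by positivity) (fun x => ?_) (Summable.mul_left (‖A‖ ^ 2) h.sum)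
  rw [← mul_pow]
  have := A.le_opNorm (T (dl x))
  exact pow_le_pow_left₀ (norm_nonneg _) this 2

theorem hsn_mul_left {T : Ell2 X →L[ℂ] Ell2 X} (h : HS T) (A : Ell2 X →L[ℂ] Ell2 X) :
    hsn (A * T) ≤ ‖A‖ ^ 2 * hsn T := by
  unfold hsn
  rw [← tsum_mul_left]
  refine (h.mul_left A).sum.tsum_le_tsum (fun x => ?_) (Summable.mul_left _ h.sum)
  rw [← mul_pow]
  have := A.le_opNorm (T (dl x))
  exact pow_le_pow_left₀ (norm_nonneg _) this 2

theorem adjoint_mul (A B : Ell2 X →L[ℂ] Ell2 X) :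
    ContinuousLinearMap.adjoint (A * B) =
      ContinuousLinearMap.adjoint B * ContinuousLinearMap.adjoint A := by
  rw [← star_eq_adjoint, star_mul]; rfl

theorem HS.mul_right {T : Ell2 X →L[ℂ] Ell2 X} (h : HS T) (A : Ell2 X →L[ℂ] Ell2 X) : HS (T * A) := by
  have h1 := (h.adjoint.mul_left (ContinuousLinearMap.adjoint A)).adjoint
  rwa [adjoint_mul, adjoint_adjoint, adjoint_adjoint] at h1

theorem hsn_mul_right {T : Ell2 X →L[ℂ] Ell2 X} (h : HS T) (A : Ell2 X →L[ℂ] Ell2 X) :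
    hsn (T * A) ≤ ‖A‖ ^ 2 * hsn T := by
  rw [← hsn_adjoint (h.mul_right A), adjoint_mul, ← hsn_adjoint h,
    ← (ContinuousLinearMap.adjoint (𝕜 := ℂ)).norm_map A]
  exact hsn_mul_left h.adjoint _

theorem HS.memlp {T : Ell2 X →L[ℂ] Ell2 X} (h : HS T) :
    Memℓp (fun x => T (dl x)) 2 := by
  rw [memℓp_gen_iff (by norm_num)]
  simpa using h.sum

/-- The vector of a Hilbert-Schmidt operator. -/
noncomputable def hv {T : Ell2 X →L[ℂ] Ell2 X} (h : HS T) : lp (fun _ : X => Ell2 X) 2 :=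
  ⟨fun x => T (dl x), h.memlp⟩

theorem hv_apply {T : Ell2 X →L[ℂ] Ell2 X} (h : HS T) (x : X) : hv h x = T (dl x) := rfl

theorem inner_hv {S T : Ell2 X →L[ℂ] Ell2 X} (hS : HS S) (hT : HS T) :
    ⟪hv hS, hv hT⟫_ℂ = hip S T := by
  rw [lp.inner_eq_tsum]; rfl

theorem norm_hv_sq {T : Ell2 X →L[ℂ] Ell2 X} (hT : HS T) : ‖hv hT‖ ^ 2 = hsn T := by
  have h := lp.norm_rpow_eq_tsum (p := 2) (by norm_num) (hv hT)
  unfold hsn
  simpa [hv_apply] using h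

theorem HS.add {S T : Ell2 X →L[ℂ] Ell2 X} (hS : HS S) (hT : HS T) : HS (S + T) := by
  have h := lp.memℓp (hv hS + hv hT)
  rw [memℓp_gen_iff (by norm_num)] at h
  unfold HS
  simpa [hv_apply] using h

theorem hv_add {S T : Ell2 X →L[ℂ] Ell2 X} (hS : HS S) (hT : HS T) :
    hv (hS.add hT) = hv hS + hv hT := by
  ext x y
  rfl

theorem HS.smul {T : Ell2 X →L[ℂ] Ell2 X} (hT : HS T) (c : ℂ) : HS (c • T) := by
  have h := lp.memℓp (c • hv hT)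
  rw [memℓp_gen_iff (by norm_num)] at h
  unfold HS
  simpa [hv_apply] using h

theorem hv_smul {T : Ell2 X →L[ℂ] Ell2 X} (hT : HS T) (c : ℂ) : hv (hT.smul c) = c • hv hT := by
  ext x y
  rfl

theorem HS.neg {T : Ell2 X →L[ℂ] Ell2 X} (hT : HS T) : HS (-T) := by
  have := hT.smul (-1)
  rwa [neg_one_smul] at this

theorem HS.sub {S T : Ell2 X →L[ℂ] Ell2 X} (hS : HS S) (hT : HS T) : HS (S - T) := by
  rw [sub_eq_add_neg]; exact hS.add hT.neg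

theorem hv_sub {S T : Ell2 X →L[ℂ] Ell2 X} (hS : HS S) (hT : HS T) :
    hv (hS.sub hT) = hv hS - hv hT := by
  ext x y
  rfl

theorem hs_zero : HS (0 : Ell2 X →L[ℂ] Ell2 X) := by
  unfold HS
  simpa using summable_zero

theorem hv_congr {S T : Ell2 X →L[ℂ] Ell2 X} (hS : HS S) (hT : HS T) (h : S = T) : hv hS = hv hT := by
  subst h; rfl

theorem hsn_smul {T : Ell2 X →L[ℂ] Ell2 X} (hT : HS T) (c : ℂ) : hsn (c • T) = ‖c‖ ^ 2 * hsn T := by
  rw [← norm_hv_sq hT, ← norm_hv_sq (hT.smul c), hv_smul, norm_smul, mul_pow]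

theorem real_aux {a b c : ℝ} (h0 : 0 ≤ a) (h : a ≤ b + c) : a ^ 2 ≤ 2 * b ^ 2 + 2 * c ^ 2 := by
  nlinarith [sq_nonneg (b - c)]

theorem hsn_add_le {S T : Ell2 X →L[ℂ] Ell2 X} (hS : HS S) (hT : HS T) :
    hsn (S + T) ≤ 2 * hsn S + 2 * hsn T := by
  rw [← norm_hv_sq hS, ← norm_hv_sq hT, ← norm_hv_sq (hS.add hT), hv_add hS hT]
  exact real_aux (norm_nonneg _) (norm_add_le (hv hS) (hv hT))

theorem hsn_sub_le {S T : Ell2 X →L[ℂ] Ell2 X} (hS : HS S) (hT : HS T) :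
    hsn (S - T) ≤ 2 * hsn S + 2 * hsn T := by
  rw [← norm_hv_sq hS, ← norm_hv_sq hT, ← norm_hv_sq (hS.sub hT), hv_sub hS hT]
  exact real_aux (norm_nonneg _) (norm_sub_le (hv hS) (hv hT))

/-- The inner product of the adjoints. -/
theorem hip_adjoint {S T : Ell2 X →L[ℂ] Ell2 X} (hS : HS S) (hT : HS T) :
    hip (ContinuousLinearMap.adjoint S) (ContinuousLinearMap.adjoint T) = hip T S := by
  have key : ∀ {A B : Ell2 X →L[ℂ] Ell2 X} (hA : HS A) (hB : HS B), A = ContinuousLinearMap.adjoint B →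
      ‖hv hA‖ = ‖hv hB‖ := by
    intro A B hA hB h
    subst h
    have h2 : ‖hv hA‖ ^ 2 = ‖hv hB‖ ^ 2 := by rw [norm_hv_sq, norm_hv_sq, hsn_adjoint hB]
    exact (pow_left_inj₀ (norm_nonneg _) (norm_nonneg _) two_ne_zero).mp h2
  rw [← inner_hv hS.adjoint hT.adjoint, ← inner_hv hT hS, ← inner_conj_symm,
    inner_eq_sum_norm_sq_div_four, inner_eq_sum_norm_sq_div_four]
  rw [← hv_add, ← hv_sub, ← hv_smul, ← hv_smul, ← hv_sub, ← hv_add, ← hv_add, ← hv_sub, ← hv_sub,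
    ← hv_add]
  have e1 : ‖hv (hT.adjoint.add hS.adjoint)‖ = ‖hv (hT.add hS)‖ :=
    key _ _ (by rw [map_add])
  have e2 : ‖hv (hT.adjoint.sub hS.adjoint)‖ = ‖hv (hT.sub hS)‖ :=
    key _ _ (by rw [map_sub])
  have e3 : ‖hv (hT.adjoint.sub (hS.adjoint.smul (RCLike.I : ℂ)))‖ =
      ‖hv (hT.add (hS.smul (RCLike.I : ℂ)))‖ :=
    key _ _ (by
      rw [map_add, LinearIsometryEquiv.map_smulₛₗ]
      simp [sub_eq_add_neg])
  have e4 : ‖hv (hT.adjoint.add (hS.adjoint.smul (RCLike.I : ℂ)))‖ =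
      ‖hv (hT.sub (hS.smul (RCLike.I : ℂ)))‖ :=
    key _ _ (by
      rw [map_sub, LinearIsometryEquiv.map_smulₛₗ]
      simp [sub_eq_add_neg])
  have e5 : (starRingEnd ℂ) 4 = 4 := map_ofNat _ _
  rw [e1, e2, e3, e4, map_div₀, e5]
  simp
  ring


/-! ### Operator norm, completeness -/

theorem norm_sq_le_hsn {T : Ell2 X →L[ℂ] Ell2 X} (h : HS T) (v : Ell2 X) :
    ‖T v‖ ^ 2 ≤ hsn T * ‖v‖ ^ 2 := by
  rw [norm_sq (T v), ← hsn_adjoint h]
  have h1 : ∀ x, ‖(T v) x‖ ^ 2 ≤ ‖ContinuousLinearMap.adjoint T (dl x)‖ ^ 2 * ‖v‖ ^ 2 := by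
    intro x
    rw [← inner_dl, ← adjoint_inner_left, ← mul_pow]
    exact pow_le_pow_left₀ (norm_nonneg _) (norm_inner_le_norm _ _) 2
  unfold hsn
  rw [← tsum_mul_right]
  exact (summable_sq (T v)).tsum_le_tsum h1 (Summable.mul_right _ h.adjoint.sum)

theorem opNorm_le_of_hsn {T : Ell2 X →L[ℂ] Ell2 X} (h : HS T) : ‖T‖ ≤ Real.sqrt (hsn T) := by
  refine opNorm_le_bound _ (Real.sqrt_nonneg _) fun v => ?_
  rw [← Real.sqrt_sq (norm_nonneg v), ← Real.sqrt_mul (hsn_nonneg T)]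
  exact Real.le_sqrt_of_sq_le (norm_sq_le_hsn h v)

theorem opNorm_sq_le {T : Ell2 X →L[ℂ] Ell2 X} (h : HS T) : ‖T‖ ^ 2 ≤ hsn T := by
  have h1 := opNorm_le_of_hsn h
  have h2 := pow_le_pow_left₀ (norm_nonneg _) h1 2
  rwa [Real.sq_sqrt (hsn_nonneg T)] at h2

/-- the finite partial sums are bounded by the Hilbert-Schmidt norm -/
theorem sum_le_hsn {T : Ell2 X →L[ℂ] Ell2 X} (h : HS T) (s : Finset X) :
    ∑ x ∈ s, ‖T (dl x)‖ ^ 2 ≤ hsn T :=
  h.sum.sum_le_tsum s fun _ _ => by positivity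

/-- Completeness: a sequence which is Cauchy for the Hilbert-Schmidt norm converges. -/
theorem hs_complete {T : ℕ → (Ell2 X →L[ℂ] Ell2 X)} (hT : ∀ n, HS (T n))
    (hc : ∀ ε > 0, ∃ N, ∀ m ≥ N, ∀ n ≥ N, hsn (T m - T n) ≤ ε) :
    ∃ L, HS L ∧ (∀ ε > 0, ∃ N, ∀ n ≥ N, hsn (T n - L) ≤ ε) ∧ Tendsto T atTop (𝓝 L) := by
  have hcau : CauchySeq T := by
    rw [Metric.cauchySeq_iff]
    intro ε hε
    obtain ⟨N, hN⟩ := hc ((ε / 2) ^ 2) (by positivity)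
    refine ⟨N, fun m hm n hn => ?_⟩
    rw [dist_eq_norm]
    have h1 := (opNorm_sq_le ((hT m).sub (hT n))).trans (hN m hm n hn)
    have h2 := abs_le_of_sq_le_sq' h1 (by positivity)
    linarith [h2.2]
  obtain ⟨L, hL⟩ := cauchySeq_tendsto_of_complete hcau
  have hfin : ∀ n (s : Finset X) (C : ℝ), (∀ᶠ m in atTop, hsn (T n - T m) ≤ C) →
      ∑ x ∈ s, ‖(T n - L) (dl x)‖ ^ 2 ≤ C := by
    intro n s C hC
    have h1 : Tendsto (fun m => ∑ x ∈ s, ‖(T n - T m) (dl x)‖ ^ 2) atTop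
        (𝓝 (∑ x ∈ s, ‖(T n - L) (dl x)‖ ^ 2)) := by
      refine tendsto_finsetSum s fun x _ => ?_
      have h2 : Tendsto (fun m => (T n - T m) (dl x)) atTop (𝓝 ((T n - L) (dl x))) := by
        have h3 : Continuous fun A : Ell2 X →L[ℂ] Ell2 X => (T n - A) (dl x) := by fun_prop
        exact (h3.tendsto L).comp hL
      exact (h2.norm).pow 2
    refine le_of_tendsto h1 ?_
    filter_upwards [hC] with m hm
    exact (sum_le_hsn ((hT n).sub (hT m)) s).trans hm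
  have hd : ∀ ε > 0, ∃ N, ∀ n ≥ N, HS (T n - L) ∧ hsn (T n - L) ≤ ε := by
    intro ε hε
    obtain ⟨N, hN⟩ := hc ε hε
    refine ⟨N, fun n hn => ?_⟩
    have h1 : ∀ s : Finset X, ∑ x ∈ s, ‖(T n - L) (dl x)‖ ^ 2 ≤ ε := fun s =>
      hfin n s ε (eventually_atTop.mpr ⟨N, fun m hm => hN n hn m hm⟩)
    have h2 : HS (T n - L) := summable_of_sum_le (fun _ => by positivity) h1
    exact ⟨h2, h2.sum.tsum_le_of_sum_le h1⟩
  obtain ⟨N, hN⟩ := hd 1 one_pos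
  have hL2 : HS L := by
    have h1 := (hT N).sub (hN N le_rfl).1
    rwa [sub_sub_cancel] at h1
  refine ⟨L, hL2, fun ε hε => ?_, hL⟩
  obtain ⟨N, hN⟩ := hd ε hε
  exact ⟨N, fun n hn => (hN n hn).2⟩

end Vale.Agent.P092.H34
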