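import Vale.Agent.P092.H156.Tr

/-!
P092 (helper34), team A: Hilbert-Schmidt operators with respect to a Hilbert basis, by hand.
-/

set_option linter.all false

open scoped InnerProductSpace ENNReal NNReal Topology
open Filter ContinuousLinearMap

namespace Vale.Agent.P092.H34.K

variable {ι ι' K : Type} [NormedAddCommGroup K] [InnerProductSpace ℂ K] [CompleteSpace K]

/-- square of the Hilbert-Schmidt norm in `ℝ≥0∞` -/
noncomputable def hse (b : HilbertBasis ι ℂ K) (T : K →L[ℂ] K) : ℝ≥0∞ := ∑' i, ‖T (b i)‖ₑ ^ 2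

/-- Hilbert-Schmidt inner product -/
noncomputable def hip (b : HilbertBasis ι ℂ K) (S T : K →L[ℂ] K) : ℂ := ∑' i, ⟪S (b i), T (b i)⟫_ℂ

variable {b : HilbertBasis ι ℂ K} {b' : HilbertBasis ι' ℂ K} {S T A : K →L[ℂ] K}

theorem enorm_sq (v : K) : ‖v‖ₑ ^ 2 = ENNReal.ofReal (‖v‖ ^ 2) := by
  rw [← ofReal_norm_eq_enorm, ENNReal.ofReal_pow (norm_nonneg _)]

theorem parseval (b : HilbertBasis ι ℂ K) (v : K) : ‖v‖ₑ ^ 2 = ∑' i, ‖⟪b i, v⟫_ℂ‖ₑ ^ 2 := by
  have h1 := b.hasSum_inner_mul_inner v v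
  have h2 : HasSum (fun i => ‖⟪b i, v⟫_ℂ‖ ^ 2) (‖v‖ ^ 2) := by
    have h3 := Complex.hasSum_re h1
    convert h3 using 1
    · funext γ
      rw [← inner_conj_symm v, ← Complex.normSq_eq_conj_mul_self, Complex.ofReal_re,
        Complex.normSq_eq_norm_sq]
    · rw [inner_self_eq_norm_sq_to_K]
      norm_cast
  rw [enorm_sq, ← h2.tsum_eq, ENNReal.ofReal_tsum_of_nonneg (fun _ => by positivity) h2.summable]
  congr 1
  funext i
  rw [← ofReal_norm_eq_enorm, ENNReal.ofReal_pow (norm_nonneg _)]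

theorem hse_adjoint (b : HilbertBasis ι ℂ K) (b' : HilbertBasis ι' ℂ K) (T : K →L[ℂ] K) :
    hse b (adjoint T) = hse b' T := by
  unfold hse
  have h1 : ∀ i, ‖adjoint T (b i)‖ₑ ^ 2 = ∑' j, ‖⟪b' j, adjoint T (b i)⟫_ℂ‖ₑ ^ 2 := fun i =>
    parseval b' _
  have h2 : ∀ j, ‖T (b' j)‖ₑ ^ 2 = ∑' i, ‖⟪b i, T (b' j)⟫_ℂ‖ₑ ^ 2 := fun i => parseval b _
  simp_rw [h1, h2]
  rw [ENNReal.tsum_comm]
  congr 1
  funext x
  congr 1
  funext y
  congr 1
  rw [adjoint_inner_right, ← inner_conj_symm, ← ofReal_norm_eq_enorm, RCLike.norm_conj,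
    ofReal_norm_eq_enorm]

theorem hse_indep (b : HilbertBasis ι ℂ K) (b' : HilbertBasis ι' ℂ K) (T : K →L[ℂ] K) :
    hse b T = hse b' T := by
  rw [← hse_adjoint b' b T, hse_adjoint b' b' T]

theorem hse_star (b : HilbertBasis ι ℂ K) (T : K →L[ℂ] K) : hse b (star T) = hse b T :=
  hse_adjoint b b T

theorem hse_ne_top_iff : hse b T ≠ ⊤ ↔ Summable fun i => ‖T (b i)‖ ^ 2 := by
  unfold hse
  simp_rw [enorm_sq]
  constructor
  · intro h
    have h1 := ENNReal.summable_toReal h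
    refine h1.congr fun i => ?_
    rw [ENNReal.toReal_ofReal (by positivity)]
  · intro h
    rw [← ENNReal.ofReal_tsum_of_nonneg (fun _ => by positivity) h]
    exact ENNReal.ofReal_ne_top

theorem hse_zero : hse b (0 : K →L[ℂ] K) = 0 := by
  simp [hse]

theorem enorm_add_sq (x y : K) : ‖x + y‖ₑ ^ 2 ≤ 2 * ‖x‖ₑ ^ 2 + 2 * ‖y‖ₑ ^ 2 := by
  rw [enorm_sq, enorm_sq, enorm_sq]
  have h2 : (2 : ℝ≥0∞) = ENNReal.ofReal 2 := by simp
  rw [h2, ← ENNReal.ofReal_mul (by norm_num), ← ENNReal.ofReal_mul (by norm_num),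
    ← ENNReal.ofReal_add (by positivity) (by positivity)]
  refine ENNReal.ofReal_le_ofReal ?_
  have h1 := norm_add_le x y
  have h3 := norm_nonneg (x + y)
  nlinarith [sq_nonneg (‖x‖ - ‖y‖), norm_nonneg x, norm_nonneg y]

theorem hse_add_le (S T : K →L[ℂ] K) : hse b (S + T) ≤ 2 * hse b S + 2 * hse b T := by
  unfold hse
  rw [← ENNReal.tsum_mul_left, ← ENNReal.tsum_mul_left, ← ENNReal.tsum_add]
  exact ENNReal.tsum_le_tsum fun i => enorm_add_sq _ _

theorem hse_neg (T : K →L[ℂ] K) : hse b (-T) = hse b T := by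
  unfold hse
  congr 1
  funext i
  rw [neg_apply, enorm_neg]

theorem hse_sub_le (S T : K →L[ℂ] K) : hse b (S - T) ≤ 2 * hse b S + 2 * hse b T := by
  rw [sub_eq_add_neg, ← hse_neg (b := b) T]
  exact hse_add_le _ _

theorem hse_smul (c : ℂ) (T : K →L[ℂ] K) : hse b (c • T) = ‖c‖ₑ ^ 2 * hse b T := by
  unfold hse
  rw [← ENNReal.tsum_mul_left]
  congr 1
  funext i
  rw [smul_apply, enorm_smul, mul_pow]

theorem hse_mul_left (A T : K →L[ℂ] K) : hse b (A * T) ≤ ‖A‖ₑ ^ 2 * hse b T := by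
  unfold hse
  rw [← ENNReal.tsum_mul_left]
  refine ENNReal.tsum_le_tsum fun i => ?_
  rw [← mul_pow]
  refine pow_le_pow_left' ?_ 2
  rw [← ofReal_norm_eq_enorm, ← ofReal_norm_eq_enorm, ← ofReal_norm_eq_enorm,
    ← ENNReal.ofReal_mul (norm_nonneg _)]
  exact ENNReal.ofReal_le_ofReal (A.le_opNorm _)

theorem hse_mul_right (A T : K →L[ℂ] K) : hse b (T * A) ≤ ‖A‖ₑ ^ 2 * hse b T := by
  rw [← hse_star b (T * A), star_mul, ← hse_star b T]
  refine (hse_mul_left _ _).trans_eq ?_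
  congr 2
  rw [← ofReal_norm_eq_enorm, norm_star, ofReal_norm_eq_enorm]

theorem hse_iso_left {U : K →L[ℂ] K} (hU : ∀ x, ‖U x‖ = ‖x‖) (T : K →L[ℂ] K) :
    hse b (U * T) = hse b T := by
  unfold hse
  congr 1
  funext i
  have h : (U * T) (b i) = U (T (b i)) := rfl
  rw [h, ← ofReal_norm_eq_enorm, hU, ofReal_norm_eq_enorm]

/-! ### the inner product -/

theorem memlp_of (h : hse b T ≠ ⊤) : Memℓp (fun i => T (b i)) 2 := by
  rw [memℓp_gen_iff (by norm_num)]
  simpa using hse_ne_top_iff.mp h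

/-- The vector of a Hilbert-Schmidt operator. -/
noncomputable def hv (h : hse b T ≠ ⊤) : lp (fun _ : ι => K) 2 := ⟨fun i => T (b i), memlp_of h⟩

theorem hv_apply (h : hse b T ≠ ⊤) (i : ι) : hv h i = T (b i) := rfl

theorem inner_hv (hS : hse b S ≠ ⊤) (hT : hse b T ≠ ⊤) : ⟪hv hS, hv hT⟫_ℂ = hip b S T := by
  rw [lp.inner_eq_tsum]; rfl

theorem norm_hv_sq (hT : hse b T ≠ ⊤) : ENNReal.ofReal (‖hv hT‖ ^ 2) = hse b T := by
  have h := lp.norm_rpow_eq_tsum (p := 2) (by norm_num) (hv hT)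
  have h2 : ‖hv hT‖ ^ 2 = ∑' i, ‖T (b i)‖ ^ 2 := by simpa [hv_apply] using h
  rw [h2, ENNReal.ofReal_tsum_of_nonneg (fun _ => by positivity) (hse_ne_top_iff.mp hT)]
  unfold hse
  simp_rw [enorm_sq]

theorem summable_hip (hS : hse b S ≠ ⊤) (hT : hse b T ≠ ⊤) :
    Summable fun i => ⟪S (b i), T (b i)⟫_ℂ := by
  exact lp.summable_inner (𝕜 := ℂ) (hv hS) (hv hT)

theorem norm_hip_le (hS : hse b S ≠ ⊤) (hT : hse b T ≠ ⊤) :
    ENNReal.ofReal (‖hip b S T‖ ^ 2) ≤ hse b S * hse b T := by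
  rw [← inner_hv hS hT, ← norm_hv_sq hS, ← norm_hv_sq hT, ← ENNReal.ofReal_mul (by positivity),
    ← mul_pow]
  exact ENNReal.ofReal_le_ofReal (pow_le_pow_left₀ (norm_nonneg _) (norm_inner_le_norm _ _) 2)

theorem hse_add_ne (hS : hse b S ≠ ⊤) (hT : hse b T ≠ ⊤) : hse b (S + T) ≠ ⊤ :=
  ne_top_of_le_ne_top (by finiteness) (hse_add_le S T)

theorem hse_sub_ne (hS : hse b S ≠ ⊤) (hT : hse b T ≠ ⊤) : hse b (S - T) ≠ ⊤ :=
  ne_top_of_le_ne_top (by finiteness) (hse_sub_le S T)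

theorem hse_smul_ne (c : ℂ) (hT : hse b T ≠ ⊤) : hse b (c • T) ≠ ⊤ := by
  rw [hse_smul]
  finiteness

theorem hip_polar (hS : hse b S ≠ ⊤) (hT : hse b T ≠ ⊤) : hip b S T =
    ((((hse b (S + T)).toReal : ℝ) : ℂ) - (((hse b (S - T)).toReal : ℝ) : ℂ) +
      ((((hse b (S - Complex.I • T)).toReal : ℝ) : ℂ) -
        (((hse b (S + Complex.I • T)).toReal : ℝ) : ℂ)) * Complex.I) / 4 := by
  have key : ∀ {R : K →L[ℂ] K} (hR : hse b R ≠ ⊤), (hse b R).toReal = ‖hv hR‖ ^ 2 := by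
    intro R hR
    rw [← norm_hv_sq hR, ENNReal.toReal_ofReal (by positivity)]
  have hI := hse_smul_ne Complex.I hT
  rw [key (hse_add_ne hS hT), key (hse_sub_ne hS hT), key (hse_sub_ne hS hI),
    key (hse_add_ne hS hI), ← inner_hv hS hT, inner_eq_sum_norm_sq_div_four]
  have e1 : hv (hse_add_ne hS hT) = hv hS + hv hT := by ext i; rfl
  have e2 : hv (hse_sub_ne hS hT) = hv hS - hv hT := by ext i; rfl
  have e3 : hv (hse_sub_ne hS hI) = hv hS - Complex.I • hv hT := by ext i; rfl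
  have e4 : hv (hse_add_ne hS hI) = hv hS + Complex.I • hv hT := by ext i; rfl
  rw [e1, e2, e3, e4]
  push_cast
  rfl

theorem hip_indep (b : HilbertBasis ι ℂ K) (b' : HilbertBasis ι' ℂ K) (hS : hse b S ≠ ⊤)
    (hT : hse b T ≠ ⊤) : hip b S T = hip b' S T := by
  rw [hip_polar hS hT, hip_polar (b := b') (by rwa [← hse_indep b b']) (by rwa [← hse_indep b b']),
    hse_indep b b' (S + T), hse_indep b b' (S - T), hse_indep b b' (S - Complex.I • T),
    hse_indep b b' (S + Complex.I • T)]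

theorem hip_add_left {S' : K →L[ℂ] K} (hS : hse b S ≠ ⊤) (hS' : hse b S' ≠ ⊤)
    (hT : hse b T ≠ ⊤) : hip b (S + S') T = hip b S T + hip b S' T := by
  unfold hip
  rw [← (summable_hip hS hT).tsum_add (summable_hip hS' hT)]
  congr 1
  funext i
  rw [add_apply, inner_add_left]

theorem hip_sub_left {S' : K →L[ℂ] K} (hS : hse b S ≠ ⊤) (hS' : hse b S' ≠ ⊤)
    (hT : hse b T ≠ ⊤) : hip b (S - S') T = hip b S T - hip b S' T := by
  unfold hip
  rw [← (summable_hip hS hT).tsum_sub (summable_hip hS' hT)]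
  congr 1
  funext i
  rw [sub_apply, inner_sub_left]

theorem hip_sub_right {T' : K →L[ℂ] K} (hS : hse b S ≠ ⊤) (hT : hse b T ≠ ⊤)
    (hT' : hse b T' ≠ ⊤) : hip b S (T - T') = hip b S T - hip b S T' := by
  unfold hip
  rw [← (summable_hip hS hT).tsum_sub (summable_hip hS hT')]
  congr 1
  funext i
  rw [sub_apply, inner_sub_right]

/-! ### HS-continuous fields -/

section fields

variable {X : Type} [TopologicalSpace X] {F F' : X → K →L[ℂ] K} {c : X → K →L[ℂ] K}

/-- Fields of Hilbert-Schmidt operators, continuous for the Hilbert-Schmidt norm. -/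
structure HSC (b : HilbertBasis ι ℂ K) (F : X → K →L[ℂ] K) : Prop where
  hs : ∀ x, hse b (F x) ≠ ⊤
  cont : ∀ x, Tendsto (fun y => hse b (F y - F x)) (𝓝 x) (𝓝 0)

namespace HSC

theorem zero : HSC b (fun _ : X => (0 : K →L[ℂ] K)) where
  hs x := by rw [hse_zero]; exact ENNReal.zero_ne_top
  cont x := by simp [hse_zero]

theorem add (h : HSC b F) (h' : HSC b F') : HSC b (fun x => F x + F' x) where
  hs x := hse_add_ne (h.hs x) (h'.hs x)
  cont x := by
    have h1 : Tendsto (fun y => 2 * hse b (F y - F x) + 2 * hse b (F' y - F' x)) (𝓝 x)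
        (𝓝 (2 * 0 + 2 * 0)) := by
      refine Tendsto.add ?_ ?_
      · exact ENNReal.Tendsto.const_mul (h.cont x) (Or.inr (by simp))
      · exact ENNReal.Tendsto.const_mul (h'.cont x) (Or.inr (by simp))
    simp only [mul_zero, add_zero] at h1
    refine tendsto_of_tendsto_of_tendsto_of_le_of_le tendsto_const_nhds h1 (fun _ => zero_le)
      fun y => ?_
    have e : F y + F' y - (F x + F' x) = (F y - F x) + (F' y - F' x) := by abel
    simp only [e]
    exact hse_add_le _ _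

theorem smul (h : HSC b F) (z : ℂ) : HSC b (fun x => z • F x) where
  hs x := hse_smul_ne z (h.hs x)
  cont x := by
    have h1 : Tendsto (fun y => ‖z‖ₑ ^ 2 * hse b (F y - F x)) (𝓝 x) (𝓝 (‖z‖ₑ ^ 2 * 0)) :=
      ENNReal.Tendsto.const_mul (h.cont x) (Or.inr (by finiteness))
    rw [mul_zero] at h1
    refine h1.congr fun y => ?_
    rw [← smul_sub, hse_smul]

theorem adj (h : HSC b F) : HSC b (fun x => star (F x)) where
  hs x := by rw [hse_star]; exact h.hs x
  cont x := by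
    refine (h.cont x).congr fun y => ?_
    rw [← star_sub, hse_star]

theorem mul_left (h : HSC b F) (hc : Continuous c) : HSC b (fun x => c x * F x) where
  hs x := ne_top_of_le_ne_top (by have := h.hs x; finiteness) (hse_mul_left _ _)
  cont x := by
    have h1 : Tendsto (fun y => 2 * (‖c y‖ₑ ^ 2 * hse b (F y - F x)) +
        2 * (‖c y - c x‖ₑ ^ 2 * hse b (F x))) (𝓝 x)
        (𝓝 (2 * (‖c x‖ₑ ^ 2 * 0) + 2 * (‖c x - c x‖ₑ ^ 2 * hse b (F x)))) := by
      refine Tendsto.add ?_ ?_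
      · refine ENNReal.Tendsto.const_mul ?_ (Or.inr (by simp))
        refine ENNReal.Tendsto.mul ?_ (Or.inr (by simp)) (h.cont x) (Or.inr (by finiteness))
        exact (ENNReal.continuous_pow 2).continuousAt.tendsto.comp (hc.enorm.tendsto x)
      · refine ENNReal.Tendsto.const_mul ?_ (Or.inr (by simp))
        refine ENNReal.Tendsto.mul_const ?_ (Or.inr (h.hs x))
        exact (ENNReal.continuous_pow 2).continuousAt.tendsto.comp
          ((hc.sub continuous_const).enorm.tendsto x)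
    simp only [mul_zero, sub_self, enorm_zero, ne_eq, OfNat.ofNat_ne_zero, not_false_eq_true,
      zero_pow, zero_mul, add_zero] at h1
    refine tendsto_of_tendsto_of_tendsto_of_le_of_le tendsto_const_nhds h1 (fun _ => zero_le)
      fun y => ?_
    have e : c y * F y - c x * F x = c y * (F y - F x) + (c y - c x) * F x := by
      rw [mul_sub, sub_mul]; abel
    simp only [e]
    refine (hse_add_le _ _).trans ?_
    gcongr
    · exact hse_mul_left _ _
    · exact hse_mul_left _ _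

theorem mul_right (h : HSC b F) (hc : Continuous c) : HSC b (fun x => F x * c x) := by
  have h1 := (h.adj.mul_left (continuous_star.comp hc)).adj
  refine ⟨fun x => ?_, fun x => ?_⟩
  · have := h1.hs x
    simpa [star_mul] using this
  · have := h1.cont x
    simpa [star_mul] using this

theorem comp {Y : Type} [TopologicalSpace Y] (h : HSC b F) {g : Y → X} (hg : Continuous g) :
    HSC b (fun y => F (g y)) where
  hs y := h.hs _
  cont y := (h.cont (g y)).comp (hg.tendsto y)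

/-- The inner product of two HS-continuous fields is continuous. -/
theorem continuous_hip (h : HSC b F) (h' : HSC b F') : Continuous fun x => hip b (F x) (F' x) := by
  rw [continuous_iff_continuousAt]
  intro x
  have e : ∀ y, hip b (F y) (F' y) - hip b (F x) (F' x) =
      hip b (F y - F x) (F' y - F' x) + hip b (F y - F x) (F' x) + hip b (F x) (F' y - F' x) := by
    intro y
    rw [hip_sub_left (h.hs y) (h.hs x) (hse_sub_ne (h'.hs y) (h'.hs x)),
      hip_sub_left (h.hs y) (h.hs x) (h'.hs x), hip_sub_right (h.hs y) (h'.hs y) (h'.hs x),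
      hip_sub_right (h.hs x) (h'.hs y) (h'.hs x)]
    ring
  have key : ∀ {U W : X → K →L[ℂ] K}, (∀ y, hse b (U y) ≠ ⊤) → (∀ y, hse b (W y) ≠ ⊤) →
      Tendsto (fun y => hse b (U y) * hse b (W y)) (𝓝 x) (𝓝 0) →
      Tendsto (fun y => hip b (U y) (W y)) (𝓝 x) (𝓝 0) := by
    intro U W hU hW hT
    have h1 : Tendsto (fun y => ENNReal.ofReal (‖hip b (U y) (W y)‖ ^ 2)) (𝓝 x) (𝓝 0) :=
      tendsto_of_tendsto_of_tendsto_of_le_of_le tendsto_const_nhds hT (fun _ => zero_le)
        fun y => norm_hip_le (hU y) (hW y)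
    have h2 := (ENNReal.tendsto_toReal ENNReal.zero_ne_top).comp h1
    have h3 : Tendsto (fun y => ‖hip b (U y) (W y)‖ ^ 2) (𝓝 x) (𝓝 0) := by
      refine h2.congr fun y => ?_
      simp only [Function.comp_apply]
      rw [ENNReal.toReal_ofReal (by positivity)]
    rw [tendsto_zero_iff_norm_tendsto_zero]
    have h4 := (Real.continuous_sqrt.tendsto 0).comp h3
    rw [Real.sqrt_zero] at h4
    refine h4.congr fun y => ?_
    simp only [Function.comp_apply]
    exact Real.sqrt_sq (norm_nonneg _)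
  have hF := h.cont x
  have hF' := h'.cont x
  have t1 : Tendsto (fun y => hip b (F y - F x) (F' y - F' x)) (𝓝 x) (𝓝 0) := by
    refine key (fun y => hse_sub_ne (h.hs y) (h.hs x)) (fun y => hse_sub_ne (h'.hs y) (h'.hs x)) ?_
    have := ENNReal.Tendsto.mul hF (Or.inr (by simp)) hF' (Or.inr (by simp))
    simpa using this
  have t2 : Tendsto (fun y => hip b (F y - F x) (F' x)) (𝓝 x) (𝓝 0) := by
    refine key (fun y => hse_sub_ne (h.hs y) (h.hs x)) (fun y => h'.hs x) ?_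
    have := ENNReal.Tendsto.mul_const hF (Or.inr (h'.hs x))
    simpa using this
  have t3 : Tendsto (fun y => hip b (F x) (F' y - F' x)) (𝓝 x) (𝓝 0) := by
    refine key (fun y => h.hs x) (fun y => hse_sub_ne (h'.hs y) (h'.hs x)) ?_
    have := ENNReal.Tendsto.const_mul hF' (Or.inr (h.hs x))
    simpa using this
  have t4 := (t1.add t2).add t3
  simp only [add_zero] at t4
  have t5 : Tendsto (fun y => hip b (F y) (F' y) - hip b (F x) (F' x)) (𝓝 x) (𝓝 0) :=
    t4.congr fun y => (e y).symm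
  have t6 := t5.add_const (hip b (F x) (F' x))
  simp only [sub_add_cancel, zero_add] at t6
  exact t6

end HSC

end fields

end Vale.Agent.P092.H34.K
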