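import Vale.Agent.P092.H34.Unf
import Vale.Agent.P092.H221.CS
import Vale.Agent.P092.H156.Hs3

/-!
P092 (helper34), team A, [GLUE]: the off-diagonal coefficients of products of smooth fields are
orthogonal to the bounded continuous invariant functions on `G₁ × G₂`.
-/

set_option linter.all false

open scoped InnerProductSpace ENNReal NNReal Topology
open Filter ContinuousLinearMap MeasureTheory

namespace Vale.Agent.P092.H34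

open Vale.Agent.P092.H160 (RegRep Cmm)
open Vale.Agent.P092.H156 Vale.Agent.P092.PA Vale.Agent.P092.H34.K

variable {Γ Λ K G₁ G₂ H₁ H₂ : Type} [Group Γ] [Countable Γ] [Group Λ]
  [NormedAddCommGroup K] [InnerProductSpace ℂ K] [CompleteSpace K]
  [Group G₁] [TopologicalSpace G₁] [IsTopologicalGroup G₁]
  [LocallyCompactSpace G₁] [SecondCountableTopology G₁]
  [MeasurableSpace G₁] [BorelSpace G₁]
  [Group G₂] [TopologicalSpace G₂] [IsTopologicalGroup G₂]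
  [LocallyCompactSpace G₂] [SecondCountableTopology G₂]
  [MeasurableSpace G₂] [BorelSpace G₂]
  [Group H₁] [TopologicalSpace H₁] [IsTopologicalGroup H₁]
  [Group H₂] [TopologicalSpace H₂] [IsTopologicalGroup H₂]
  {D : Pic Γ Λ K} {p₁ : Γ →* G₁} {p₂ : Γ →* G₂} {q₁ : Λ →* H₁} {q₂ : Λ →* H₂}
  {μ₁ : Measure G₁} {μ₂ : Measure G₂}

/-- The fields `T x = ∫ φ (x, y) (b y)* (d y) dy`. -/
def TFld (D : Pic Γ Λ K) (p₁ : Γ →* G₁) (p₂ : Γ →* G₂) (q₁ : Λ →* H₁) (q₂ : Λ →* H₂)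
    (μ₁ : Measure G₁) (μ₂ : Measure G₂) : Prop :=
  ∀ (φ : G₁ × G₂ → ℂ) (C : ℝ), Continuous φ → (∀ g, ‖φ g‖ ≤ C) →
    (∀ γ (g : G₁ × G₂), φ (p₁ γ * g.1, p₂ γ * g.2) = φ g) →
    (∀ ε > 0, ∃ U ∈ 𝓝 (1 : G₁), ∀ z ∈ U, ∀ x y, ‖φ (x * z, y) - φ (x, y)‖ ≤ ε) →
    ∀ b d, PA.Smo D p₂ q₂ μ₂ b → PA.Smo D p₂ q₂ μ₂ d →
    ∃ T : G₁ → (K →L[ℂ] K), Sm.Fd p₁ D.ρ T ∧ Sm.ACont q₂ D.V T ∧
      (∀ a, PA.Smo D p₁ q₁ μ₁ a → ∀ x, T x * a x = a x * T x) ∧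
      ∀ x ξ η, ⟪ξ, T x η⟫_ℂ = ∫ y, φ (x, y) * ⟪b y ξ, d y η⟫_ℂ ∂μ₂

variable {a c : G₁ → K →L[ℂ] K} {b d : G₂ → K →L[ℂ] K} {v : Λ}

theorem memLp_ab [SFinite μ₁] [SFinite μ₂] (hF1 : F1 D p₁ q₁ μ₁) (hF2 : F1 D p₂ q₂ μ₂)
    (ha : PA.Smo D p₁ q₁ μ₁ a) (hb : PA.Smo D p₂ q₂ μ₂ b) (u : K) :
    MemLp (fun z : G₁ × G₂ => a z.1 (b z.2 u)) 2 (μ₁.prod μ₂) := by
  refine H221.memLp_two_of_lint ?_ (C := ENNReal.ofReal (Sm.ip D.Ω μ₁ a a).re *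
    (ENNReal.ofReal (Sm.ip D.Ω μ₂ b b).re * ‖u‖ₑ ^ 2)) (by finiteness) ?_
  · exact (H221.cont_ab ha.continuous hb.continuous).aestronglyMeasurable
  · exact H221.lint_ab ha.continuous hb.continuous (H221.lint_of_F1 hF1 ha)
      (H221.lint_of_F1 hF2 hb u)

theorem integrable_pair [SFinite μ₁] [SFinite μ₂] (hF1 : F1 D p₁ q₁ μ₁) (hF2 : F1 D p₂ q₂ μ₂)
    (ha : PA.Smo D p₁ q₁ μ₁ a) (hc : PA.Smo D p₁ q₁ μ₁ c) (hb : PA.Smo D p₂ q₂ μ₂ b)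
    (hd : PA.Smo D p₂ q₂ μ₂ d) (u w : K) :
    Integrable (fun z : G₁ × G₂ => ⟪a z.1 (b z.2 u), c z.1 (d z.2 w)⟫_ℂ) (μ₁.prod μ₂) :=
  Sm.integrable_inner_of_memLp (memLp_ab hF1 hF2 ha hb u) (memLp_ab hF1 hF2 hc hd w)

/-- The case of a function which is uniformly continuous in the first variable. -/
theorem outG_unif [SFinite μ₁] [SFinite μ₂] (hF1 : F1 D p₁ q₁ μ₁) (hF2 : F1 D p₂ q₂ μ₂)
    (hC : Com D p₁ p₂ q₁ q₂ μ₁ μ₂) (hO : Out D p₁ q₁ q₂ μ₁) (hT : TFld D p₁ p₂ q₁ q₂ μ₁ μ₂)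
    [μ₁.IsMulLeftInvariant]
    {φ : G₁ × G₂ → ℂ} {C : ℝ} (hφc : Continuous φ) (hφb : ∀ g, ‖φ g‖ ≤ C)
    (hφi : ∀ γ (g : G₁ × G₂), φ (p₁ γ * g.1, p₂ γ * g.2) = φ g)
    (hφu : ∀ ε > 0, ∃ U ∈ 𝓝 (1 : G₁), ∀ z ∈ U, ∀ x y, ‖φ (x * z, y) - φ (x, y)‖ ≤ ε)
    (ha : PA.Smo D p₁ q₁ μ₁ a) (hc : PA.Smo D p₁ q₁ μ₁ c) (hb : PA.Smo D p₂ q₂ μ₂ b)
    (hd : PA.Smo D p₂ q₂ μ₂ d) (hv : v ≠ 1) :
    ∫ z : G₁ × G₂, φ z * ⟪a z.1 (b z.2 D.Ω), c z.1 (d z.2 (D.V v D.Ω))⟫_ℂ ∂(μ₁.prod μ₂) = 0 := by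
  obtain ⟨T, hT1, hT2, hT3, hT4⟩ := hT φ C hφc hφb hφi hφu b d hb hd
  have hi : Integrable (fun z : G₁ × G₂ => φ z *
      ⟪a z.1 (b z.2 D.Ω), c z.1 (d z.2 (D.V v D.Ω))⟫_ℂ) (μ₁.prod μ₂) :=
    (integrable_pair hF1 hF2 ha hc hb hd _ _).bdd_mul hφc.aestronglyMeasurable
      (Eventually.of_forall hφb)
  rw [integral_prod _ hi]
  have e1 : ∀ x, ∫ y, φ (x, y) * ⟪a x (b y D.Ω), c x (d y (D.V v D.Ω))⟫_ℂ ∂μ₂ =
      ⟪a x D.Ω, T x (c x (D.V v D.Ω))⟫_ℂ := by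
    intro x
    rw [hT4]
    congr 1
    funext y
    have e2 : a x (b y D.Ω) = b y (a x D.Ω) :=
      congrArg (fun S : K →L[ℂ] K => S D.Ω) (hC a b ha hb x y)
    have e3 : c x (d y (D.V v D.Ω)) = d y (c x (D.V v D.Ω)) :=
      congrArg (fun S : K →L[ℂ] K => S (D.V v D.Ω)) (hC c d hc hd x y)
    rw [e2, e3]
  simp only
  simp_rw [e1]
  have hcm : ∀ a, PA.Smo D p₁ q₁ μ₁ a → ∀ x, adjoint (T x) * a x = a x * adjoint (T x) := by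
    intro a ha x
    have h1 := hT3 _ (Sm.Smo.adj D.frm ha) x
    have h2 := congrArg star h1
    simp only [star_mul, star_eq_adjoint, adjoint_adjoint] at h2
    exact h2.symm
  have h1 := hO (fun x => adjoint (T x)) (hT1.adj D.hρ) (Sm.ACont.adj D.frm hT2) hcm a c ha hc v hv
  have e4 : ∀ x, ⟪a x D.Ω, T x (c x (D.V v D.Ω))⟫_ℂ =
      starRingEnd ℂ ⟪c x (D.V v D.Ω), adjoint (T x) (a x D.Ω)⟫_ℂ := by
    intro x
    rw [adjoint_inner_right, inner_conj_symm]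
  simp_rw [e4]
  rw [integral_conj, h1, map_zero]

/-- Normalised bump functions. -/
theorem exists_bump_one {G : Type} [Group G] [TopologicalSpace G] [IsTopologicalGroup G]
    [LocallyCompactSpace G] [MeasurableSpace G] [BorelSpace G] {μ : Measure G}
    [IsFiniteMeasureOnCompacts μ] [μ.IsOpenPosMeasure] {U : Set G} (hU : U ∈ 𝓝 (1 : G)) :
    ∃ k : G → ℂ, Continuous k ∧ HasCompactSupport k ∧ (∀ t, k t ≠ 0 → t ∈ U) ∧
      ∫ t, ‖k t‖ ∂μ = 1 ∧ ∫ t, k t ∂μ = 1 := by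
  obtain ⟨k, h1, h2, h3, h4, h5⟩ := exists_bump (μ := μ) hU
  set I := ∫ t, ‖k t‖ ∂μ with hI
  refine ⟨fun t => (I : ℂ)⁻¹ * k t, continuous_const.mul h1, h2.mul_left, fun t ht => ?_, ?_, ?_⟩
  · exact h3 t fun h => ht (by simp only [h, mul_zero])
  · simp only [norm_mul, norm_inv, Complex.norm_real, Real.norm_of_nonneg h4.le]
    rw [integral_const_mul, ← hI, inv_mul_cancel₀ h4.ne']
  · rw [integral_const_mul, h5, inv_mul_cancel₀ (Complex.ofReal_ne_zero.mpr h4.ne')]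

/-- The general case. -/
theorem outG [SFinite μ₁] [SFinite μ₂] (hF1 : F1 D p₁ q₁ μ₁) (hF2 : F1 D p₂ q₂ μ₂)
    (hC : Com D p₁ p₂ q₁ q₂ μ₁ μ₂) (hO : Out D p₁ q₁ q₂ μ₁) (hT : TFld D p₁ p₂ q₁ q₂ μ₁ μ₂)
    [μ₁.IsMulLeftInvariant] [IsFiniteMeasureOnCompacts μ₁] [μ₁.IsOpenPosMeasure]
    {φ : G₁ × G₂ → ℂ} {C : ℝ} (hφc : Continuous φ) (hφb : ∀ g, ‖φ g‖ ≤ C)
    (hφi : ∀ γ (g : G₁ × G₂), φ (p₁ γ * g.1, p₂ γ * g.2) = φ g)
    (ha : PA.Smo D p₁ q₁ μ₁ a) (hc : PA.Smo D p₁ q₁ μ₁ c) (hb : PA.Smo D p₂ q₂ μ₂ b)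
    (hd : PA.Smo D p₂ q₂ μ₂ d) (hv : v ≠ 1) :
    ∫ z : G₁ × G₂, φ z * ⟪a z.1 (b z.2 D.Ω), c z.1 (d z.2 (D.V v D.Ω))⟫_ℂ ∂(μ₁.prod μ₂) = 0 := by
  have hC0 : 0 ≤ C := (norm_nonneg _).trans (hφb 1)
  have hfi := integrable_pair hF1 hF2 ha hc hb hd D.Ω (D.V v D.Ω)
  set f : G₁ × G₂ → ℂ := fun z => ⟪a z.1 (b z.2 D.Ω), c z.1 (d z.2 (D.V v D.Ω))⟫_ℂ with hf
  obtain ⟨U, hU⟩ := (𝓝 (1 : G₁)).exists_antitone_basis
  have hex : ∀ n, ∃ k : G₁ → ℂ, Continuous k ∧ HasCompactSupport k ∧ (∀ t, k t ≠ 0 → t ∈ U n) ∧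
      ∫ t, ‖k t‖ ∂μ₁ = 1 ∧ ∫ t, k t ∂μ₁ = 1 := fun n => exists_bump_one (hU.mem n)
  choose k hk hkc hkU hk1 hk2 using hex
  have hcy : ∀ y : G₂, Continuous fun x : G₁ => φ (x, y) := fun y => by fun_prop
  set F : ℕ → G₁ × G₂ → ℂ := fun n z => smr μ₁ (k n) (fun x => φ (x, z.2)) z.1 with hF
  have Fe : ∀ n z, F n z = ∫ t, k n t • φ (z.1 * t, z.2) ∂μ₁ := fun n z => smr_eq _ _ _
  have Fc : ∀ n, Continuous (F n) := by
    intro n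
    have e : F n = fun z => ∫ t, k n t • φ (z.1 * t, z.2) ∂μ₁ := funext (Fe n)
    rw [e]
    refine continuous_of_dominated (bound := fun t => ‖k n t‖ * C) ?_ ?_ ?_ ?_
    · intro z
      have h1 : Continuous fun t => k n t • φ (z.1 * t, z.2) :=
        (hk n).smul (hφc.comp (by fun_prop))
      exact h1.aestronglyMeasurable
    · intro z
      refine Eventually.of_forall fun t => ?_
      rw [norm_smul]
      exact mul_le_mul_of_nonneg_left (hφb _) (norm_nonneg _)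
    · exact ((hk n).integrable_of_hasCompactSupport (hkc n)).norm.mul_const C
    · refine Eventually.of_forall fun t => ?_
      have h1 : Continuous fun z : G₁ × G₂ => (z.1 * t, z.2) := by fun_prop
      have h2 : Continuous fun z : G₁ × G₂ => k n t • φ (z.1 * t, z.2) :=
        (hφc.comp h1).const_smul (k n t)
      exact h2
  have Fb : ∀ n z, ‖F n z‖ ≤ C := by
    intro n z
    have h1 := norm_smr_le (μ := μ₁) (hk n) (hkc n) (B := fun x => φ (x, z.2)) (C := C)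
      (fun x => hφb _) z.1
    rwa [hk1, mul_one] at h1
  have Fi : ∀ n γ (g : G₁ × G₂), F n (p₁ γ * g.1, p₂ γ * g.2) = F n g := by
    intro n γ g
    simp only [hF]
    rw [smr_mul_left, smr]
    congr 1
    funext t
    rw [hφi γ (t, g.2)]
  have Fu : ∀ n, ∀ ε > 0, ∃ W ∈ 𝓝 (1 : G₁), ∀ z ∈ W, ∀ x y, ‖F n (x * z, y) - F n (x, y)‖ ≤ ε := by
    intro n ε hε
    refine ⟨_, eventually_L1 (μ := μ₁) (hk n) (hkc n) (ε := ε / (C + 1)) (by positivity),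
      fun z hz x y => ?_⟩
    refine (norm_smr_sub_le (μ := μ₁) (hk n) (hkc n) (hcy y) (fun x => hφb _) x z).trans ?_
    have h1 : C * ∫ t, ‖k n (z⁻¹ * t) - k n t‖ ∂μ₁ ≤ C * (ε / (C + 1)) :=
      mul_le_mul_of_nonneg_left hz hC0
    refine h1.trans ?_
    rw [mul_div_assoc', div_le_iff₀ (by positivity)]
    nlinarith
  have F0 : ∀ n, ∫ z, F n z * f z ∂(μ₁.prod μ₂) = 0 := fun n =>
    outG_unif hF1 hF2 hC hO hT (Fc n) (Fb n) (Fi n) (Fu n) ha hc hb hd hv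
  have Ft : ∀ z, Tendsto (fun n => F n z) atTop (𝓝 (φ z)) := by
    intro z
    rw [Metric.tendsto_atTop]
    intro ε hε
    have h1 : Tendsto (fun t : G₁ => φ (z.1 * t, z.2)) (𝓝 1) (𝓝 (φ z)) := by
      have h2 : Continuous fun t : G₁ => φ (z.1 * t, z.2) := hφc.comp (by fun_prop)
      have h3 := h2.tendsto 1
      simpa using h3
    have h2 : {t : G₁ | ‖φ (z.1 * t, z.2) - φ z‖ ≤ ε / 2} ∈ 𝓝 (1 : G₁) := by
      filter_upwards [Metric.tendsto_nhds.mp h1 (ε / 2) (by positivity)] with t ht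
      rw [← dist_eq_norm]
      exact ht.le
    obtain ⟨N, -, hN⟩ := hU.toHasBasis.mem_iff.mp h2
    refine ⟨N, fun n hn => ?_⟩
    have h3 := norm_smr_sub_le' (μ := μ₁) (hk n) (hkc n) (hcy z.2) z.1 (ε := ε / 2)
      fun t ht => hN (hU.antitone hn (hkU n t ht))
    rw [hk1, hk2, one_smul, mul_one] at h3
    rw [dist_eq_norm]
    exact lt_of_le_of_lt h3 (by linarith)
  have h1 : Tendsto (fun n => ∫ z, F n z * f z ∂(μ₁.prod μ₂)) atTop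
      (𝓝 (∫ z, φ z * f z ∂(μ₁.prod μ₂))) := by
    refine tendsto_integral_of_dominated_convergence (fun z => C * ‖f z‖) ?_ ?_ ?_ ?_
    · intro n
      exact (Fc n).aestronglyMeasurable.mul hfi.aestronglyMeasurable
    · exact hfi.norm.const_mul C
    · intro n
      refine Eventually.of_forall fun z => ?_
      rw [norm_mul]
      exact mul_le_mul_of_nonneg_right (Fb n z) (norm_nonneg _)
    · exact Eventually.of_forall fun z => (Ft z).mul_const _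
  simp only [F0] at h1
  exact (tendsto_nhds_unique h1 tendsto_const_nhds)

end Vale.Agent.P092.H34
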