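import Vale.Agent.P092.H34.Irr
import Vale.Agent.P092.H34.Grp
import Vale.Agent.P092.H421.Hs4

/-!
P092 (helper34), [C-IND] and [D-PIC]: the picture of one leg and of both legs, for every frame and
every lattice-like subgroup of a second countable locally compact group.
-/

set_option linter.all false

open scoped InnerProductSpace ENNReal
open MeasureTheory Filter Topology ContinuousLinearMap

namespace Vale.Agent.P092.H34.PicC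

open Vale.Agent.P092.H790 Vale.Agent.P092.H85 Vale.Agent.P092.H160 Vale.Agent.P092.SR
  Vale.Agent.P092.H103 Vale.Agent.P092.H34 Vale.Agent.P092.H34.Ind Vale.Agent.P092.RC
  Vale.Agent.P092.H839

section frm

variable {Γ Λ : Type} [Group Γ] [Group Λ] {α : Γ →* (Ell2 Λ →L[ℂ] Ell2 Λ)}

theorem RegRep.hasSum_sq {G : Type} [Group G] {H : Type} [NormedAddCommGroup H]
    [InnerProductSpace ℂ H] [CompleteSpace H] {π : G →* (H →L[ℂ] H)} {ξ : H} (h : RegRep π ξ)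
    (η : H) : HasSum (fun g => ‖⟪π g ξ, η⟫_ℂ‖ ^ 2) (‖η‖ ^ 2) := by
  have h1 := h.hasSum_inner η η
  have h3 := Complex.hasSum_re h1
  have h4 : (⟪η, η⟫_ℂ).re = ‖η‖ ^ 2 := by
    rw [inner_self_eq_norm_sq_to_K]; norm_cast
  rw [h4] at h3
  have h5 : (fun g => ‖⟪π g ξ, η⟫_ℂ‖ ^ 2) = fun g => (⟪η, π g ξ⟫_ℂ * ⟪π g ξ, η⟫_ℂ).re := by
    funext g
    rw [← inner_conj_symm η, ← Complex.normSq_eq_conj_mul_self, Complex.normSq_eq_norm_sq,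
      Complex.ofReal_re]
  rw [h5]
  exact h3

theorem frm₁ (hα : Frame α) : Frm (RR₁ α) (RR₂ α) (dl (1 : Λ × Λ)) := by
  refine frm_of_hasSum fun η => ?_
  have h1 := RegRep.hasSum_sq (regRep_RR hα) η
  have h2 : (fun p : Γ × Γ => ‖⟪RR₁ α p.1 (RR₂ α p.2 (dl (1 : Λ × Λ))), η⟫_ℂ‖ ^ 2) =
      fun p : Γ × Γ => ‖⟪RR α p (dl 1), η⟫_ℂ‖ ^ 2 := by
    funext p
    obtain ⟨g, h⟩ := p
    rw [RR_eq, mul_ap]
  rw [h2]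
  exact h1

theorem frm₂ (hα : Frame α) : Frm (RR₂ α) (RR₁ α) (dl (1 : Λ × Λ)) :=
  frm_symm comm_RR (frm₁ hα)

theorem cmm_VV (hα : Frame α) (v : Γ) : Cmm (RR α) (VV α v) := by
  rintro ⟨g, h⟩
  rw [RR_eq, ← mul_assoc, comm_VV₁ hα, mul_assoc, comm_VV₂ hα, mul_assoc]

theorem hirr' (hα : Frame α) (hΛ : ∀ s : Λ, s ≠ 1 → Set.Infinite {y : Λ | ∃ h, y = h * s * h⁻¹})
    {A : Ell2 (Λ × Λ) →L[ℂ] Ell2 (Λ × Λ)} (h1 : Cmm (RR α) A) (hA : Cmm (VV α) A) :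
    ∃ c : ℂ, A = c • (1 : Ell2 (Λ × Λ) →L[ℂ] Ell2 (Λ × Λ)) := by
  refine Irr.hirr hα hΛ (fun g => ?_) (fun g => ?_) hA
  · have := h1 (g, 1)
    rwa [← RR₁_of_RR] at this
  · have := h1 (1, g)
    rwa [← RR₂_of_RR] at this

/-- the vector state is a trace on the commutant of the source and the second target -/
theorem inv₁ (hα : Frame α) {A : Ell2 (Λ × Λ) →L[ℂ] Ell2 (Λ × Λ)}
    (h1 : ∀ g, A * VV α g = VV α g * A) (h2 : ∀ g, A * RR₂ α g = RR₂ α g * A) (γ : Γ) :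
    ⟪(dl 1 : Ell2 (Λ × Λ)), RR₁ α γ (A (RR₁ α γ⁻¹ (dl 1)))⟫_ℂ =
      ⟪(dl 1 : Ell2 (Λ × Λ)), A (dl 1)⟫_ℂ := by
  have hr := Irr.regRep_VR hα
  have c1 : ∀ {B : Ell2 (Λ × Λ) →L[ℂ] Ell2 (Λ × Λ)}, (∀ g, B * VV α g = VV α g * B) →
      (∀ g, B * RR₂ α g = RR₂ α g * B) → Cmm (Irr.VR hα) B := by
    rintro B hB1 hB2 ⟨g, h⟩
    change B * (VV α g * RR₂ α h) = VV α g * RR₂ α h * B
    rw [← mul_assoc, hB1, mul_assoc, hB2, mul_assoc]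
  have hA := c1 h1 h2
  have hR : ∀ γ, Cmm (Irr.VR hα) (RR₁ α γ) := fun γ =>
    c1 (fun g => (comm_VV₁ hα g γ).symm) (fun g => comm_RR γ g)
  have h3 := hr.trace_comm ((hR γ).mul hA) (hR γ⁻¹)
  rw [mul_ap, mul_ap] at h3
  rw [h3]
  have h4 : RR₁ α γ⁻¹ (RR₁ α γ (A (dl 1))) = A (dl (1 : Λ × Λ)) := by
    rw [← mul_ap, ← map_mul, inv_mul_cancel, map_one]
    rfl
  rw [h4]

theorem inv₂ (hα : Frame α) {A : Ell2 (Λ × Λ) →L[ℂ] Ell2 (Λ × Λ)}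
    (h1 : ∀ g, A * VV α g = VV α g * A) (h2 : ∀ g, A * RR₁ α g = RR₁ α g * A) (γ : Γ) :
    ⟪(dl 1 : Ell2 (Λ × Λ)), RR₂ α γ (A (RR₂ α γ⁻¹ (dl 1)))⟫_ℂ =
      ⟪(dl 1 : Ell2 (Λ × Λ)), A (dl 1)⟫_ℂ := by
  have hr := Irr.regRep_VR₁ hα
  have c1 : ∀ {B : Ell2 (Λ × Λ) →L[ℂ] Ell2 (Λ × Λ)}, (∀ g, B * VV α g = VV α g * B) →
      (∀ g, B * RR₁ α g = RR₁ α g * B) → Cmm (Irr.VR₁ hα) B := by
    rintro B hB1 hB2 ⟨g, h⟩
    change B * (VV α g * RR₁ α h) = VV α g * RR₁ α h * B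
    rw [← mul_assoc, hB1, mul_assoc, hB2, mul_assoc]
  have hA := c1 h1 h2
  have hR : ∀ γ, Cmm (Irr.VR₁ hα) (RR₂ α γ) := fun γ =>
    c1 (fun g => (comm_VV₂ hα g γ).symm) (fun g => (comm_RR g γ).symm)
  have h3 := hr.trace_comm ((hR γ).mul hA) (hR γ⁻¹)
  rw [mul_ap, mul_ap] at h3
  rw [h3]
  have h4 : RR₂ α γ⁻¹ (RR₂ α γ (A (dl 1))) = A (dl (1 : Λ × Λ)) := by
    rw [← mul_ap, ← map_mul, inv_mul_cancel, map_one]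
    rfl
  rw [h4]

end frm

section main

variable {E : Type} [Group E] [TopologicalSpace E] [IsTopologicalGroup E] [LocallyCompactSpace E]
  [SecondCountableTopology E] [T2Space E] [MeasurableSpace E] [BorelSpace E]
  {Γ : Subgroup E} [DiscreteTopology Γ] [Countable Γ] [MeasurableSpace (E ⧸ Γ)]
  [BorelSpace (E ⧸ Γ)] {ν : Measure (E ⧸ Γ)} [IsProbabilityMeasure ν]
  (hν : ∀ g : E, ν.map (fun x => g • x) = ν)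
  {Λ : Type} [Group Λ] [Countable Λ] {α : Γ →* (Ell2 Λ →L[ℂ] Ell2 Λ)} (hα : Frame α)

theorem mooreSet_of {S : Set E} (hS : Moore S) : MooreSet E S := fun 𝓗 _ _ _ σ hσ ξ h g =>
  hS 𝓗 σ hσ.iso (H264.continuous_of_one hσ.iso hσ.cont) ξ h g

theorem cont_pi {ℋ : Type} [NormedAddCommGroup ℋ] [InnerProductSpace ℂ ℋ] [CompleteSpace ℋ]
    {V : Γ →* (ℋ →L[ℂ] ℋ)} (hV : ∀ v, adjoint (V v) = V v⁻¹) (ξ : Lp ℋ 2 (cdat ν hν).μ) :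
    Continuous fun g => Ind.pi (cdat ν hν) hV g ξ := by
  refine H264.continuous_of_one (σ := Ind.pi (cdat ν hν) hV)
    (fun g ξ => norm_map_of_adj (adjoint_pi (cdat ν hν) hV) g ξ) (fun ξ => ?_) ξ
  exact ri_cont hν hV ξ

/-- the basis -/
noncomputable def bas (Λ : Type) [Group Λ] : HilbertBasis (Λ × Λ) ℂ (Ell2 (Λ × Λ)) :=
  (regRep_lam (G := Λ × Λ)).basis

include hν in
theorem scalar_of (hΛ : ∀ s : Λ, s ≠ 1 → Set.Infinite {y : Λ | ∃ h, y = h * s * h⁻¹})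
    {S : Set E} (hS : Moore S)
    {T : Lp (Ell2 (Λ × Λ)) 2 (cdat ν hν).μ →L[ℂ] Lp (Ell2 (Λ × Λ)) 2 (cdat ν hν).μ}
    (hT : Dcm T) (h1 : ∀ γ, T * Ind.lam (cdat ν hν) (RR₁ α) γ = Ind.lam (cdat ν hν) (RR₁ α) γ * T)
    (h2 : ∀ γ, T * Ind.lam (cdat ν hν) (RR₂ α) γ = Ind.lam (cdat ν hν) (RR₂ α) γ * T)
    (h3 : ∀ g ∈ S, T * Ind.pi (cdat ν hν) (V := VV α) (adj_VV hα) g =
      Ind.pi (cdat ν hν) (V := VV α) (adj_VV hα) g * T) :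
    ∃ z : ℂ, T = z • (1 : Lp (Ell2 (Λ × Λ)) 2 (cdat ν hν).μ →L[ℂ]
      Lp (Ell2 (Λ × Λ)) 2 (cdat ν hν).μ) := by
  refine a1 hν (regRep_RR hα) (V := VV α) (adj_VV hα) (cmm_VV hα)
    (fun A hA1 hA2 => hirr' hα hΛ hA1 hA2) (mooreSet_of hS) (T := T) hT ?_ h3
  rintro ⟨g, h⟩
  have e1 : (RR α (g, h)).compLpL 2 (cdat ν hν).μ = Ind.lam (cdat ν hν) (RR₁ α) g *
      Ind.lam (cdat ν hν) (RR₂ α) h := by
    rw [RR_eq]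
    exact comp_mul (RR₁ α g) (RR₂ α h)
  have e2 : T * (RR α (g, h)).compLpL 2 (cdat ν hν).μ =
      (RR α (g, h)).compLpL 2 (cdat ν hν).μ * T := by
    rw [e1, ← mul_assoc, h1, mul_assoc, h2, mul_assoc]
  exact e2

/-- constant operators on the constant vector -/
theorem inner_const_op {X : Type} [MeasurableSpace X] {μ : Measure X} [IsProbabilityMeasure μ]
    {ℋ : Type} [NormedAddCommGroup ℋ] [InnerProductSpace ℂ ℋ] (A : ℋ →L[ℂ] ℋ) (v : ℋ) :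
    ⟪(Lp.const 2 μ v : Lp ℋ 2 μ), A.compLpL 2 μ (Lp.const 2 μ v)⟫_ℂ = ⟪v, A v⟫_ℂ := by
  rw [L2.inner_def]
  have h1 : (fun x => ⟪(Lp.const 2 μ v : Lp ℋ 2 μ) x, (A.compLpL 2 μ (Lp.const 2 μ v)) x⟫_ℂ) =ᵐ[μ]
      fun _ => ⟪v, A v⟫_ℂ := by
    filter_upwards [Lp.coeFn_const (p := 2) (μ := μ) v,
      fld_comp (μ := μ) A (Lp.const 2 μ v)] with x a1 a2
    rw [a2, a1]
    rfl
  rw [integral_congr_ae h1, integral_const]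
  simp

include hν in
theorem inv_of₁
    {T : Lp (Ell2 (Λ × Λ)) 2 (cdat ν hν).μ →L[ℂ] Lp (Ell2 (Λ × Λ)) 2 (cdat ν hν).μ}
    (hT : Dcm T)
    (h2 : ∀ γ, T * Ind.lam (cdat ν hν) (RR₂ α) γ = Ind.lam (cdat ν hν) (RR₂ α) γ * T)
    (h3 : ∀ g, T * Ind.pi (cdat ν hν) (V := VV α) (adj_VV hα) g =
      Ind.pi (cdat ν hν) (V := VV α) (adj_VV hα) g * T) (γ : Γ) :
    ⟪(Lp.const 2 (cdat ν hν).μ (dl 1) : Lp (Ell2 (Λ × Λ)) 2 (cdat ν hν).μ),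
      (Ind.lam (cdat ν hν) (RR₁ α) γ * T * Ind.lam (cdat ν hν) (RR₁ α) γ⁻¹)
        (Lp.const 2 (cdat ν hν).μ (dl 1))⟫_ℂ =
      ⟪(Lp.const 2 (cdat ν hν).μ (dl 1) : Lp (Ell2 (Λ × Λ)) 2 (cdat ν hν).μ),
        T (Lp.const 2 (cdat ν hν).μ (dl 1))⟫_ℂ := by
  obtain ⟨A, hA, hTA', -⟩ := Grp.GF.const_of_comm hν (bas Λ) (V := VV α) (adj_VV hα) hT h3
  have hTA : T = A.compLpL 2 (cdat ν hν).μ := hTA'
  have hAR : ∀ g, A * RR₂ α g = RR₂ α g * A := by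
    intro g
    have h4 := h2 g
    rw [hTA] at h4
    have e1 : A.compLpL 2 (cdat ν hν).μ * Ind.lam (cdat ν hν) (RR₂ α) g =
        (A * RR₂ α g).compLpL 2 (cdat ν hν).μ := (comp_mul A (RR₂ α g)).symm
    have e2 : Ind.lam (cdat ν hν) (RR₂ α) g * A.compLpL 2 (cdat ν hν).μ =
        (RR₂ α g * A).compLpL 2 (cdat ν hν).μ := (comp_mul (RR₂ α g) A).symm
    have e3 : (A * RR₂ α g).compLpL 2 (cdat ν hν).μ = (RR₂ α g * A).compLpL 2 (cdat ν hν).μ :=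
      e1.symm.trans (h4.trans e2)
    have e4 : Fld ((A * RR₂ α g).compLpL 2 (cdat ν hν).μ) (fun _ => RR₂ α g * A) := by
      rw [e3]; exact fld_comp (RR₂ α g * A)
    obtain ⟨x, hx⟩ := (fld_unique (μ := (cdat ν hν).μ) (bas Λ) (fld_comp (A * RR₂ α g)) e4).exists
    exact hx
  have e1 : Ind.lam (cdat ν hν) (RR₁ α) γ * T * Ind.lam (cdat ν hν) (RR₁ α) γ⁻¹ =
      (RR₁ α γ * A * RR₁ α γ⁻¹).compLpL 2 (cdat ν hν).μ := by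
    rw [hTA, comp_mul, comp_mul]
    rfl
  rw [e1, hTA]
  have e2 := inner_const_op (μ := (cdat ν hν).μ) (RR₁ α γ * A * RR₁ α γ⁻¹) (dl (1 : Λ × Λ))
  have e3 := inner_const_op (μ := (cdat ν hν).μ) A (dl (1 : Λ × Λ))
  refine e2.trans (Eq.trans ?_ e3.symm)
  exact inv₁ hα hA hAR γ

include hν in
theorem inv_of₂
    {T : Lp (Ell2 (Λ × Λ)) 2 (cdat ν hν).μ →L[ℂ] Lp (Ell2 (Λ × Λ)) 2 (cdat ν hν).μ}
    (hT : Dcm T)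
    (h2 : ∀ γ, T * Ind.lam (cdat ν hν) (RR₁ α) γ = Ind.lam (cdat ν hν) (RR₁ α) γ * T)
    (h3 : ∀ g, T * Ind.pi (cdat ν hν) (V := VV α) (adj_VV hα) g =
      Ind.pi (cdat ν hν) (V := VV α) (adj_VV hα) g * T) (γ : Γ) :
    ⟪(Lp.const 2 (cdat ν hν).μ (dl 1) : Lp (Ell2 (Λ × Λ)) 2 (cdat ν hν).μ),
      (Ind.lam (cdat ν hν) (RR₂ α) γ * T * Ind.lam (cdat ν hν) (RR₂ α) γ⁻¹)
        (Lp.const 2 (cdat ν hν).μ (dl 1))⟫_ℂ =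
      ⟪(Lp.const 2 (cdat ν hν).μ (dl 1) : Lp (Ell2 (Λ × Λ)) 2 (cdat ν hν).μ),
        T (Lp.const 2 (cdat ν hν).μ (dl 1))⟫_ℂ := by
  obtain ⟨A, hA, hTA', -⟩ := Grp.GF.const_of_comm hν (bas Λ) (V := VV α) (adj_VV hα) hT h3
  have hTA : T = A.compLpL 2 (cdat ν hν).μ := hTA'
  have hAR : ∀ g, A * RR₁ α g = RR₁ α g * A := by
    intro g
    have h4 := h2 g
    rw [hTA] at h4
    have e1 : A.compLpL 2 (cdat ν hν).μ * Ind.lam (cdat ν hν) (RR₁ α) g =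
        (A * RR₁ α g).compLpL 2 (cdat ν hν).μ := (comp_mul A (RR₁ α g)).symm
    have e2 : Ind.lam (cdat ν hν) (RR₁ α) g * A.compLpL 2 (cdat ν hν).μ =
        (RR₁ α g * A).compLpL 2 (cdat ν hν).μ := (comp_mul (RR₁ α g) A).symm
    have e3 : (A * RR₁ α g).compLpL 2 (cdat ν hν).μ = (RR₁ α g * A).compLpL 2 (cdat ν hν).μ :=
      e1.symm.trans (h4.trans e2)
    have e4 : Fld ((A * RR₁ α g).compLpL 2 (cdat ν hν).μ) (fun _ => RR₁ α g * A) := by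
      rw [e3]; exact fld_comp (RR₁ α g * A)
    obtain ⟨x, hx⟩ := (fld_unique (μ := (cdat ν hν).μ) (bas Λ) (fld_comp (A * RR₁ α g)) e4).exists
    exact hx
  have e1 : Ind.lam (cdat ν hν) (RR₂ α) γ * T * Ind.lam (cdat ν hν) (RR₂ α) γ⁻¹ =
      (RR₂ α γ * A * RR₂ α γ⁻¹).compLpL 2 (cdat ν hν).μ := by
    rw [hTA, comp_mul, comp_mul]
    rfl
  rw [e1, hTA]
  have e2 := inner_const_op (μ := (cdat ν hν).μ) (RR₂ α γ * A * RR₂ α γ⁻¹) (dl (1 : Λ × Λ))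
  have e3 := inner_const_op (μ := (cdat ν hν).μ) A (dl (1 : Λ × Λ))
  refine e2.trans (Eq.trans ?_ e3.symm)
  exact inv₂ hα hA hAR γ

/-- **the picture of the first leg** -/
theorem leg₁ [Infinite Λ]
    (hΛ : ∀ s : Λ, s ≠ 1 → Set.Infinite {y : Λ | ∃ h, y = h * s * h⁻¹}) :
    Pic (Ind.pi (cdat ν hν) (V := VV α) (adj_VV hα)) (Ind.lam (cdat ν hν) (RR₁ α))
      (Xset (cdat ν hν) (Ell2 (Λ × Λ)) ∪ Set.range (Ind.lam (cdat ν hν) (RR₂ α)))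
      (Lp.const 2 (cdat ν hν).μ (dl 1)) := by
  have hd : ∀ {T : Lp (Ell2 (Λ × Λ)) 2 (cdat ν hν).μ →L[ℂ] Lp (Ell2 (Λ × Λ)) 2 (cdat ν hν).μ},
      Cm (Xset (cdat ν hν) (Ell2 (Λ × Λ)) ∪ Set.range (Ind.lam (cdat ν hν) (RR₂ α))) T →
      Dcm T := fun hT S hS => hT _ (Or.inl ⟨S, hS, rfl⟩)
  have hr : ∀ {T : Lp (Ell2 (Λ × Λ)) 2 (cdat ν hν).μ →L[ℂ] Lp (Ell2 (Λ × Λ)) 2 (cdat ν hν).μ},
      Cm (Xset (cdat ν hν) (Ell2 (Λ × Λ)) ∪ Set.range (Ind.lam (cdat ν hν) (RR₂ α))) T →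
      ∀ γ, T * Ind.lam (cdat ν hν) (RR₂ α) γ = Ind.lam (cdat ν hν) (RR₂ α) γ * T :=
    fun hT γ => hT _ (Or.inr ⟨γ, rfl⟩)
  have hWP : ∀ w ∈ Xset (cdat ν hν) (Ell2 (Λ × Λ)) ∪ Set.range (Ind.lam (cdat ν hν) (RR₂ α)),
      ∀ g, Ind.pi (cdat ν hν) (V := VV α) (adj_VV hα) g * w *
        Ind.pi (cdat ν hν) (V := VV α) (adj_VV hα) g⁻¹ ∈
      Xset (cdat ν hν) (Ell2 (Λ × Λ)) ∪ Set.range (Ind.lam (cdat ν hν) (RR₂ α)) := by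
    rw [wset_eq]
    intro w hw g
    refine conj_mem_Wset (cdat ν hν) (adj_VV hα) ?_ g hw
    rintro _ ⟨s, rfl⟩ v
    exact (comm_VV₂ hα v s).symm
  refine pic_of (adj_VV hα) (bas Λ) (frm₁ hα) (adj_RR₂ hα) comm_RR (norm_dl 1) (adj_RR₁ hα)
    (comm_VV₁ hα) (comm_VV₂ hα) (cont_pi hν (adj_VV hα)) ?_ ?_ ?_
  · intro S hS T hT h1 h3
    exact scalar_of hν hα hΛ hS (hd hT) h1 (hr hT) h3
  · exact H421.Hs.hs_erg₁ hν hα (fun S hS => Or.inl ⟨S, hS, rfl⟩) (fun γ => Or.inr ⟨γ, rfl⟩) hWP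
      (cont_pi hν (adj_VV hα))
      (fun T hT g => TRN_conj (adj_VV hα) (bas Λ) (frm₁ hα) (adj_RR₂ hα) comm_RR
        (comm_VV₁ hα) (comm_VV₂ hα) ((cm_iff _).1 hT) g)
      (fun T hT h0 => TRN_zero (bas Λ) (frm₁ hα) comm_RR ((cm_iff _).1 hT) h0)
  · intro T hT h3 γ
    exact inv_of₁ hν hα (hd hT) (hr hT) h3 γ

/-- **the picture of the second leg** -/
theorem leg₂ [Infinite Λ]
    (hΛ : ∀ s : Λ, s ≠ 1 → Set.Infinite {y : Λ | ∃ h, y = h * s * h⁻¹}) :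
    Pic (Ind.pi (cdat ν hν) (V := VV α) (adj_VV hα)) (Ind.lam (cdat ν hν) (RR₂ α))
      (Xset (cdat ν hν) (Ell2 (Λ × Λ)) ∪ Set.range (Ind.lam (cdat ν hν) (RR₁ α)))
      (Lp.const 2 (cdat ν hν).μ (dl 1)) := by
  have hd : ∀ {T : Lp (Ell2 (Λ × Λ)) 2 (cdat ν hν).μ →L[ℂ] Lp (Ell2 (Λ × Λ)) 2 (cdat ν hν).μ},
      Cm (Xset (cdat ν hν) (Ell2 (Λ × Λ)) ∪ Set.range (Ind.lam (cdat ν hν) (RR₁ α))) T →
      Dcm T := fun hT S hS => hT _ (Or.inl ⟨S, hS, rfl⟩)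
  have hr : ∀ {T : Lp (Ell2 (Λ × Λ)) 2 (cdat ν hν).μ →L[ℂ] Lp (Ell2 (Λ × Λ)) 2 (cdat ν hν).μ},
      Cm (Xset (cdat ν hν) (Ell2 (Λ × Λ)) ∪ Set.range (Ind.lam (cdat ν hν) (RR₁ α))) T →
      ∀ γ, T * Ind.lam (cdat ν hν) (RR₁ α) γ = Ind.lam (cdat ν hν) (RR₁ α) γ * T :=
    fun hT γ => hT _ (Or.inr ⟨γ, rfl⟩)
  have hWP : ∀ w ∈ Xset (cdat ν hν) (Ell2 (Λ × Λ)) ∪ Set.range (Ind.lam (cdat ν hν) (RR₁ α)),
      ∀ g, Ind.pi (cdat ν hν) (V := VV α) (adj_VV hα) g * w *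
        Ind.pi (cdat ν hν) (V := VV α) (adj_VV hα) g⁻¹ ∈
      Xset (cdat ν hν) (Ell2 (Λ × Λ)) ∪ Set.range (Ind.lam (cdat ν hν) (RR₁ α)) := by
    rw [wset_eq]
    intro w hw g
    refine conj_mem_Wset (cdat ν hν) (adj_VV hα) ?_ g hw
    rintro _ ⟨s, rfl⟩ v
    exact (comm_VV₁ hα v s).symm
  have comm' : ∀ g h, RR₂ α g * RR₁ α h = RR₁ α h * RR₂ α g := fun g h => (comm_RR h g).symm
  refine pic_of (adj_VV hα) (bas Λ) (frm₂ hα) (adj_RR₁ hα) comm' (norm_dl 1) (adj_RR₂ hα)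
    (comm_VV₂ hα) (comm_VV₁ hα) (cont_pi hν (adj_VV hα)) ?_ ?_ ?_
  · intro S hS T hT h1 h3
    exact scalar_of hν hα hΛ hS (hd hT) (hr hT) h1 h3
  · exact H421.Hs.hs_erg₂ hν hα (fun S hS => Or.inl ⟨S, hS, rfl⟩) (fun γ => Or.inr ⟨γ, rfl⟩) hWP
      (cont_pi hν (adj_VV hα))
      (fun T hT g => TRN_conj (adj_VV hα) (bas Λ) (frm₂ hα) (adj_RR₁ hα) comm'
        (comm_VV₂ hα) (comm_VV₁ hα) ((cm_iff _).1 hT) g)
      (fun T hT h0 => TRN_zero (bas Λ) (frm₂ hα) comm' ((cm_iff _).1 hT) h0)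
  · intro T hT h3 γ
    exact inv_of₂ hν hα (hd hT) (hr hT) h3 γ

/-- **the picture of both legs** -/
theorem both [Infinite Λ]
    (hΛ : ∀ s : Λ, s ≠ 1 → Set.Infinite {y : Λ | ∃ h, y = h * s * h⁻¹}) :
    Pic2 (Ind.pi (cdat ν hν) (V := VV α) (adj_VV hα)) (Ind.lam (cdat ν hν) (RR₁ α))
      (Ind.lam (cdat ν hν) (RR₂ α)) (Xset (cdat ν hν) (Ell2 (Λ × Λ)))
      (Lp.const 2 (cdat ν hν).μ (dl 1)) where
  leg₁ := leg₁ hν hα hΛ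
  leg₂ := leg₂ hν hα hΛ
  Xcomm := by
    rintro _ ⟨S, hS, rfl⟩ _ ⟨S', hS', rfl⟩
    rw [ind_mul hS hS', ind_mul hS' hS, Set.inter_comm]
  Xadj := by
    rintro _ ⟨S, hS, rfl⟩
    exact ⟨S, hS, adjoint_ind hS⟩
  XP := by
    rintro _ ⟨S, hS, rfl⟩ g
    refine ⟨_, ((cdat ν hν).mp g⁻¹).measurable hS, ?_⟩
    rw [pi_ind (cdat ν hν) (adj_VV hα) g hS, mul_assoc, pi_mul_inv, mul_one]

end main

end Vale.Agent.P092.H34.PicC
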