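import Vale.Agent.P092.H34.PicE
import Vale.Agent.P092.H103.PicT
import Vale.Agent.P092.SD.Main

/-!
P092 (helper34), [D-PIC]: `SD.PicStmt`.
-/

set_option linter.all false

open scoped InnerProductSpace ENNReal
open MeasureTheory Filter Topology ContinuousLinearMap

namespace Vale.Agent.P092.H34.PicC

open Vale.Agent.P092.RC

/-- **[D-PIC]** -/
theorem picStmtR : SD.PicStmt := by
  intro _ _ _ _ Γ _ _ _ _ ν _ hν _ _ Λ _ _ hΛ α hα
  have hij : (0 : Fin 3) ≠ 1 := by decide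
  haveI : NoncompactSpace (SD.G3 ℝ) := sl_noncompact hij
  exact ⟨pic2 hν hα hΛ, H103.tv₁ hν hα, H103.tv₂ hν hα⟩

end Vale.Agent.P092.H34.PicC
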