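import Vale.Agent.P092.H34.PicE
import Vale.Agent.P092.RC.Core

/-!
P092 (helper34), [C-IND]: `RC.PicStmt`.
-/

set_option linter.all false

open scoped InnerProductSpace ENNReal
open MeasureTheory Filter Topology ContinuousLinearMap

namespace Vale.Agent.P092.H34.PicC

open Vale.Agent.P092.RC

/-- **[C-PIC]** -/
theorem picStmt (m : ℕ) (hm : 1 ≤ m) : RC.PicStmt m := by
  intro k _ _ _ _ _ _ _ _ Γ _ _ _ _ ν _ hν _ _ Λ _ _ hΛ α hα
  have hij : (0 : Fin (m + 1)) ≠ Fin.last m := by
    intro h
    have := congrArg Fin.val h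
    simp at this
    omega
  haveI : NoncompactSpace (GG k m) := sl_noncompact hij
  haveI : Infinite Λ := infinite_Λ hν hα hΛ
  exact both hν hα hΛ

end Vale.Agent.P092.H34.PicC
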