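import Vale.Agent.P092.H34.OutG

/-!
P092 (helper34), team A, [GLUE]: the algebra of fields on `G₁ × G₂` generated by products of smooth
fields at the two places.
-/

set_option linter.all false

open scoped InnerProductSpace ENNReal NNReal Topology
open Filter ContinuousLinearMap MeasureTheory

namespace Vale.Agent.P092.H34

open Vale.Agent.P092.H160 (RegRep Cmm)
open Vale.Agent.P092.H156 Vale.Agent.P092.PA Vale.Agent.P092.H34.K

variable {Γ Λ K G₁ G₂ H₁ H₂ : Type} [Group Γ] [Countable Γ] [Group Λ]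
  [NormedAddCommGroup K] [InnerProductSpace ℂ K] [CompleteSpace K]
  [Group G₁] [TopologicalSpace G₁] [IsTopologicalGroup G₁]
  [LocallyCompactSpace G₁] [SecondCountableTopology G₁]
  [MeasurableSpace G₁] [BorelSpace G₁]
  [Group G₂] [TopologicalSpace G₂] [IsTopologicalGroup G₂]
  [LocallyCompactSpace G₂] [SecondCountableTopology G₂]
  [MeasurableSpace G₂] [BorelSpace G₂]
  [Group H₁] [TopologicalSpace H₁] [IsTopologicalGroup H₁]
  [Group H₂] [TopologicalSpace H₂] [IsTopologicalGroup H₂]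

/-- Finite sums of products of smooth fields. -/
inductive Pr (D : Pic Γ Λ K) (p₁ : Γ →* G₁) (p₂ : Γ →* G₂) (q₁ : Λ →* H₁) (q₂ : Λ →* H₂)
    (μ₁ : Measure G₁) (μ₂ : Measure G₂) : (G₁ × G₂ → K →L[ℂ] K) → Prop
  | zero : Pr D p₁ p₂ q₁ q₂ μ₁ μ₂ (fun _ => 0)
  | mk {a : G₁ → K →L[ℂ] K} {b : G₂ → K →L[ℂ] K} : PA.Smo D p₁ q₁ μ₁ a → PA.Smo D p₂ q₂ μ₂ b →
      Pr D p₁ p₂ q₁ q₂ μ₁ μ₂ (fun z => a z.1 * b z.2)
  | add {A B : G₁ × G₂ → K →L[ℂ] K} : Pr D p₁ p₂ q₁ q₂ μ₁ μ₂ A → Pr D p₁ p₂ q₁ q₂ μ₁ μ₂ B →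
      Pr D p₁ p₂ q₁ q₂ μ₁ μ₂ (fun z => A z + B z)

variable {D : Pic Γ Λ K} {p₁ : Γ →* G₁} {p₂ : Γ →* G₂} {q₁ : Λ →* H₁} {q₂ : Λ →* H₂}
  {μ₁ : Measure G₁} {μ₂ : Measure G₂} {A B : G₁ × G₂ → K →L[ℂ] K}

namespace Pr

theorem smul [μ₁.IsMulLeftInvariant] (c : ℂ) (hA : Pr D p₁ p₂ q₁ q₂ μ₁ μ₂ A) :
    Pr D p₁ p₂ q₁ q₂ μ₁ μ₂ (fun z => c • A z) := by
  induction hA with
  | zero => simpa only [smul_zero] using Pr.zero
  | mk ha hb =>
    have h1 := Pr.mk (D := D) (Sm.Smo.smul c ha) hb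
    simpa only [smul_mul_assoc] using h1
  | add _ _ h1 h2 => simpa only [smul_add] using h1.add h2

theorem mul [μ₁.IsMulLeftInvariant] [μ₂.IsMulLeftInvariant] (hC : Com D p₁ p₂ q₁ q₂ μ₁ μ₂)
    (hA : Pr D p₁ p₂ q₁ q₂ μ₁ μ₂ A) (hB : Pr D p₁ p₂ q₁ q₂ μ₁ μ₂ B) :
    Pr D p₁ p₂ q₁ q₂ μ₁ μ₂ (fun z => A z * B z) := by
  induction hA with
  | zero => simpa only [zero_mul] using Pr.zero
  | @mk a b ha hb =>
    induction hB with
    | zero => simpa only [mul_zero] using Pr.zero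
    | @mk c d hc hd =>
      have h1 := Pr.mk (D := D) (Sm.Smo.mul D.frm ha hc) (Sm.Smo.mul D.frm hb hd)
      have e : (fun z : G₁ × G₂ => a z.1 * b z.2 * (c z.1 * d z.2)) =
          fun z => a z.1 * c z.1 * (b z.2 * d z.2) := by
        funext z
        have h2 := hC c b hc hb z.1 z.2
        calc a z.1 * b z.2 * (c z.1 * d z.2) = a z.1 * (b z.2 * c z.1) * d z.2 := by
              simp only [mul_assoc]
          _ = a z.1 * (c z.1 * b z.2) * d z.2 := by rw [h2]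
          _ = _ := by simp only [mul_assoc]
      rw [e]
      exact h1
    | add _ _ h1 h2 => simpa only [mul_add] using h1.add h2
  | add _ _ h1 h2 => simpa only [add_mul] using h1.add h2

theorem star [μ₁.IsMulLeftInvariant] [μ₂.IsMulLeftInvariant] (hC : Com D p₁ p₂ q₁ q₂ μ₁ μ₂)
    (hA : Pr D p₁ p₂ q₁ q₂ μ₁ μ₂ A) : Pr D p₁ p₂ q₁ q₂ μ₁ μ₂ (fun z => star (A z)) := by
  induction hA with
  | zero => simpa only [star_zero] using Pr.zero
  | @mk a b ha hb =>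
    have h1 := Pr.mk (D := D) (Sm.Smo.adj D.frm ha) (Sm.Smo.adj D.frm hb)
    have e : (fun z : G₁ × G₂ => Star.star (a z.1 * b z.2)) =
        fun z => adjoint (a z.1) * adjoint (b z.2) := by
      funext z
      rw [hC a b ha hb z.1 z.2, star_mul]
      rfl
    rw [e]
    exact h1
  | add _ _ h1 h2 => simpa only [star_add] using h1.add h2

theorem conj [μ₁.IsMulLeftInvariant] [μ₂.IsMulLeftInvariant] (v : Λ)
    (hA : Pr D p₁ p₂ q₁ q₂ μ₁ μ₂ A) :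
    Pr D p₁ p₂ q₁ q₂ μ₁ μ₂ (fun z => D.V v * A z * D.V v⁻¹) := by
  induction hA with
  | zero => simpa only [mul_zero, zero_mul] using Pr.zero
  | @mk a b ha hb =>
    have h1 := Pr.mk (D := D) (Sm.Smo.conj D.frm ha v) (Sm.Smo.conj D.frm hb v)
    have e : (fun z : G₁ × G₂ => D.V v * (a z.1 * b z.2) * D.V v⁻¹) =
        fun z => D.V v * a z.1 * D.V v⁻¹ * (D.V v * b z.2 * D.V v⁻¹) := by
      funext z
      calc D.V v * (a z.1 * b z.2) * D.V v⁻¹ = D.V v * a z.1 * 1 * (b z.2 * D.V v⁻¹) := by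
            simp only [mul_assoc, one_mul]
        _ = D.V v * a z.1 * (D.V v⁻¹ * D.V v) * (b z.2 * D.V v⁻¹) := by rw [D.frm.inv_mul]
        _ = _ := by simp only [mul_assoc]
    rw [e]
    exact h1
  | add _ _ h1 h2 => simpa only [mul_add, add_mul] using h1.add h2

theorem rt [μ₁.IsMulLeftInvariant] [μ₂.IsMulLeftInvariant] [μ₁.IsMulRightInvariant]
    [μ₂.IsMulRightInvariant] (w : G₁ × G₂)
    (hA : Pr D p₁ p₂ q₁ q₂ μ₁ μ₂ A) : Pr D p₁ p₂ q₁ q₂ μ₁ μ₂ (fun z => A (z * w)) := by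
  induction hA with
  | zero => exact Pr.zero
  | @mk a b ha hb => exact Pr.mk (D := D) (Sm.Smo.rt ha w.1) (Sm.Smo.rt hb w.2)
  | add _ _ h1 h2 => exact h1.add h2

theorem equiv (hA : Pr D p₁ p₂ q₁ q₂ μ₁ μ₂ A) (γ : Γ) (z : G₁ × G₂) :
    A ((p₁.prod p₂) γ * z) = D.ρ γ * A z * D.ρ γ⁻¹ := by
  induction hA with
  | zero => simp only [mul_zero, zero_mul]
  | @mk a b ha hb => exact Sm.prod_equiv ha.toFd hb.toFd γ z
  | add _ _ h1 h2 => simp only [h1, h2, mul_add, add_mul]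

theorem continuous (hA : Pr D p₁ p₂ q₁ q₂ μ₁ μ₂ A) : Continuous A := by
  induction hA with
  | zero => exact continuous_const
  | @mk a b ha hb =>
    exact (ha.continuous.comp continuous_fst).mul (hb.continuous.comp continuous_snd)
  | add _ _ h1 h2 => exact h1.add h2

theorem memLp [SFinite μ₁] [SFinite μ₂] (hF1 : F1 D p₁ q₁ μ₁) (hF2 : F1 D p₂ q₂ μ₂)
    (hA : Pr D p₁ p₂ q₁ q₂ μ₁ μ₂ A) (u : K) : MemLp (fun z => A z u) 2 (μ₁.prod μ₂) := by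
  induction hA with
  | zero => simp only [zero_apply]; exact MemLp.zero'
  | @mk a b ha hb => exact memLp_ab hF1 hF2 ha hb u
  | add _ _ h1 h2 => exact h1.add h2

/-- Orthogonality of the off-diagonal coefficients to the invariant functions. -/
theorem out [SFinite μ₁] [SFinite μ₂] (hF1 : F1 D p₁ q₁ μ₁) (hF2 : F1 D p₂ q₂ μ₂)
    (hC : Com D p₁ p₂ q₁ q₂ μ₁ μ₂) (hO : Out D p₁ q₁ q₂ μ₁) (hT : TFld D p₁ p₂ q₁ q₂ μ₁ μ₂)
    [μ₁.IsMulLeftInvariant] [IsFiniteMeasureOnCompacts μ₁] [μ₁.IsOpenPosMeasure]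
    {φ : G₁ × G₂ → ℂ} {C : ℝ} (hφc : Continuous φ) (hφb : ∀ g, ‖φ g‖ ≤ C)
    (hφi : ∀ γ (g : G₁ × G₂), φ (p₁ γ * g.1, p₂ γ * g.2) = φ g) {v : Λ} (hv : v ≠ 1)
    (hA : Pr D p₁ p₂ q₁ q₂ μ₁ μ₂ A) (hB : Pr D p₁ p₂ q₁ q₂ μ₁ μ₂ B) :
    ∫ z, φ z * ⟪A z D.Ω, B z (D.V v D.Ω)⟫_ℂ ∂(μ₁.prod μ₂) = 0 := by
  have hi : ∀ {A B : G₁ × G₂ → K →L[ℂ] K}, Pr D p₁ p₂ q₁ q₂ μ₁ μ₂ A → Pr D p₁ p₂ q₁ q₂ μ₁ μ₂ B →
      Integrable (fun z => φ z * ⟪A z D.Ω, B z (D.V v D.Ω)⟫_ℂ) (μ₁.prod μ₂) := fun hA hB =>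
    (Sm.integrable_inner_of_memLp (hA.memLp hF1 hF2 _) (hB.memLp hF1 hF2 _)).bdd_mul
      hφc.aestronglyMeasurable (Eventually.of_forall hφb)
  induction hA with
  | zero => simp only [zero_apply, inner_zero_left, mul_zero, integral_zero]
  | @mk a b ha hb =>
    have hab := Pr.mk (D := D) ha hb
    induction hB with
    | zero => simp only [zero_apply, inner_zero_right, mul_zero, integral_zero]
    | @mk c d hc hd => exact outG hF1 hF2 hC hO hT hφc hφb hφi ha hc hb hd hv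
    | add hA' hB' h1 h2 =>
      simp only [add_apply, inner_add_right, mul_add]
      rw [integral_add (hi hab hA') (hi hab hB'), h1, h2, add_zero]
  | add hA' hB' h1 h2 =>
    simp only [add_apply, inner_add_left, mul_add]
    rw [integral_add (hi hA' hB) (hi hB' hB), h1, h2, add_zero]

end Pr

end Vale.Agent.P092.H34
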