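import Vale.Agent.P092.H34.HSK

/-!
P092 (helper34), team A: smearing of fields of operators over a locally compact group.
-/

set_option linter.all false

open scoped InnerProductSpace ENNReal NNReal Topology Pointwise
open Filter ContinuousLinearMap MeasureTheory

namespace Vale.Agent.P092.H34.K

open Vale.Agent.P092.H160 (RegRep Cmm)
open Vale.Agent.P092.H156

section general

variable {G : Type} [Group G] [TopologicalSpace G] [IsTopologicalGroup G] [LocallyCompactSpace G]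
  [MeasurableSpace G] [BorelSpace G]

theorem hcs_left {k : G → ℂ} (hkc : HasCompactSupport k) (x : G) :
    HasCompactSupport fun t => k (x⁻¹ * t) :=
  hkc.comp_homeomorph (Homeomorph.mulLeft x⁻¹)

/-- Translates of a continuous function with compact support depend uniformly continuously on the
parameter, with common compact support. -/
theorem exists_unif {k : G → ℂ} (hk : Continuous k) (hkc : HasCompactSupport k) (x0 : G) :
    ∃ C : Set G, IsCompact C ∧ ∀ ε > 0, ∀ᶠ x in 𝓝 x0,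
      (∀ t, ‖k (x⁻¹ * t) - k (x0⁻¹ * t)‖ ≤ ε) ∧
      (∀ t, t ∉ C → k (x⁻¹ * t) = 0 ∧ k (x0⁻¹ * t) = 0) := by
  obtain ⟨N, hN, hN0⟩ := exists_compact_mem_nhds x0
  refine ⟨N * tsupport k, hN.mul hkc, fun ε hε => ?_⟩
  have hout : ∀ x ∈ N, ∀ t, t ∉ N * tsupport k → k (x⁻¹ * t) = 0 := by
    intro x hx t ht
    by_contra hne
    refine ht ⟨x, hx, x⁻¹ * t, subset_tsupport _ hne, ?_⟩
    simp
  have h1 : ∀ᶠ x in 𝓝 x0, ∀ t ∈ N * tsupport k, ‖k (x⁻¹ * t) - k (x0⁻¹ * t)‖ ≤ ε := by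
    refine (hN.mul hkc).eventually_forall_of_forall_eventually fun t _ => ?_
    have hc : Continuous fun z : G × G => ‖k (z.1⁻¹ * z.2) - k (x0⁻¹ * z.2)‖ := by fun_prop
    have h2 : Tendsto (fun z : G × G => ‖k (z.1⁻¹ * z.2) - k (x0⁻¹ * z.2)‖) (𝓝 (x0, t)) (𝓝 0) := by
      have h3 := hc.tendsto (x0, t)
      simpa using h3
    filter_upwards [h2 (Iic_mem_nhds hε)] with z hz
    exact hz
  filter_upwards [h1, hN0] with x hx hxN
  refine ⟨fun t => ?_, fun t ht => ⟨hout x hxN t ht, hout x0 (mem_of_mem_nhds hN0) t ht⟩⟩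
  by_cases ht : t ∈ N * tsupport k
  · exact hx t ht
  · rw [hout x hxN t ht, hout x0 (mem_of_mem_nhds hN0) t ht, sub_self, norm_zero]
    exact hε.le

variable {μ : Measure G} {E : Type} [NormedAddCommGroup E] [NormedSpace ℂ E] [CompleteSpace E]

/-- The smeared field. -/
noncomputable def smr (μ : Measure G) (k : G → ℂ) (B : G → E) (x : G) : E :=
  ∫ t, k (x⁻¹ * t) • B t ∂μ

theorem integrable_smr [IsFiniteMeasureOnCompacts μ] {k : G → ℂ} (hk : Continuous k)
    (hkc : HasCompactSupport k) {B : G → E} (hB : Continuous B) (x : G) :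
    Integrable (fun t => k (x⁻¹ * t) • B t) μ := by
  have h1 : Continuous fun t => k (x⁻¹ * t) := by fun_prop
  exact (h1.smul hB).integrable_of_hasCompactSupport (hcs_left hkc x).smul_right

/-- `L¹`-continuity of translations. -/
theorem eventually_L1 [IsFiniteMeasureOnCompacts μ] {k : G → ℂ} (hk : Continuous k)
    (hkc : HasCompactSupport k) {ε : ℝ} (hε : 0 < ε) :
    ∀ᶠ y in 𝓝 (1 : G), ∫ t, ‖k (y⁻¹ * t) - k t‖ ∂μ ≤ ε := by
  obtain ⟨C, hC, h⟩ := exists_unif hk hkc 1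
  have hμ : μ C ≠ ⊤ := hC.measure_ne_top
  filter_upwards [h (ε / (μ.real C + 1)) (by positivity)] with y hy
  have hz : ∀ t, t ∉ C → ‖k (y⁻¹ * t) - k t‖ = 0 := by
    intro t ht
    have := hy.2 t ht
    rw [inv_one, one_mul] at this
    rw [this.1, this.2, sub_self, norm_zero]
  rw [← setIntegral_eq_integral_of_forall_compl_eq_zero (s := C) hz]
  have h2 : ∀ t ∈ C, ‖‖k (y⁻¹ * t) - k t‖‖ ≤ ε / (μ.real C + 1) := by
    intro t _
    have := hy.1 t
    rw [inv_one, one_mul] at this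
    rwa [norm_norm]
  have h3 := norm_setIntegral_le_of_norm_le_const (lt_top_iff_ne_top.mpr hμ) h2
  refine (Real.le_norm_self _).trans (h3.trans ?_)
  rw [div_mul_eq_mul_div, div_le_iff₀ (by positivity)]
  nlinarith [measureReal_nonneg (μ := μ) (s := C)]

theorem smr_mul_left [μ.IsMulLeftInvariant] (k : G → ℂ) (B : G → E) (z x : G) :
    smr μ k B (z * x) = ∫ t, k (x⁻¹ * t) • B (z * t) ∂μ := by
  unfold smr
  rw [← integral_mul_left_eq_self (fun t => k ((z * x)⁻¹ * t) • B t) z]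
  congr 1
  funext t
  congr 2
  group

theorem smr_eq [μ.IsMulLeftInvariant] (k : G → ℂ) (B : G → E) (x : G) :
    smr μ k B x = ∫ t, k t • B (x * t) ∂μ := by
  have h := smr_mul_left (μ := μ) k B x 1
  simpa using h

theorem norm_smr_sub_le [μ.IsMulLeftInvariant] [IsFiniteMeasureOnCompacts μ] {k : G → ℂ}
    (hk : Continuous k) (hkc : HasCompactSupport k) {B : G → E} (hB : Continuous B) {C : ℝ}
    (hC : ∀ x, ‖B x‖ ≤ C) (x y : G) :
    ‖smr μ k B (x * y) - smr μ k B x‖ ≤ C * ∫ t, ‖k (y⁻¹ * t) - k t‖ ∂μ := by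
  rw [smr_mul_left, smr_eq]
  have hBx : Continuous fun t => B (x * t) := by fun_prop
  have i1 : Integrable (fun t => k (y⁻¹ * t) • B (x * t)) μ := integrable_smr hk hkc hBx y
  have i2 : Integrable (fun t => k t • B (x * t)) μ := by
    have := integrable_smr (μ := μ) hk hkc hBx 1
    simpa using this
  rw [← integral_sub i1 i2, ← integral_const_mul]
  have hk' : Continuous fun t => k (y⁻¹ * t) - k t := by fun_prop
  have hkc' : HasCompactSupport fun t => k (y⁻¹ * t) - k t := (hcs_left hkc y).sub hkc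
  refine norm_integral_le_of_norm_le
    ((hk'.integrable_of_hasCompactSupport hkc').norm.const_mul C) (Eventually.of_forall fun t => ?_)
  rw [← sub_smul, norm_smul, mul_comm]
  exact mul_le_mul_of_nonneg_right (hC _) (norm_nonneg _)

/-- The smeared field is right uniformly continuous. -/
theorem smr_rcont [μ.IsMulLeftInvariant] [IsFiniteMeasureOnCompacts μ] {k : G → ℂ}
    (hk : Continuous k) (hkc : HasCompactSupport k) {B : G → E} (hB : Continuous B) {C : ℝ}
    (hC : ∀ x, ‖B x‖ ≤ C) {ε : ℝ} (hε : 0 < ε) :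
    ∃ U ∈ 𝓝 (1 : G), ∀ y ∈ U, ∀ x, ‖smr μ k B (x * y) - smr μ k B x‖ ≤ ε := by
  have hC0 : 0 ≤ C := (norm_nonneg _).trans (hC 1)
  refine ⟨_, eventually_L1 (μ := μ) hk hkc (ε := ε / (C + 1)) (by positivity), fun y hy x => ?_⟩
  refine (norm_smr_sub_le hk hkc hB hC x y).trans ?_
  have h1 : C * ∫ t, ‖k (y⁻¹ * t) - k t‖ ∂μ ≤ C * (ε / (C + 1)) :=
    mul_le_mul_of_nonneg_left hy hC0
  refine h1.trans ?_
  rw [mul_div_assoc', div_le_iff₀ (by positivity)]
  nlinarith

theorem norm_smr_le [μ.IsMulLeftInvariant] [IsFiniteMeasureOnCompacts μ] {k : G → ℂ}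
    (hk : Continuous k) (hkc : HasCompactSupport k) {B : G → E} {C : ℝ}
    (hC : ∀ x, ‖B x‖ ≤ C) (x : G) : ‖smr μ k B x‖ ≤ C * ∫ t, ‖k t‖ ∂μ := by
  rw [smr_eq, ← integral_const_mul]
  refine norm_integral_le_of_norm_le
    ((hk.integrable_of_hasCompactSupport hkc).norm.const_mul C) (Eventually.of_forall fun t => ?_)
  rw [norm_smul, mul_comm]
  exact mul_le_mul_of_nonneg_right (hC _) (norm_nonneg _)

/-- Smearing by a function concentrated near `1` changes the field a little. -/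
theorem norm_smr_sub_le' [μ.IsMulLeftInvariant] [IsFiniteMeasureOnCompacts μ] {k : G → ℂ}
    (hk : Continuous k) (hkc : HasCompactSupport k) {B : G → E} (hB : Continuous B) {ε : ℝ} (x : G)
    (hε : ∀ t, k t ≠ 0 → ‖B (x * t) - B x‖ ≤ ε) :
    ‖smr μ k B x - (∫ t, k t ∂μ) • B x‖ ≤ ε * ∫ t, ‖k t‖ ∂μ := by
  have hki := hk.integrable_of_hasCompactSupport (μ := μ) hkc
  rw [smr_eq, ← integral_smul_const]
  have hBx : Continuous fun t => B (x * t) := by fun_prop
  have i2 : Integrable (fun t => k t • B (x * t)) μ := by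
    have := integrable_smr (μ := μ) hk hkc hBx 1
    simpa using this
  rw [← integral_sub i2 (hki.smul_const _), ← integral_const_mul]
  refine norm_integral_le_of_norm_le (hki.norm.const_mul ε) (Eventually.of_forall fun t => ?_)
  rw [← smul_sub, norm_smul, mul_comm]
  by_cases h : k t = 0
  · rw [h, norm_zero, mul_zero, mul_zero]
  · exact mul_le_mul_of_nonneg_right (hε t h) (norm_nonneg _)

/-- Bump functions. -/
theorem exists_bump [IsFiniteMeasureOnCompacts μ] [μ.IsOpenPosMeasure] {U : Set G}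
    (hU : U ∈ 𝓝 (1 : G)) :
    ∃ k : G → ℂ, Continuous k ∧ HasCompactSupport k ∧ (∀ t, k t ≠ 0 → t ∈ U) ∧
      0 < ∫ t, ‖k t‖ ∂μ ∧ ∫ t, k t ∂μ = ((∫ t, ‖k t‖ ∂μ : ℝ) : ℂ) := by
  obtain ⟨f, h1, h2, h3, h4⟩ := exists_continuousMap_one_of_isCompact_subset_isOpen
    (isCompact_singleton (x := (1 : G))) isOpen_interior
    (Set.singleton_subset_iff.mpr (mem_interior_iff_mem_nhds.mpr hU))
  have hf0 : ∀ t, 0 ≤ f t := fun t => (h4 t).1
  have hn : ∀ t, ‖((f t : ℝ) : ℂ)‖ = f t := fun t => by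
    rw [Complex.norm_real, Real.norm_of_nonneg (hf0 t)]
  have hcs : HasCompactSupport fun t => ((f t : ℝ) : ℂ) := by
    have : HasCompactSupport f := h2
    exact this.comp_left Complex.ofReal_zero
  have hpos : 0 < ∫ t, f t ∂μ :=
    f.continuous.integral_pos_of_hasCompactSupport_nonneg_nonzero h2 hf0
      (x := 1) (by rw [h1 (Set.mem_singleton _)]; exact one_ne_zero)
  refine ⟨fun t => ((f t : ℝ) : ℂ), Complex.continuous_ofReal.comp f.continuous, hcs,
    fun t ht => ?_, ?_, ?_⟩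
  · have h5 : f t ≠ 0 := fun h => ht (by simp [h])
    exact interior_subset (h3 (subset_tsupport _ h5))
  · simpa only [hn] using hpos
  · simp only [hn]
    exact integral_complex_ofReal

end general

/-! ### Hilbert-Schmidt continuity of smeared fields -/

section hs

variable {G : Type} [Group G] [TopologicalSpace G] [IsTopologicalGroup G] [LocallyCompactSpace G]
  [MeasurableSpace G] [BorelSpace G] {μ : Measure G}
variable {Γ K : Type} [Group Γ] [Countable Γ] [NormedAddCommGroup K] [InnerProductSpace ℂ K]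
  [CompleteSpace K] {ρ : Γ →* (K →L[ℂ] K)} {ω : K} {p : Γ →* G} {B : G → K →L[ℂ] K}

theorem norm_equiv (h : RegRep ρ ω) (he : ∀ γ x, B (p γ * x) = ρ γ * B x * ρ γ⁻¹) (γ : Γ) (t : G) :
    ‖B t (ρ γ ω)‖ₑ = ‖B (p γ⁻¹ * t) ω‖ₑ := by
  rw [he, inv_inv]
  have e : (ρ γ⁻¹ * B t * ρ γ) ω = ρ γ⁻¹ (B t (ρ γ ω)) := rfl
  rw [e, ← ofReal_norm_eq_enorm, ← ofReal_norm_eq_enorm, h.norm_map]

/-- Bounded multiplicity of a compact set along a discrete orbit. -/
theorem tsum_indicator_le (hfin : ∀ C : Set G, IsCompact C → {γ | p γ ∈ C}.Finite) {C : Set G}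
    (hC : IsCompact C) : ∃ M : ℕ, ∀ t : G, ∑' γ, C.indicator (1 : G → ℝ≥0∞) (p γ * t) ≤ M := by
  classical
  have hC2 : IsCompact (C * C⁻¹) := hC.mul hC.inv
  set F := (hfin _ hC2).toFinset with hF
  refine ⟨F.card, fun t => ?_⟩
  by_cases hex : ∃ γ0, p γ0 * t ∈ C
  · obtain ⟨γ0, h0⟩ := hex
    have h1 : ∀ γ, C.indicator (1 : G → ℝ≥0∞) (p γ * t) ≤
        (F : Set Γ).indicator (1 : Γ → ℝ≥0∞) (γ * γ0⁻¹) := by
      intro γ
      by_cases hγ : p γ * t ∈ C
      · have h2 : γ * γ0⁻¹ ∈ (F : Set Γ) := by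
          rw [hF, Set.Finite.coe_toFinset, Set.mem_setOf_eq]
          refine ⟨p γ * t, hγ, (p γ0 * t)⁻¹, Set.inv_mem_inv.mpr h0, ?_⟩
          simp only [map_mul, map_inv]
          group
        rw [Set.indicator_of_mem h2, Set.indicator_of_mem hγ]
        rfl
      · rw [Set.indicator_of_notMem hγ]
        exact bot_le
    refine (ENNReal.tsum_le_tsum h1).trans ?_
    have e1 := (Equiv.mulRight γ0⁻¹).tsum_eq (fun γ => (F : Set Γ).indicator (1 : Γ → ℝ≥0∞) γ)
    simp only [Equiv.coe_mulRight] at e1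
    rw [e1]
    rw [tsum_eq_sum (s := F) (fun γ hγ => Set.indicator_of_notMem (by simpa using hγ) _)]
    rw [Finset.sum_congr rfl (fun γ hγ => Set.indicator_of_mem (by simpa using hγ) _)]
    simp
  · push Not at hex
    have : ∀ γ, C.indicator (1 : G → ℝ≥0∞) (p γ * t) = 0 := fun γ =>
      Set.indicator_of_notMem (hex γ) _
    simp [this]

theorem sum_set_lt_top [μ.IsMulLeftInvariant] (h : RegRep ρ ω) (hB : Continuous B)
    (he : ∀ γ x, B (p γ * x) = ρ γ * B x * ρ γ⁻¹)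
    (hfin : ∀ C : Set G, IsCompact C → {γ | p γ ∈ C}.Finite)
    (h2 : ∫⁻ t, ‖B t ω‖ₑ ^ 2 ∂μ ≠ ⊤) {C : Set G} (hC : IsCompact C) (hCm : MeasurableSet C) :
    ∑' γ, ∫⁻ t in C, ‖B t (ρ γ ω)‖ₑ ^ 2 ∂μ ≠ ⊤ := by
  obtain ⟨M, hM⟩ := tsum_indicator_le hfin hC
  have hm : Measurable fun t => ‖B t ω‖ₑ ^ 2 :=
    ((hB.clm_apply continuous_const).enorm.measurable).pow_const 2
  have h3 : ∀ γ, ∫⁻ t in C, ‖B t (ρ γ ω)‖ₑ ^ 2 ∂μ =
      ∫⁻ t, C.indicator (1 : G → ℝ≥0∞) (p γ * t) * ‖B t ω‖ₑ ^ 2 ∂μ := by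
    intro γ
    rw [← lintegral_indicator hCm,
      ← lintegral_mul_left_eq_self (μ := μ)
        (fun t => C.indicator (fun t => ‖B t (ρ γ ω)‖ₑ ^ 2) t) (p γ)]
    refine lintegral_congr fun t => ?_
    by_cases ht : p γ * t ∈ C
    · rw [Set.indicator_of_mem ht, Set.indicator_of_mem ht, norm_equiv h he]
      simp
    · rw [Set.indicator_of_notMem ht, Set.indicator_of_notMem ht, zero_mul]
  simp_rw [h3]
  rw [← lintegral_tsum]
  · have h4 : ∀ t, ∑' γ, C.indicator (1 : G → ℝ≥0∞) (p γ * t) * ‖B t ω‖ₑ ^ 2 ≤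
        (M : ℝ≥0∞) * ‖B t ω‖ₑ ^ 2 := by
      intro t
      rw [ENNReal.tsum_mul_right]
      exact mul_le_mul_left (hM t) _
    refine ne_top_of_le_ne_top ?_ (lintegral_mono h4)
    rw [lintegral_const_mul _ hm]
    finiteness
  · intro γ
    have h5 : Measurable fun t => C.indicator (1 : G → ℝ≥0∞) (p γ * t) :=
      (measurable_one.indicator hCm).comp (measurable_const_mul (p γ))
    exact (h5.mul hm).aemeasurable

/-- Cauchy-Schwarz on a set of finite measure. -/
theorem sq_lintegral_le {f : G → ℝ≥0∞} (hf : Measurable f) (C : Set G) :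
    (∫⁻ t in C, f t ∂μ) ^ 2 ≤ μ C * ∫⁻ t in C, f t ^ 2 ∂μ := by
  have h1 := ENNReal.lintegral_mul_le_Lp_mul_Lq (μ.restrict C) (p := 2) (q := 2)
    (by constructor <;> norm_num) (f := fun _ => 1) (g := f) aemeasurable_const hf.aemeasurable
  simp only [Pi.mul_apply, one_mul, ENNReal.one_rpow, lintegral_const, Measure.restrict_apply_univ]
    at h1
  have h2 := pow_le_pow_left' h1 2
  refine h2.trans_eq ?_
  rw [mul_pow, ← ENNReal.rpow_natCast, ← ENNReal.rpow_natCast, ← ENNReal.rpow_mul,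
    ← ENNReal.rpow_mul]
  norm_num

theorem hse_integral_le (h : RegRep ρ ω) (hB : Continuous B) {C : Set G} (hCm : MeasurableSet C)
    {κ : G → ℂ} {ε : ℝ} (hε : ∀ t, ‖κ t‖ ≤ ε) (hκ : ∀ t, t ∉ C → κ t = 0)
    (hi : Integrable (fun t => κ t • B t) μ) :
    hse h.basis (∫ t, κ t • B t ∂μ) ≤
      ENNReal.ofReal ε ^ 2 * μ C * ∑' γ, ∫⁻ t in C, ‖B t (ρ γ ω)‖ₑ ^ 2 ∂μ := by
  unfold hse
  rw [← ENNReal.tsum_mul_left]
  refine ENNReal.tsum_le_tsum fun γ => ?_
  rw [h.basis_apply, ContinuousLinearMap.integral_apply hi]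
  have h1 : ‖∫ t, (κ t • B t) (ρ γ ω) ∂μ‖ₑ ≤ ENNReal.ofReal ε * ∫⁻ t in C, ‖B t (ρ γ ω)‖ₑ ∂μ := by
    refine (enorm_integral_le_lintegral_enorm _).trans ?_
    rw [← lintegral_const_mul _ ((hB.clm_apply continuous_const).enorm.measurable),
      ← lintegral_indicator hCm]
    refine lintegral_mono fun t => ?_
    by_cases ht : t ∈ C
    · rw [Set.indicator_of_mem ht, smul_apply, enorm_smul]
      gcongr
      rw [← ofReal_norm_eq_enorm]
      exact ENNReal.ofReal_le_ofReal (hε t)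
    · rw [Set.indicator_of_notMem ht, hκ t ht, zero_smul, zero_apply, enorm_zero]
  refine (pow_le_pow_left' h1 2).trans ?_
  rw [mul_pow, mul_assoc]
  gcongr
  exact sq_lintegral_le (hB.clm_apply continuous_const).enorm.measurable C

/-- Smeared fields are HS-continuous. -/
theorem smr_hsc [T2Space G] [μ.IsMulLeftInvariant] [IsFiniteMeasureOnCompacts μ] (h : RegRep ρ ω)
    (hB : Continuous B) (he : ∀ γ x, B (p γ * x) = ρ γ * B x * ρ γ⁻¹)
    (hfin : ∀ C : Set G, IsCompact C → {γ | p γ ∈ C}.Finite)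
    (h2 : ∫⁻ t, ‖B t ω‖ₑ ^ 2 ∂μ ≠ ⊤) {k : G → ℂ} (hk : Continuous k) (hkc : HasCompactSupport k) :
    HSC h.basis (smr μ k B) where
  hs x := by
    have hC := hcs_left hkc x
    obtain ⟨D, hD⟩ := hk.bounded_above_of_compact_support hkc
    have h3 := hse_integral_le (μ := μ) h hB (C := tsupport fun t => k (x⁻¹ * t))
      hC.isCompact.measurableSet (κ := fun t => k (x⁻¹ * t)) (fun t => hD _)
      (fun t ht => image_eq_zero_of_notMem_tsupport (f := fun t => k (x⁻¹ * t)) ht)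
      (integrable_smr hk hkc hB x)
    refine ne_top_of_le_ne_top ?_ h3
    have h4 := sum_set_lt_top (μ := μ) h hB he hfin h2 hC.isCompact hC.isCompact.measurableSet
    have h5 : μ (tsupport fun t => k (x⁻¹ * t)) ≠ ⊤ := hC.isCompact.measure_ne_top
    finiteness
  cont x := by
    obtain ⟨C, hC, hu⟩ := exists_unif hk hkc x
    have h4 := sum_set_lt_top (μ := μ) h hB he hfin h2 hC hC.measurableSet
    have h5 : μ C ≠ ⊤ := hC.measure_ne_top
    set D := μ C * ∑' γ, ∫⁻ t in C, ‖B t (ρ γ ω)‖ₑ ^ 2 ∂μ with hD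
    have hDt : D ≠ ⊤ := by finiteness
    rw [ENNReal.tendsto_nhds_zero]
    intro ε hε
    have h6 : Tendsto (fun δ : ℝ => ENNReal.ofReal δ ^ 2 * D) (𝓝 0) (𝓝 (0 ^ 2 * D)) := by
      refine ENNReal.Tendsto.mul_const ?_ (Or.inr hDt)
      have h7 : Continuous fun δ : ℝ => ENNReal.ofReal δ ^ 2 :=
        (ENNReal.continuous_pow 2).comp ENNReal.continuous_ofReal
      have h8 := h7.tendsto 0
      simpa using h8
    rw [zero_pow two_ne_zero, zero_mul] at h6
    have h9 : ∀ᶠ δ : ℝ in 𝓝[>] 0, ENNReal.ofReal δ ^ 2 * D ≤ ε :=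
      (h6.mono_left nhdsWithin_le_nhds) (Iic_mem_nhds hε)
    obtain ⟨δ, hδ, hδ0⟩ := (h9.and self_mem_nhdsWithin).exists
    filter_upwards [hu δ hδ0] with y hy
    have i1 := integrable_smr (μ := μ) hk hkc hB y
    have i2 := integrable_smr (μ := μ) hk hkc hB x
    have e : smr μ k B y - smr μ k B x = ∫ t, (k (y⁻¹ * t) - k (x⁻¹ * t)) • B t ∂μ := by
      unfold smr
      rw [← integral_sub i1 i2]
      congr 1
      funext t
      rw [sub_smul]
    have i3 : Integrable (fun t => (k (y⁻¹ * t) - k (x⁻¹ * t)) • B t) μ := by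
      refine (i1.sub i2).congr (Eventually.of_forall fun t => ?_)
      simp only [Pi.sub_apply, sub_smul]
    rw [e]
    refine (hse_integral_le (μ := μ) h hB hC.measurableSet (ε := δ) (fun t => hy.1 t)
      (fun t ht => ?_) i3).trans ?_
    · rw [(hy.2 t ht).1, (hy.2 t ht).2, sub_self]
    · rw [mul_assoc]
      exact hδ

end hs

end Vale.Agent.P092.H34.K
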