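import Vale.Agent.P092.H34.Smear

/-!
P092 (helper34), team A: smeared smooth fields are smooth; smearing on a product group.
-/

set_option linter.all false

open scoped InnerProductSpace ENNReal NNReal Topology Pointwise
open Filter ContinuousLinearMap MeasureTheory

namespace Vale.Agent.P092.H34.K

open Vale.Agent.P092.H160 (RegRep Cmm)
open Vale.Agent.P092.H156.Sm

section smo

variable {G : Type} [Group G] [TopologicalSpace G] [IsTopologicalGroup G] [LocallyCompactSpace G]
  [MeasurableSpace G] [BorelSpace G] [SecondCountableTopology G] {μ : Measure G}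
variable {Γ Λ H K : Type} [Group Γ] [Group Λ] [Group H] [TopologicalSpace H]
  [IsTopologicalGroup H]
  [NormedAddCommGroup K] [InnerProductSpace ℂ K]
  [CompleteSpace K] {ρ : Γ →* (K →L[ℂ] K)} {V : Λ →* (K →L[ℂ] K)} {ω : K} {ι : Γ →* G}
  {κ : Λ →* H} {a : G → K →L[ℂ] K} {k : G → ℂ}

theorem mul_integral_mul (L R : K →L[ℂ] K) {f : G → K →L[ℂ] K} (hf : Integrable f μ) :
    ∫ t, L * f t * R ∂μ = L * (∫ t, f t ∂μ) * R :=
  (ContinuousLinearMap.mulLeftRight ℂ (K →L[ℂ] K) L R).integral_comp_comm hf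

theorem fd_smr [μ.IsMulLeftInvariant] [IsFiniteMeasureOnCompacts μ] (ha : Fd ι ρ a)
    (hk : Continuous k) (hkc : HasCompactSupport k) : Fd ι ρ (smr μ k a) where
  equiv γ x := by
    rw [smr_mul_left, smr, ← mul_integral_mul _ _ (integrable_smr hk hkc ha.continuous x)]
    congr 1
    funext t
    rw [ha.equiv, mul_smul_comm, smul_mul_assoc]
  bdd := by
    obtain ⟨C, hC⟩ := ha.bdd
    exact ⟨_, fun x => norm_smr_le hk hkc hC x⟩
  rcont ε hε := by
    obtain ⟨C, hC⟩ := ha.bdd
    exact smr_rcont hk hkc ha.continuous hC hε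

theorem acont_smr [μ.IsMulLeftInvariant] [IsFiniteMeasureOnCompacts μ] (hc : Continuous a)
    (ha : ACont κ V a) (hk : Continuous k) (hkc : HasCompactSupport k) :
    ACont κ V (smr μ k a) := fun ε hε => by
  set D := ∫ t, ‖k t‖ ∂μ with hD
  have hD0 : 0 ≤ D := integral_nonneg fun _ => norm_nonneg _
  obtain ⟨U, hU, h1⟩ := ha (ε / (D + 1)) (by positivity)
  refine ⟨U, hU, fun v hv x => ?_⟩
  have i1 := integrable_smr (μ := μ) hk hkc hc x
  have i2 : Integrable (fun t => V v * (k (x⁻¹ * t) • a t) * V v⁻¹) μ :=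
    (ContinuousLinearMap.mulLeftRight ℂ (K →L[ℂ] K) (V v) (V v⁻¹)).integrable_comp i1
  rw [smr, ← mul_integral_mul _ _ i1, ← integral_sub i2 i1]
  have h2 : Integrable (fun t => ‖k (x⁻¹ * t)‖) μ :=
    ((hk.comp (continuous_const_mul _)).integrable_of_hasCompactSupport (hcs_left hkc x)).norm
  refine (norm_integral_le_of_norm_le (h2.const_mul (ε / (D + 1)))
    (Eventually.of_forall fun t => ?_)).trans ?_
  · rw [mul_smul_comm, smul_mul_assoc, ← smul_sub, norm_smul, mul_comm]
    exact mul_le_mul_of_nonneg_right (h1 v hv t) (norm_nonneg _)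
  · rw [integral_const_mul, integral_mul_left_eq_self (fun t => ‖k t‖) x⁻¹, ← hD,
      div_mul_eq_mul_div, div_le_iff₀ (by positivity)]
    nlinarith

theorem nsq_smr_ne_top [μ.IsMulLeftInvariant] [μ.IsMulRightInvariant] [IsFiniteMeasureOnCompacts μ]
    [SFinite μ] [T2Space G] (hc : Continuous a) (h2 : nsq ω μ a < ⊤)
    (hk : Continuous k) (hkc : HasCompactSupport k) : nsq ω μ (smr μ k a) < ⊤ := by
  obtain ⟨D, hD⟩ := hk.bounded_above_of_compact_support hkc
  set C := tsupport k with hC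
  have hCm : MeasurableSet C := hkc.isCompact.measurableSet
  have hμC : μ C ≠ ⊤ := hkc.isCompact.measure_ne_top
  have h1 : ∀ x, ‖smr μ k a x ω‖ₑ ^ 2 ≤
      ENNReal.ofReal D ^ 2 * (μ C * ∫⁻ s in C, ‖a (x * s) ω‖ₑ ^ 2 ∂μ) := by
    intro x
    have hcx : Continuous fun t => a (x * t) := by fun_prop
    have i2 : Integrable (fun t => k t • a (x * t)) μ := by
      have := integrable_smr (μ := μ) hk hkc hcx 1
      simpa using this
    have hm : Measurable fun s => ‖a (x * s) ω‖ₑ :=
      (hcx.clm_apply continuous_const).enorm.measurable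
    rw [smr_eq, ContinuousLinearMap.integral_apply i2]
    have h3 : ‖∫ t, (k t • a (x * t)) ω ∂μ‖ₑ ≤
        ENNReal.ofReal D * ∫⁻ t in C, ‖a (x * t) ω‖ₑ ∂μ := by
      refine (enorm_integral_le_lintegral_enorm _).trans ?_
      rw [← lintegral_const_mul _ hm, ← lintegral_indicator hCm]
      refine lintegral_mono fun t => ?_
      by_cases ht : t ∈ C
      · rw [Set.indicator_of_mem ht, smul_apply, enorm_smul]
        gcongr
        rw [← ofReal_norm_eq_enorm]
        exact ENNReal.ofReal_le_ofReal (hD t)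
      · rw [Set.indicator_of_notMem ht, image_eq_zero_of_notMem_tsupport ht, zero_smul,
          zero_apply, enorm_zero]
    refine (pow_le_pow_left' h3 2).trans ?_
    rw [mul_pow]
    gcongr
    exact sq_lintegral_le hm C
  have hm2 : Measurable (Function.uncurry fun (x s : G) => ‖a (x * s) ω‖ₑ ^ 2) := by
    have h4 : Continuous fun z : G × G => a (z.1 * z.2) ω :=
      (hc.comp continuous_mul).clm_apply continuous_const
    exact (h4.enorm.measurable).pow_const 2
  refine (lintegral_mono h1).trans_lt ?_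
  have hm3 : Measurable fun x => ∫⁻ s in C, ‖a (x * s) ω‖ₑ ^ 2 ∂μ := hm2.lintegral_prod_right
  rw [lintegral_const_mul _ (hm3.const_mul _), lintegral_const_mul _ hm3,
    lintegral_lintegral_swap hm2.aemeasurable]
  have h5 : ∀ s, ∫⁻ x, ‖a (x * s) ω‖ₑ ^ 2 ∂μ = nsq ω μ a := fun s =>
    lintegral_mul_right_eq_self (μ := μ) (fun x => ‖a x ω‖ₑ ^ 2) s
  simp_rw [h5]
  rw [lintegral_const, Measure.restrict_apply_univ]
  finiteness

/-- Smeared smooth fields are smooth. -/
theorem smo_smr [μ.IsMulLeftInvariant] [μ.IsMulRightInvariant] [IsFiniteMeasureOnCompacts μ]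
    [SFinite μ] [T2Space G] (ha : Smo ι κ ρ V ω μ a)
    (hk : Continuous k) (hkc : HasCompactSupport k) : Smo ι κ ρ V ω μ (smr μ k a) where
  toFd := fd_smr ha.toFd hk hkc
  acont := acont_smr ha.toFd.continuous ha.acont hk hkc
  l2 := l2_of_nsq (fd_smr ha.toFd hk hkc).continuous
    (nsq_smr_ne_top ha.toFd.continuous (nsq_lt_top ha.l2) hk hkc)

/-- Smearing by a bump function does not kill the value at a given point. -/
theorem exists_smr_ne [μ.IsMulLeftInvariant] [IsFiniteMeasureOnCompacts μ] [μ.IsOpenPosMeasure]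
    {B : G → K →L[ℂ] K} (hB : Continuous B) {x : G} (hx : B x ≠ 0) :
    ∃ k : G → ℂ, Continuous k ∧ HasCompactSupport k ∧ smr μ k B x ≠ 0 := by
  have hpos : 0 < ‖B x‖ := norm_pos_iff.mpr hx
  have h1 : Tendsto (fun t => B (x * t)) (𝓝 1) (𝓝 (B x)) := by
    have h2 : Continuous fun t => B (x * t) := by fun_prop
    have h3 := h2.tendsto 1
    simpa using h3
  have h2 : ∀ᶠ t in 𝓝 (1 : G), ‖B (x * t) - B x‖ ≤ ‖B x‖ / 2 := by
    filter_upwards [Metric.tendsto_nhds.mp h1 (‖B x‖ / 2) (by positivity)] with t ht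
    rw [← dist_eq_norm]
    exact ht.le
  obtain ⟨k, hk, hkc, hkU, hkp, hki⟩ := exists_bump (μ := μ) h2
  refine ⟨k, hk, hkc, fun h0 => ?_⟩
  have h3 := norm_smr_sub_le' (μ := μ) hk hkc hB x (ε := ‖B x‖ / 2) fun t ht => hkU t ht
  rw [h0, zero_sub, norm_neg, norm_smul, hki, Complex.norm_real,
    Real.norm_of_nonneg hkp.le] at h3
  nlinarith

end smo

end Vale.Agent.P092.H34.K
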