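import Vale.Agent.P092.H34.Glue
import Vale.Agent.P092.H553.TF

/-!
P092 (helper34), team A, [GLUE]: the T-field of helper553, plugged in.
-/

set_option linter.all false

open scoped InnerProductSpace ENNReal NNReal Topology
open Filter ContinuousLinearMap MeasureTheory

namespace Vale.Agent.P092.H34

open Vale.Agent.P092.H156 Vale.Agent.P092.PA Vale.Agent.P092.H34.K

variable {Γ Λ K G₁ G₂ H₁ H₂ : Type} [Group Γ] [Countable Γ] [Group Λ]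
  [NormedAddCommGroup K] [InnerProductSpace ℂ K] [CompleteSpace K]
  [Group G₁] [TopologicalSpace G₁] [IsTopologicalGroup G₁]
  [LocallyCompactSpace G₁] [SecondCountableTopology G₁] [T2Space G₁]
  [MeasurableSpace G₁] [BorelSpace G₁]
  [Group G₂] [TopologicalSpace G₂] [IsTopologicalGroup G₂]
  [LocallyCompactSpace G₂] [SecondCountableTopology G₂] [T2Space G₂]
  [MeasurableSpace G₂] [BorelSpace G₂]
  [Group H₁] [TopologicalSpace H₁] [IsTopologicalGroup H₁]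
  [Group H₂] [TopologicalSpace H₂] [IsTopologicalGroup H₂]
  {D : Pic Γ Λ K} {p₁ : Γ →* G₁} {p₂ : Γ →* G₂} {q₁ : Λ →* H₁} {q₂ : Λ →* H₂}
  {μ₁ : Measure G₁} {μ₂ : Measure G₂}

theorem tFld [μ₁.IsMulLeftInvariant] [μ₂.IsMulLeftInvariant] (hF2 : F1 D p₂ q₂ μ₂)
    (hC : Com D p₁ p₂ q₁ q₂ μ₁ μ₂) : TFld D p₁ p₂ q₁ q₂ μ₁ μ₂ := by
  intro φ C hφ hb hi hu b d hbs hds
  refine ⟨H553.TF.T μ₂ φ b d, ?_, ?_, ?_, ?_⟩
  · exact H553.TF.fd_T hF2 hbs hds hφ hb (fun γ x y => hi γ (x, y)) hu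
  · exact H553.TF.acont_T hF2 hbs hds hφ hb
  · intro a ha x
    exact H553.TF.comm_T hF2 hC hbs hds hφ hb ha x x
  · intro x ξ η
    exact H553.TF.inner_T hF2 hbs hds hφ hb x ξ η

/-- [GLUE] -/
theorem glue_of [μ₁.IsHaarMeasure] [μ₂.IsHaarMeasure] [μ₁.IsMulRightInvariant]
    [μ₂.IsMulRightInvariant]
    (hp : ∀ C : Set (G₁ × G₂), IsCompact C → {g | (p₁ g, p₂ g) ∈ C}.Finite)
    (hF1 : F1 D p₁ q₁ μ₁) (hF2 : F1 D p₂ q₂ μ₂) (n₁ : NeS D p₁ q₁ μ₁) (n₂ : NeS D p₂ q₂ μ₂)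
    (hC : Com D p₁ p₂ q₁ q₂ μ₁ μ₂) (hO : Out D p₁ q₁ q₂ μ₁) : Glu D :=
  glue hp hF1 hF2 n₁ n₂ hC hO (tFld hF2 hC)

end Vale.Agent.P092.H34
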