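import Vale.Agent.P092.H34.Ind
import Vale.Agent.P092.RC.Defs

/-!
P092 (helper34), team C, [C-IND]: the trace number of a decomposable operator in the induced
picture.
-/

set_option linter.all false

open scoped InnerProductSpace ENNReal
open MeasureTheory Filter Topology ContinuousLinearMap

namespace Vale.Agent.P092.H34.Ind

open Vale.Agent.P092.H790 Vale.Agent.P092.H160 Vale.Agent.P092.H34 Vale.Agent.P092.RC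

section trace

variable {Γ : Type} [Group Γ] {ℋ : Type} [NormedAddCommGroup ℋ] [InnerProductSpace ℂ ℋ]
  [CompleteSpace ℋ] {R₁ R₂ : Γ →* (ℋ →L[ℂ] ℋ)}

/-- Parseval frame given by one vector. -/
def Frm (R₁ R₂ : Γ →* (ℋ →L[ℂ] ℋ)) (ξ : ℋ) : Prop :=
  ∀ η : ℋ, ∑' p : Γ × Γ, ‖⟪R₁ p.1 (R₂ p.2 ξ), η⟫_ℂ‖ₑ ^ 2 = ‖η‖ₑ ^ 2

theorem frm_of_hasSum {ξ : ℋ}
    (h : ∀ η : ℋ, HasSum (fun p : Γ × Γ => ‖⟪R₁ p.1 (R₂ p.2 ξ), η⟫_ℂ‖ ^ 2) (‖η‖ ^ 2)) :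
    Frm R₁ R₂ ξ := by
  intro η
  have h1 := ENNReal.ofReal_tsum_of_nonneg (f := fun p : Γ × Γ => ‖⟪R₁ p.1 (R₂ p.2 ξ), η⟫_ℂ‖ ^ 2)
    (fun p => by positivity) (h η).summable
  rw [(h η).tsum_eq] at h1
  rw [← ofReal_norm, ← ENNReal.ofReal_pow (norm_nonneg _), h1]
  refine tsum_congr fun p => ?_
  rw [← ofReal_norm, ← ENNReal.ofReal_pow (norm_nonneg _)]

theorem frm_symm (comm : ∀ g h, R₁ g * R₂ h = R₂ h * R₁ g) {ξ : ℋ} (h : Frm R₁ R₂ ξ) :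
    Frm R₂ R₁ ξ := by
  intro η
  rw [← h η, ← (Equiv.prodComm Γ Γ).tsum_eq]
  refine tsum_congr fun p => ?_
  have e1 : R₂ p.2 (R₁ p.1 ξ) = R₁ p.1 (R₂ p.2 ξ) :=
    congrArg (fun S : ℋ →L[ℂ] ℋ => S ξ) (comm p.1 p.2).symm
  change ‖⟪R₂ p.2 (R₁ p.1 ξ), η⟫_ℂ‖ₑ ^ 2 = _
  rw [e1]

/-- unitary image of a frame vector -/
theorem frm_unitary {ξ : ℋ} (h : Frm R₁ R₂ ξ) {U : ℋ →L[ℂ] ℋ} (hU : adjoint U * U = 1)
    (hU' : U * adjoint U = 1)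
    (h₁ : ∀ g, U * R₁ g = R₁ g * U) (h₂ : ∀ g, U * R₂ g = R₂ g * U) : Frm R₁ R₂ (U ξ) := by
  intro η
  have e0 : ‖adjoint U η‖ = ‖η‖ := by
    have h3 : ⟪adjoint U η, adjoint U η⟫_ℂ = ⟪η, η⟫_ℂ := by
      rw [adjoint_inner_left]
      have : U (adjoint U η) = (U * adjoint U) η := rfl
      rw [this, hU']
      rfl
    rw [inner_self_eq_norm_sq_to_K, inner_self_eq_norm_sq_to_K] at h3
    have h4 : ‖adjoint U η‖ ^ 2 = ‖η‖ ^ 2 := by exact_mod_cast h3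
    exact (pow_left_inj₀ (norm_nonneg _) (norm_nonneg _) two_ne_zero).mp h4
  have e1 : ‖η‖ₑ = ‖adjoint U η‖ₑ := by
    rw [← ofReal_norm, ← ofReal_norm, e0]
  rw [e1, ← h (adjoint U η)]
  refine tsum_congr fun p => ?_
  have e2 : R₁ p.1 (R₂ p.2 (U ξ)) = U (R₁ p.1 (R₂ p.2 ξ)) := by
    have a1 : R₂ p.2 (U ξ) = U (R₂ p.2 ξ) :=
      congrArg (fun S : ℋ →L[ℂ] ℋ => S ξ) (h₂ p.2).symm
    have a2 : R₁ p.1 (U (R₂ p.2 ξ)) = U (R₁ p.1 (R₂ p.2 ξ)) :=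
      congrArg (fun S : ℋ →L[ℂ] ℋ => S (R₂ p.2 ξ)) (h₁ p.1).symm
    rw [a1, a2]
  rw [e2, adjoint_inner_right]

/-- `Tr (A* A)` on the fibre -/
noncomputable def trn (R : Γ →* (ℋ →L[ℂ] ℋ)) (ξ : ℋ) (A : ℋ →L[ℂ] ℋ) : ℝ≥0∞ :=
  ∑' γ, ‖A (R γ ξ)‖ₑ ^ 2

theorem trn_swap {ξ ξ' : ℋ} (h : Frm R₁ R₂ ξ) (h' : Frm R₁ R₂ ξ')
    (adj₂ : ∀ g, adjoint (R₂ g) = R₂ g⁻¹) (comm : ∀ g h, R₁ g * R₂ h = R₂ h * R₁ g)
    {A : ℋ →L[ℂ] ℋ} (hA : ∀ g, A * R₂ g = R₂ g * A) :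
    trn R₁ ξ' A = trn R₁ ξ (adjoint A) := by
  have hA' : ∀ g, adjoint A * R₂ g = R₂ g * adjoint A := by
    intro g
    have h1 := congrArg star (hA g⁻¹)
    rw [star_mul, star_mul, star_eq_adjoint, star_eq_adjoint, adj₂, inv_inv] at h1
    exact h1.symm
  have key : ∀ a b γ : Γ, ‖⟪R₁ a (R₂ b ξ), A (R₁ γ ξ')⟫_ℂ‖ₑ ^ 2 =
      ‖⟪R₁ γ (R₂ b⁻¹ ξ'), adjoint A (R₁ a ξ)⟫_ℂ‖ₑ ^ 2 := by
    intro a b γ
    have e1 : ⟪R₁ a (R₂ b ξ), A (R₁ γ ξ')⟫_ℂ = ⟪adjoint A (R₁ a ξ), R₁ γ (R₂ b⁻¹ ξ')⟫_ℂ := by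
      rw [← adjoint_inner_left]
      have e2 : adjoint A (R₁ a (R₂ b ξ)) = R₂ b (adjoint A (R₁ a ξ)) := by
        have a1 : R₁ a (R₂ b ξ) = R₂ b (R₁ a ξ) :=
          congrArg (fun S : ℋ →L[ℂ] ℋ => S ξ) (comm a b)
        rw [a1]
        exact congrArg (fun S : ℋ →L[ℂ] ℋ => S (R₁ a ξ)) (hA' b)
      have e3 : R₁ γ (R₂ b⁻¹ ξ') = R₂ b⁻¹ (R₁ γ ξ') :=
        congrArg (fun S : ℋ →L[ℂ] ℋ => S ξ') (comm γ b⁻¹)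
      rw [e2, e3, ← adj₂, adjoint_inner_right]
    have e4 : ‖⟪R₁ a (R₂ b ξ), A (R₁ γ ξ')⟫_ℂ‖ = ‖⟪R₁ γ (R₂ b⁻¹ ξ'), adjoint A (R₁ a ξ)⟫_ℂ‖ := by
      rw [e1, norm_inner_symm]
    rw [← ofReal_norm, ← ofReal_norm, e4]
  calc trn R₁ ξ' A = ∑' γ, ∑' p : Γ × Γ, ‖⟪R₁ p.1 (R₂ p.2 ξ), A (R₁ γ ξ')⟫_ℂ‖ₑ ^ 2 :=
        tsum_congr fun γ => (h _).symm
    _ = ∑' γ, ∑' a, ∑' b, ‖⟪R₁ a (R₂ b ξ), A (R₁ γ ξ')⟫_ℂ‖ₑ ^ 2 :=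
        tsum_congr fun γ => ENNReal.tsum_prod
          (f := fun a b => ‖⟪R₁ a (R₂ b ξ), A (R₁ γ ξ')⟫_ℂ‖ₑ ^ 2)
    _ = ∑' a, ∑' γ, ∑' b, ‖⟪R₁ a (R₂ b ξ), A (R₁ γ ξ')⟫_ℂ‖ₑ ^ 2 := ENNReal.tsum_comm
    _ = ∑' a, ∑' γ, ∑' b, ‖⟪R₁ γ (R₂ b ξ'), adjoint A (R₁ a ξ)⟫_ℂ‖ₑ ^ 2 := by
        refine tsum_congr fun a => tsum_congr fun γ => ?_
        rw [← (Equiv.inv Γ).tsum_eq (fun b => ‖⟪R₁ γ (R₂ b ξ'), adjoint A (R₁ a ξ)⟫_ℂ‖ₑ ^ 2)]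
        exact tsum_congr fun b => key a b γ
    _ = ∑' a, ∑' p : Γ × Γ, ‖⟪R₁ p.1 (R₂ p.2 ξ'), adjoint A (R₁ a ξ)⟫_ℂ‖ₑ ^ 2 :=
        tsum_congr fun a => (ENNReal.tsum_prod
          (f := fun γ b => ‖⟪R₁ γ (R₂ b ξ'), adjoint A (R₁ a ξ)⟫_ℂ‖ₑ ^ 2)).symm
    _ = trn R₁ ξ (adjoint A) := tsum_congr fun a => h' _

theorem trn_adj {ξ : ℋ} (h : Frm R₁ R₂ ξ) (adj₂ : ∀ g, adjoint (R₂ g) = R₂ g⁻¹)
    (comm : ∀ g h, R₁ g * R₂ h = R₂ h * R₁ g) {A : ℋ →L[ℂ] ℋ} (hA : ∀ g, A * R₂ g = R₂ g * A) :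
    trn R₁ ξ A = trn R₁ ξ (adjoint A) := trn_swap h h adj₂ comm hA

/-- invariance under unitaries which commute with both legs -/
theorem trn_conj {ξ : ℋ} (h : Frm R₁ R₂ ξ) (adj₂ : ∀ g, adjoint (R₂ g) = R₂ g⁻¹)
    (comm : ∀ g h, R₁ g * R₂ h = R₂ h * R₁ g) {A : ℋ →L[ℂ] ℋ} (hA : ∀ g, A * R₂ g = R₂ g * A)
    {U U' : ℋ →L[ℂ] ℋ} (hUU' : adjoint U = U') (h1 : U * U' = 1) (h2 : U' * U = 1)
    (h₁ : ∀ g, U * R₁ g = R₁ g * U) (h₂ : ∀ g, U * R₂ g = R₂ g * U) :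
    trn R₁ ξ (U * A * U') = trn R₁ ξ A := by
  have hUU : adjoint U' = U := by rw [← hUU', adjoint_adjoint]
  have hn : ∀ v, ‖U v‖ = ‖v‖ := by
    intro v
    have h3 : ⟪U v, U v⟫_ℂ = ⟪v, v⟫_ℂ := by
      rw [← adjoint_inner_left, hUU']
      have : U' (U v) = (U' * U) v := rfl
      rw [this, h2]
      rfl
    rw [inner_self_eq_norm_sq_to_K, inner_self_eq_norm_sq_to_K] at h3
    have h4 : ‖U v‖ ^ 2 = ‖v‖ ^ 2 := by exact_mod_cast h3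
    exact (pow_left_inj₀ (norm_nonneg _) (norm_nonneg _) two_ne_zero).mp h4
  have c1 : ∀ (R : Γ →* (ℋ →L[ℂ] ℋ)), (∀ g, U * R g = R g * U) → ∀ g, U' * R g = R g * U' := by
    intro R hR g
    calc U' * R g = U' * (R g * (U * U')) := by rw [h1, mul_one]
      _ = U' * ((R g * U) * U') := by rw [mul_assoc (R g)]
      _ = U' * ((U * R g) * U') := by rw [hR]
      _ = (U' * U) * (R g * U') := by simp only [mul_assoc]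
      _ = R g * U' := by rw [h2, one_mul]
  have hf' : Frm R₁ R₂ (U' ξ) := frm_unitary h (by rw [hUU, h1]) (by rw [hUU, h2])
    (c1 R₁ h₁) (c1 R₂ h₂)
  have e1 : trn R₁ ξ (U * A * U') = trn R₁ (U' ξ) A := by
    refine tsum_congr fun γ => ?_
    have a1 : U' (R₁ γ ξ) = R₁ γ (U' ξ) :=
      congrArg (fun S : ℋ →L[ℂ] ℋ => S ξ) (c1 R₁ h₁ γ)
    change ‖U (A (U' (R₁ γ ξ)))‖ₑ ^ 2 = ‖A (R₁ γ (U' ξ))‖ₑ ^ 2
    rw [a1, ← ofReal_norm, ← ofReal_norm, hn]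
  rw [e1, trn_swap h hf' adj₂ comm hA, ← trn_adj h adj₂ comm hA]

/-- a vector orthogonal to the frame vanishes -/
theorem Frm.eq_zero {ξ : ℋ} (h : Frm R₁ R₂ ξ) {η : ℋ} (h0 : ∀ a b, ⟪R₁ a (R₂ b ξ), η⟫_ℂ = 0) :
    η = 0 := by
  have h1 := h η
  have h2 : ∑' p : Γ × Γ, ‖⟪R₁ p.1 (R₂ p.2 ξ), η⟫_ℂ‖ₑ ^ 2 = 0 := by
    rw [ENNReal.tsum_eq_zero]
    intro p
    rw [h0, enorm_zero]
    norm_num
  rw [h2] at h1
  have h3 : ‖η‖ₑ = 0 := by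
    by_contra hh
    exact (pow_ne_zero 2 hh) h1.symm
  exact enorm_eq_zero.mp h3

theorem trn_eq_zero {ξ : ℋ} (h : Frm R₁ R₂ ξ) (comm : ∀ g h, R₁ g * R₂ h = R₂ h * R₁ g)
    {A : ℋ →L[ℂ] ℋ} (hA : ∀ g, A * R₂ g = R₂ g * A) (h0 : trn R₁ ξ A = 0) : A = 0 := by
  have h1 : ∀ γ, A (R₁ γ ξ) = 0 := by
    intro γ
    have h2 := (ENNReal.tsum_eq_zero.mp h0) γ
    have h3 : ‖A (R₁ γ ξ)‖ₑ = 0 := by
      by_contra hh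
      exact (pow_ne_zero 2 hh) h2
    exact enorm_eq_zero.mp h3
  have h2 : ∀ a b, A (R₁ a (R₂ b ξ)) = 0 := by
    intro a b
    have a1 : R₁ a (R₂ b ξ) = R₂ b (R₁ a ξ) :=
      congrArg (fun S : ℋ →L[ℂ] ℋ => S ξ) (comm a b)
    have a2 : A (R₂ b (R₁ a ξ)) = R₂ b (A (R₁ a ξ)) :=
      congrArg (fun S : ℋ →L[ℂ] ℋ => S (R₁ a ξ)) (hA b)
    rw [a1, a2, h1, map_zero]
  have h3 : adjoint A = 0 := by
    refine ContinuousLinearMap.ext fun v => ?_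
    refine h.eq_zero fun a b => ?_
    rw [adjoint_inner_right, h2, inner_zero_left]
  have h4 := congrArg adjoint h3
  rw [adjoint_adjoint, map_zero] at h4
  exact h4

end trace

/-! ### the trace number on the induced space -/

section tr

variable {X : Type} [MeasurableSpace X] {μ : Measure X} [IsProbabilityMeasure μ] {ℋ : Type}
  [NormedAddCommGroup ℋ] [InnerProductSpace ℂ ℋ] [CompleteSpace ℋ]

theorem enorm_sq_lint (f : Lp ℋ 2 μ) : ‖f‖ₑ ^ 2 = ∫⁻ x, ‖f x‖ₑ ^ 2 ∂μ := by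
  have h1 := eLpNorm_nnreal_pow_eq_lintegral (f := f) (μ := μ) (p := 2) (by norm_num)
  rw [Lp.enorm_def]
  simpa using h1

variable {Γ : Type} [Group Γ] [Countable Γ]

/-- the trace number in terms of the field -/
theorem trn_fld {T : Lp ℋ 2 μ →L[ℂ] Lp ℋ 2 μ} {A : X → ℋ →L[ℂ] ℋ} (hT : Fld T A)
    (R : Γ →* (ℋ →L[ℂ] ℋ)) (ξ : ℋ)
    (hA : ∀ y, AEStronglyMeasurable (fun x => A x y) μ) :
    ∑' γ, ‖T ((R γ).compLpL 2 μ (Lp.const 2 μ ξ))‖ₑ ^ 2 = ∫⁻ x, trn R ξ (A x) ∂μ := by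
  have h1 : ∀ γ, ‖T ((R γ).compLpL 2 μ (Lp.const 2 μ ξ))‖ₑ ^ 2 =
      ∫⁻ x, ‖A x (R γ ξ)‖ₑ ^ 2 ∂μ := by
    intro γ
    rw [enorm_sq_lint]
    refine lintegral_congr_ae ?_
    filter_upwards [hT ((R γ).compLpL 2 μ (Lp.const 2 μ ξ)),
      fld_comp (μ := μ) (R γ) (Lp.const 2 μ ξ), Lp.coeFn_const (p := 2) (μ := μ) ξ] with x a1 a2 a3
    rw [a1, a2, a3]
    rfl
  simp_rw [h1]
  rw [← lintegral_tsum]
  · rfl
  · intro γ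
    exact ((hA (R γ ξ)).enorm).pow_const 2

end tr

/-! ### the picture -/

section fields

variable {X : Type} [MeasurableSpace X] {μ : Measure X} [IsProbabilityMeasure μ] {ℋ : Type}
  [NormedAddCommGroup ℋ] [InnerProductSpace ℂ ℋ] [CompleteSpace ℋ]

theorem fld_unique {I : Type} [Countable I] (b : HilbertBasis I ℂ ℋ)
    {T : Lp ℋ 2 μ →L[ℂ] Lp ℋ 2 μ} {A B : X → ℋ →L[ℂ] ℋ} (hA : Fld T A) (hB : Fld T B) :
    ∀ᵐ x ∂μ, A x = B x := by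
  have h1 : ∀ᵐ x ∂μ, ∀ i, A x (b i) = B x (b i) := by
    rw [ae_all_iff]
    intro i
    filter_upwards [hA (Lp.const 2 μ (b i)), hB (Lp.const 2 μ (b i)),
      Lp.coeFn_const (p := 2) (μ := μ) (b i)] with x a1 a2 a3
    rw [a3] at a1 a2
    exact a1.symm.trans a2
  filter_upwards [h1] with x hx
  exact ext_basis b hx

theorem fld_adj {I : Type} [Countable I] (b : HilbertBasis I ℂ ℋ)
    {T : Lp ℋ 2 μ →L[ℂ] Lp ℋ 2 μ} (hT : Dcm T) {A B : X → ℋ →L[ℂ] ℋ} (hA : Fld T A)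
    (hB : Fld (adjoint T) B) : ∀ᵐ x ∂μ, B x = adjoint (A x) := by
  have h1 : ∀ᵐ x ∂μ, ∀ i j, ⟪A x (b i), b j⟫_ℂ = ⟪b i, B x (b j)⟫_ℂ := by
    rw [ae_all_iff]
    intro i
    rw [ae_all_iff]
    intro j
    filter_upwards [hT.inner_const (b j) (b i), hA (Lp.const 2 μ (b i)),
      hB (Lp.const 2 μ (b j)), Lp.coeFn_const (p := 2) (μ := μ) (b i),
      Lp.coeFn_const (p := 2) (μ := μ) (b j)] with x a1 a2 a3 a4 a5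
    rw [a4] at a2
    rw [a5] at a3
    rw [a2, a3] at a1
    exact a1
  filter_upwards [h1] with x hx
  refine ext_basis b fun j => ?_
  apply b.repr.injective
  ext i
  rw [b.repr_apply_apply, b.repr_apply_apply, adjoint_inner_right, ← hx i j]

end fields

section picture

variable {D Λ Γ : Type} [Group D] [Group Λ] [Countable Λ] [Group Γ] (d : CData D Λ) {ℋ : Type}
  [NormedAddCommGroup ℋ] [InnerProductSpace ℂ ℋ] [CompleteSpace ℋ]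
  {V : Λ →* (ℋ →L[ℂ] ℋ)} {R₁ R₂ : Γ →* (ℋ →L[ℂ] ℋ)} (hV : ∀ v, adjoint (V v) = V v⁻¹)

/-- the multiplications by indicator functions -/
def Xset (ℋ : Type) [NormedAddCommGroup ℋ] [InnerProductSpace ℂ ℋ] :
    Set (Lp ℋ 2 d.μ →L[ℂ] Lp ℋ 2 d.μ) :=
  {T | ∃ S, MeasurableSet S ∧ T = H790.ind d.μ ℋ S}

theorem wset_eq : Xset d ℋ ∪ Set.range (lam d R₂) = Wset d (Set.range R₂) := by
  ext T
  constructor
  · rintro (h | ⟨g, rfl⟩)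
    · exact Or.inl h
    · exact Or.inr ⟨R₂ g, ⟨g, rfl⟩, rfl⟩
  · rintro (h | ⟨_, ⟨g, rfl⟩, rfl⟩)
    · exact Or.inl h
    · exact Or.inr ⟨g, rfl⟩

theorem cm_iff {T : Lp ℋ 2 d.μ →L[ℂ] Lp ℋ 2 d.μ} :
    Cm (Xset d ℋ ∪ Set.range (lam d R₂)) T ↔ AA d (Set.range R₂) T := by
  rw [wset_eq]
  exact Iff.rfl

variable {d} {I : Type} [Countable I] (b : HilbertBasis I ℂ ℋ) [Countable Γ] {ξ : ℋ}
  (hf : Frm R₁ R₂ ξ) (adj₂ : ∀ g, adjoint (R₂ g) = R₂ g⁻¹)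
  (comm : ∀ g h, R₁ g * R₂ h = R₂ h * R₁ g)

include b in
theorem exists_field {T : Lp ℋ 2 d.μ →L[ℂ] Lp ℋ 2 d.μ} (hT : AA d (Set.range R₂) T) :
    ∃ A : d.X → ℋ →L[ℂ] ℋ, (∀ x, ‖A x‖ ≤ ‖T‖) ∧
      (∀ y, AEStronglyMeasurable (fun x => A x y) d.μ) ∧ Fld T A ∧
      (∀ᵐ x ∂d.μ, ∀ g, A x * R₂ g = R₂ g * A x) ∧
      TRN (lam d R₁) (Lp.const 2 d.μ ξ) T = ∫⁻ x, trn R₁ ξ (A x) ∂d.μ := by
  obtain ⟨A, h1, h2, h3, h4⟩ := hT.exists_fld b (Set.countable_range _)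
  refine ⟨A, h1, h2, h3, ?_, trn_fld h3 R₁ ξ h2⟩
  filter_upwards [h4] with x hx g
  exact hx _ ⟨g, rfl⟩

include hf adj₂ comm b in
theorem TRN_adj {T : Lp ℋ 2 d.μ →L[ℂ] Lp ℋ 2 d.μ} (hT : AA d (Set.range R₂) T) :
    TRN (lam d R₁) (Lp.const 2 d.μ ξ) (adjoint T) = TRN (lam d R₁) (Lp.const 2 d.μ ξ) T := by
  have hT' : AA d (Set.range R₂) (adjoint T) := hT.adj (by
    rintro _ ⟨g, rfl⟩
    exact ⟨g⁻¹, (adj₂ g).symm⟩)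
  obtain ⟨A, -, -, h3, h4, h5⟩ := exists_field (R₁ := R₁) (ξ := ξ) b hT
  obtain ⟨B, -, -, h3', h4', h5'⟩ := exists_field (R₁ := R₁) (ξ := ξ) b hT'
  rw [h5, h5']
  refine lintegral_congr_ae ?_
  filter_upwards [fld_adj b hT.dcm h3 h3', h4] with x e1 e2
  rw [e1, ← trn_adj hf adj₂ comm e2]

include hf adj₂ comm b in
theorem TRN_conj (h₁ : ∀ g h, V g * R₁ h = R₁ h * V g) (h₂ : ∀ g h, V g * R₂ h = R₂ h * V g)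
    {T : Lp ℋ 2 d.μ →L[ℂ] Lp ℋ 2 d.μ} (hT : AA d (Set.range R₂) T) (g : D) :
    TRN (lam d R₁) (Lp.const 2 d.μ ξ) (pi d hV g * T * pi d hV g⁻¹) =
      TRN (lam d R₁) (Lp.const 2 d.μ ξ) T := by
  have hT' : AA d (Set.range R₂) (pi d hV g * T * pi d hV g⁻¹) := hT.conj hV (by
    rintro _ ⟨s, rfl⟩ v
    exact (h₂ v s).symm) g
  obtain ⟨A, -, m1, h3, h4, h5⟩ := exists_field (R₁ := R₁) (ξ := ξ) b hT
  obtain ⟨B, -, -, h3', h4', h5'⟩ := exists_field (R₁ := R₁) (ξ := ξ) b hT'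
  rw [h5, h5']
  have e0 : ∀ᵐ x ∂d.μ, trn R₁ ξ (B x) = trn R₁ ξ (A (d.act g⁻¹ x)) := by
    filter_upwards [fld_unique b h3' (fld_conj hV h3 g), ae_comp (d.mp g⁻¹) h4] with x e1 e2
    rw [e1]
    refine trn_conj hf adj₂ comm e2 (hV _) ?_ ?_ (fun s => h₁ _ s) (fun s => h₂ _ s)
    · rw [← map_mul, mul_inv_cancel, map_one]
    · rw [← map_mul, inv_mul_cancel, map_one]
  rw [lintegral_congr_ae e0]
  have m2 : AEMeasurable (fun x => trn R₁ ξ (A x)) d.μ := by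
    refine AEMeasurable.ennreal_tsum fun γ => ?_
    exact ((m1 (R₁ γ ξ)).enorm).pow_const 2
  have m3 := (d.mp g⁻¹).map_eq
  have e2 := lintegral_map' (μ := d.μ) (g := d.act g⁻¹) (f := fun x => trn R₁ ξ (A x))
    (by rw [m3]; exact m2) (d.mp g⁻¹).measurable.aemeasurable
  rw [m3] at e2
  exact e2.symm

include hf comm b in
theorem TRN_zero {T : Lp ℋ 2 d.μ →L[ℂ] Lp ℋ 2 d.μ} (hT : AA d (Set.range R₂) T)
    (h0 : TRN (lam d R₁) (Lp.const 2 d.μ ξ) T = 0) : T = 0 := by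
  obtain ⟨A, -, m1, h3, h4, h5⟩ := exists_field (R₁ := R₁) (ξ := ξ) b hT
  rw [h5] at h0
  have m2 : AEMeasurable (fun x => trn R₁ ξ (A x)) d.μ := by
    refine AEMeasurable.ennreal_tsum fun γ => ?_
    exact ((m1 (R₁ γ ξ)).enorm).pow_const 2
  rw [lintegral_eq_zero_iff' m2] at h0
  refine h3.ext fld_zero ?_
  filter_upwards [h0, h4] with x e1 e2
  exact trn_eq_zero hf comm e2 e1

include b hf adj₂ comm in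
/-- **[C-IND]**: the picture of one leg, up to the two ergodicity statements and the invariance of
the vector state. -/
theorem pic_of [TopologicalSpace D] (hn : ‖ξ‖ = 1)
    (adj₁ : ∀ g, adjoint (R₁ g) = R₁ g⁻¹)
    (h₁ : ∀ g h, V g * R₁ h = R₁ h * V g) (h₂ : ∀ g h, V g * R₂ h = R₂ h * V g)
    (cont : ∀ ζ, Continuous fun g => pi d hV g ζ)
    (erg : ∀ S : Set D, Moore S → ∀ T, Cm (Xset d ℋ ∪ Set.range (lam d R₂)) T →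
      (∀ γ, T * lam d R₁ γ = lam d R₁ γ * T) → (∀ g ∈ S, T * pi d hV g = pi d hV g * T) →
      ∃ z : ℂ, T = z • (1 : Lp ℋ 2 d.μ →L[ℂ] Lp ℋ 2 d.μ))
    (hs : ∀ S : Set D, Moore S → ∀ T, Cm (Xset d ℋ ∪ Set.range (lam d R₂)) T →
      TRN (lam d R₁) (Lp.const 2 d.μ ξ) T < ∞ → (∀ g ∈ S, T * pi d hV g = pi d hV g * T) →
      T = 0)
    (hinv : ∀ T, Cm (Xset d ℋ ∪ Set.range (lam d R₂)) T →
      (∀ g, T * pi d hV g = pi d hV g * T) → ∀ γ,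
      ⟪(Lp.const 2 d.μ ξ : Lp ℋ 2 d.μ), (lam d R₁ γ * T * lam d R₁ γ⁻¹) (Lp.const 2 d.μ ξ)⟫_ℂ =
        ⟪(Lp.const 2 d.μ ξ : Lp ℋ 2 d.μ), T (Lp.const 2 d.μ ξ)⟫_ℂ) :
    Pic (pi d hV) (lam d R₁) (Xset d ℋ ∪ Set.range (lam d R₂)) (Lp.const 2 d.μ ξ) where
  adjP := adjoint_pi d hV
  contP := cont
  adjL := adjoint_lam d adj₁
  comm g γ := pi_lam d hV h₁ g γ
  Wadj := by
    rw [wset_eq]
    intro w hw
    refine adjoint_mem_Wset d ?_ hw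
    rintro _ ⟨g, rfl⟩
    exact ⟨g⁻¹, (adj₂ g).symm⟩
  WP := by
    rw [wset_eq]
    intro w hw g
    refine conj_mem_Wset d hV ?_ g hw
    rintro _ ⟨s, rfl⟩ v
    exact (h₂ v s).symm
  WL := by
    rw [wset_eq]
    intro w hw γ
    refine (lam_comm_Wset d ?_ γ hw).symm
    rintro _ ⟨s, rfl⟩ γ
    exact (comm γ s).symm
  nΩ := by
    rw [Lp.norm_const']
    · simp [hn]
    · norm_num
    · norm_num
  erg := erg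
  tr_adj T hT := TRN_adj b hf adj₂ comm ((cm_iff d).1 hT)
  tr_conj T hT g := TRN_conj hV b hf adj₂ comm h₁ h₂ ((cm_iff d).1 hT) g
  tr_zero T hT h0 := TRN_zero b hf comm ((cm_iff d).1 hT) h0
  hs_erg := hs
  inv := hinv

end picture

end Vale.Agent.P092.H34.Ind
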