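import Vale.Agent.P092.H34.SmoSmr

/-!
P092 (helper34), team A: unfolding.  A continuous periodisation `F` of an integrable function `f`
which is orthogonal to all bounded continuous invariant functions is zero.
-/

set_option linter.all false

open scoped InnerProductSpace ENNReal NNReal Topology
open Filter ContinuousLinearMap MeasureTheory

namespace Vale.Agent.P092.H34.K

open Vale.Agent.P092.H160 (RegRep Cmm)
open Vale.Agent.P092.H156

section abs

variable {G : Type} [Group G] [TopologicalSpace G] [IsTopologicalGroup G]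
  [MeasurableSpace G] [BorelSpace G] {μ : Measure G} {Γ : Type} [Group Γ] [Countable Γ]

theorem unf_abs [μ.IsMulLeftInvariant] [μ.IsOpenPosMeasure] (p : Γ →* G)
    {f : G → ℂ} (hf : Continuous f) (hfi : Integrable f μ)
    {F : G → ℂ} (hF : Continuous F) (hsum : ∀ g, HasSum (fun γ => f (p γ * g)) (F g))
    {h : G → ℝ} (hh : Continuous h) (h0 : ∀ g, 0 ≤ h g) {N : G → ℝ} (hN : Measurable N)
    (hsumN : ∀ g, HasSum (fun γ => h (p γ * g)) (N g)) (hfh : ∀ g, h g = 0 → f g = 0)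
    (hφ : ∀ φ : G → ℂ, Continuous φ → (∀ g, ‖φ g‖ ≤ 1) → (∀ γ g, φ (p γ * g) = φ g) →
      ∫ g, φ g * f g ∂μ = 0) (g : G) : F g = 0 := by
  have Finv : ∀ γ g, F (p γ * g) = F g := by
    intro γ g
    have h1 := hsum (p γ * g)
    have h2 := (Equiv.mulRight γ).hasSum_iff.mpr (hsum g)
    refine h1.unique (Eq.mp ?_ h2)
    congr 1
    funext δ
    simp [mul_assoc]
  have Ninv : ∀ γ g, N (p γ * g) = N g := by
    intro γ g
    have h1 := hsumN (p γ * g)
    have h2 := (Equiv.mulRight γ).hasSum_iff.mpr (hsumN g)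
    refine h1.unique (Eq.mp ?_ h2)
    congr 1
    funext δ
    simp [mul_assoc]
  have N0 : ∀ g, N g = 0 → ∀ γ, h (p γ * g) = 0 := by
    intro g hg γ
    have h1 := (hasSum_zero_iff_of_nonneg (fun γ => h0 (p γ * g))).mp (hg ▸ hsumN g)
    exact congrFun h1 γ
  set φ : G → ℂ := fun g => starRingEnd ℂ (F g) / ((1 + ‖F g‖ : ℝ) : ℂ) with hφd
  have hpos : ∀ g, 0 < 1 + ‖F g‖ := fun g => by positivity
  have φc : Continuous φ := by
    refine (continuous_star.comp hF).div (Complex.continuous_ofReal.comp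
      (continuous_const.add hF.norm)) fun g => ?_
    exact Complex.ofReal_ne_zero.mpr (hpos g).ne'
  have φb : ∀ g, ‖φ g‖ ≤ 1 := by
    intro g
    rw [hφd]
    simp only [norm_div, RCLike.norm_conj, Complex.norm_real, Real.norm_of_nonneg (hpos g).le]
    rw [div_le_one (hpos g)]
    linarith
  have φi : ∀ γ g, φ (p γ * g) = φ g := by
    intro γ g
    simp only [hφd, Finv]
  have key := hφ φ φc φb φi
  set ψ : G → ℝ := fun g => h g / N g with hψd
  have ψm : Measurable ψ := hh.measurable.div hN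
  have ψ0 : ∀ g, 0 ≤ ψ g := fun g =>
    div_nonneg (h0 g) ((hsumN g).nonneg fun γ => h0 _)
  -- the sum of the translates of `ψ`
  have ψs : ∀ g, N g ≠ 0 → HasSum (fun γ => ψ (p γ * g)) 1 := by
    intro g hg
    have h1 := (hsumN g).div_const (N g)
    rw [div_self hg] at h1
    refine Eq.mp ?_ h1
    congr 1
    funext γ
    simp only [hψd, Ninv]
  have e1 : ∀ g, HasSum (fun γ => (ψ (p γ * g) : ℂ) * (φ g * f g)) (φ g * f g) := by
    intro g
    by_cases hg : N g = 0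
    · have h1 : f g = 0 := hfh g (by simpa using N0 g hg 1)
      simp only [h1, mul_zero]
      exact hasSum_zero
    · have h1 : HasSum (fun γ => (ψ (p γ * g) : ℂ)) ((1 : ℝ) : ℂ) :=
        Complex.hasSum_ofReal.mpr (ψs g hg)
      have h2 := h1.mul_right (φ g * f g)
      rwa [Complex.ofReal_one, one_mul] at h2
  have e1' : ∀ g, ∑' γ, ‖(ψ (p γ * g) : ℂ) * (φ g * f g)‖ₑ ≤ ‖f g‖ₑ := by
    intro g
    have h3 : ∀ γ, ‖(ψ (p γ * g) : ℂ) * (φ g * f g)‖ₑ =
        ENNReal.ofReal (ψ (p γ * g)) * ‖φ g * f g‖ₑ := by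
      intro γ
      rw [enorm_mul, ← ofReal_norm_eq_enorm, Complex.norm_real, Real.norm_of_nonneg (ψ0 _)]
    simp_rw [h3, ENNReal.tsum_mul_right]
    have h5 : ‖φ g * f g‖ₑ ≤ ‖f g‖ₑ := by
      rw [← ofReal_norm_eq_enorm, ← ofReal_norm_eq_enorm, norm_mul]
      exact ENNReal.ofReal_le_ofReal (mul_le_of_le_one_left (norm_nonneg _) (φb g))
    by_cases hg : N g = 0
    · have h1 : f g = 0 := hfh g (by simpa using N0 g hg 1)
      simp [h1]
    · have h4 := ψs g hg
      rw [← ENNReal.ofReal_tsum_of_nonneg (fun γ => ψ0 _) h4.summable, h4.tsum_eq,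
        ENNReal.ofReal_one, one_mul]
      exact h5
  have m1 : ∀ γ, Measurable fun g => (ψ (p γ * g) : ℂ) * (φ g * f g) := by
    intro γ
    refine Measurable.mul ?_ (φc.mul hf).measurable
    exact Complex.measurable_ofReal.comp (ψm.comp (measurable_const_mul (p γ)))
  have f1 : ∑' γ, ∫⁻ g, ‖(ψ (p γ * g) : ℂ) * (φ g * f g)‖ₑ ∂μ ≠ ⊤ := by
    rw [← lintegral_tsum fun γ => (m1 γ).enorm.aemeasurable]
    exact ne_top_of_le_ne_top hfi.2.ne (lintegral_mono e1')
  have i1 : ∑' γ, ∫ g, (ψ (p γ * g) : ℂ) * (φ g * f g) ∂μ = 0 := by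
    rw [← integral_tsum (fun γ => (m1 γ).aestronglyMeasurable) f1, ← key]
    exact integral_congr_ae (Eventually.of_forall fun g => (e1 g).tsum_eq)
  -- translation
  have m2 : ∀ γ, Measurable fun g => (ψ g : ℂ) * (φ g * f (p γ * g)) := by
    intro γ
    refine Measurable.mul (Complex.measurable_ofReal.comp ψm) ?_
    exact (φc.mul (hf.comp (continuous_const_mul (p γ)))).measurable
  have t1 : ∀ γ, ∫ g, (ψ (p γ * g) : ℂ) * (φ g * f g) ∂μ =
      ∫ g, (ψ g : ℂ) * (φ g * f (p γ⁻¹ * g)) ∂μ := by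
    intro γ
    rw [← integral_mul_left_eq_self (fun g => (ψ g : ℂ) * (φ g * f (p γ⁻¹ * g))) (p γ)]
    congr 1
    funext g
    rw [φi, map_inv, inv_mul_cancel_left]
  have t2 : ∀ γ, ∫⁻ g, ‖(ψ (p γ * g) : ℂ) * (φ g * f g)‖ₑ ∂μ =
      ∫⁻ g, ‖(ψ g : ℂ) * (φ g * f (p γ⁻¹ * g))‖ₑ ∂μ := by
    intro γ
    rw [← lintegral_mul_left_eq_self (fun g => ‖(ψ g : ℂ) * (φ g * f (p γ⁻¹ * g))‖ₑ) (p γ)]
    refine lintegral_congr fun g => ?_
    rw [φi, map_inv, inv_mul_cancel_left]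
  have f2 : ∑' γ : Γ, ∫⁻ g, ‖(ψ g : ℂ) * (φ g * f (p γ⁻¹ * g))‖ₑ ∂μ ≠ ⊤ := by
    simp_rw [t2] at f1
    exact f1
  have e2 : ∀ g, HasSum (fun γ : Γ => (ψ g : ℂ) * (φ g * f (p γ⁻¹ * g)))
      ((ψ g : ℂ) * (φ g * F g)) := by
    intro g
    have h1 := (Equiv.inv Γ).hasSum_iff.mpr (hsum g)
    exact (h1.mul_left (φ g)).mul_left _
  have i2 : ∫ g, (ψ g : ℂ) * (φ g * F g) ∂μ = 0 := by
    simp_rw [t1] at i1
    rw [← integral_tsum (fun γ => (m2 _).aestronglyMeasurable) f2] at i1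
    rw [← i1]
    exact integral_congr_ae (Eventually.of_forall fun g => (e2 g).tsum_eq.symm)
  -- integrability
  have m3 : Measurable fun g => (ψ g : ℂ) * (φ g * F g) :=
    (Complex.measurable_ofReal.comp ψm).mul (φc.mul hF).measurable
  have i3 : Integrable (fun g => (ψ g : ℂ) * (φ g * F g)) μ := by
    refine ⟨m3.aestronglyMeasurable, ?_⟩
    have h1 : ∫⁻ g, ‖(ψ g : ℂ) * (φ g * F g)‖ₑ ∂μ ≤
        ∫⁻ g, ∑' γ : Γ, ‖(ψ g : ℂ) * (φ g * f (p γ⁻¹ * g))‖ₑ ∂μ := by
      refine lintegral_mono fun g => ?_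
      simp only
      rw [← (e2 g).tsum_eq]
      exact enorm_tsum_le_tsum_enorm
    rw [lintegral_tsum fun γ => (m2 _).enorm.aemeasurable] at h1
    exact lt_of_le_of_lt h1 (lt_top_iff_ne_top.mpr f2)
  -- positivity
  have r : ∀ g, (ψ g : ℂ) * (φ g * F g) = ((ψ g * (‖F g‖ ^ 2 / (1 + ‖F g‖)) : ℝ) : ℂ) := by
    intro g
    simp only [hφd]
    rw [div_mul_eq_mul_div, ← Complex.normSq_eq_conj_mul_self, Complex.normSq_eq_norm_sq]
    push_cast
    ring
  have i4 : ∫ g, ψ g * (‖F g‖ ^ 2 / (1 + ‖F g‖)) ∂μ = 0 := by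
    simp_rw [r] at i2
    rw [integral_complex_ofReal] at i2
    exact Complex.ofReal_eq_zero.mp i2
  have i5 : Integrable (fun g => ψ g * (‖F g‖ ^ 2 / (1 + ‖F g‖))) μ := by
    have h1 := i3.re
    refine h1.congr (Eventually.of_forall fun g => ?_)
    simp only [r]
    exact Complex.ofReal_re _
  have z1 : ∀ᵐ g ∂μ, ψ g * (‖F g‖ ^ 2 / (1 + ‖F g‖)) = 0 :=
    (integral_eq_zero_iff_of_nonneg (fun g => mul_nonneg (ψ0 g) (by positivity)) i5).mp i4
  have z2 : ∀ᵐ g ∂μ, ∀ γ, ψ (p γ * g) * (‖F g‖ ^ 2 / (1 + ‖F g‖)) = 0 := by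
    rw [ae_all_iff]
    intro γ
    have h1 := (measurePreserving_mul_left μ (p γ)).quasiMeasurePreserving.ae z1
    filter_upwards [h1] with g hg
    rwa [Finv] at hg
  have z3 : F =ᵐ[μ] fun _ => 0 := by
    filter_upwards [z2] with g hg
    by_contra hne
    have h1 : ∀ γ, ψ (p γ * g) = 0 := by
      intro γ
      rcases mul_eq_zero.mp (hg γ) with h2 | h2
      · exact h2
      · exact absurd h2 (by positivity)
    by_cases hN0 : N g = 0
    · have h3 : ∀ γ, f (p γ * g) = 0 := fun γ => hfh _ (N0 g hN0 γ)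
      have h4 := hsum g
      simp only [h3] at h4
      exact hne (h4.unique hasSum_zero)
    · have h3 := ψs g hN0
      simp only [h1] at h3
      exact zero_ne_one (hasSum_zero.unique h3)
  exact congrFun (Measure.eq_of_ae_eq z3 hF continuous_const) g

/-- The pairing of two HS-continuous equivariant fields vanishes if the vector state pairing is
orthogonal to all bounded continuous invariant functions. -/
theorem hip_eq_zero [μ.IsMulLeftInvariant] [μ.IsOpenPosMeasure] {K : Type} [NormedAddCommGroup K]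
    [InnerProductSpace ℂ K] [CompleteSpace K] {ρ : Γ →* (K →L[ℂ] K)} {ω : K} (h : RegRep ρ ω)
    {p : Γ →* G} {A B : G → K →L[ℂ] K} (hA : HSC h.basis A) (hB : HSC h.basis B)
    (cA : Continuous A) (cB : Continuous B)
    (eA : ∀ γ x, A (p γ * x) = ρ γ * A x * ρ γ⁻¹) (eB : ∀ γ x, B (p γ * x) = ρ γ * B x * ρ γ⁻¹)
    (hi : Integrable (fun x => ⟪A x ω, B x ω⟫_ℂ) μ)
    (hφ : ∀ φ : G → ℂ, Continuous φ → (∀ g, ‖φ g‖ ≤ 1) → (∀ γ g, φ (p γ * g) = φ g) →
      ∫ g, φ g * ⟪A g ω, B g ω⟫_ℂ ∂μ = 0) (g : G) : hip h.basis (A g) (B g) = 0 := by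
  have key : ∀ {A B : G → K →L[ℂ] K}, HSC h.basis A → HSC h.basis B →
      (∀ γ x, A (p γ * x) = ρ γ * A x * ρ γ⁻¹) → (∀ γ x, B (p γ * x) = ρ γ * B x * ρ γ⁻¹) →
      ∀ g, HasSum (fun γ => ⟪A (p γ * g) ω, B (p γ * g) ω⟫_ℂ) (hip h.basis (A g) (B g)) := by
    intro A B hA hB eA eB g
    have h1 := (summable_hip (hA.hs g) (hB.hs g)).hasSum
    have h2 := (Equiv.inv Γ).hasSum_iff.mpr h1
    refine Eq.mp ?_ h2
    congr 1
    funext γ
    simp only [Function.comp_apply, Equiv.inv_apply, h.basis_apply]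
    rw [eA, eB]
    have e : ∀ T : K →L[ℂ] K, (ρ γ * T * ρ γ⁻¹) ω = ρ γ (T (ρ γ⁻¹ ω)) := fun T => rfl
    rw [e, e, h.inner_map]
  refine unf_abs (μ := μ) p ((cA.clm_apply continuous_const).inner (cB.clm_apply continuous_const))
    hi (hA.continuous_hip hB) (key hA hB eA eB) (h := fun x => ‖A x ω‖ ^ 2)
    ((cA.clm_apply continuous_const).norm.pow 2) (fun _ => by positivity)
    (N := fun x => (hip h.basis (A x) (A x)).re)
    (Complex.continuous_re.comp (hA.continuous_hip hA)).measurable ?_ ?_ hφ g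
  · intro g
    have h1 := Complex.hasSum_re (key hA hA eA eA g)
    refine Eq.mp ?_ h1
    congr 1
    funext γ
    rw [inner_self_eq_norm_sq_to_K]
    norm_cast
  · intro g hg
    have h1 : A g ω = 0 := by
      rw [← norm_eq_zero]
      exact pow_eq_zero_iff two_ne_zero |>.mp hg
    rw [h1, inner_zero_left]

end abs

end Vale.Agent.P092.H34.K
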